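import Mathlib
import Claimed.Prelude.Def_0468
import Claimed.Agent.R291.Top.Mom

/-!
# Row 292 (S0540), Api : THE DOOR TO THE FROZEN DEFINITIONS + FINITE-VOLUME API + TOP REDUCTION      (owner helper292; prefix `at92_`, defs `at92*`)

Mathlib + the frozen Def_0468 + the method of moments of R291 (`tmm_gauss`, `tmmLaw`).
* `at92_eqns_cite`      every on-demand equation lemma of the frozen definitions is cited ONCE, here (import this file, never Def_0468 directly)
* constants             `0 < atT U < 1`, `(atT U)⁻¹ = √(1 + e^{4U})`, on the critical line with `U ≤ J`: `e^{4U} ≤ 3`, `1 < (atT U)⁻¹ ≤ 2`, `4/3 < atG U ≤ 4`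
* finite volume         `at92Adm F` admissible pairs, all-plus is admissible, `0 < Z`, `atExpect` = weighted mean over `at92Adm F`
* `at92Law`             law of the smeared height; `at92_law_integral : ∫ g ∂at92Law = atExpect .. g` (ANY `g`)
* **`at92_top`**        all moments `atExpect t (δ n) (F n) φ (· ^ k) → tmmWick v k`  ⟹  the frozen conclusion with variance `v.toNNReal`
-/

set_option autoImplicit false

namespace Claimed.Agent.R292

open MeasureTheory ProbabilityTheory Filter Topology BoundedContinuousFunction Set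
open scoped NNReal ENNReal
open Claims Claims.C0468
open Claimed.Agent.R291

theorem at92_eqns_cite : True := by
  have := @faceRegionSq.eq_1; have := @faceRegionSq.eq_def
  have := @IsAdmissibleApprox.eq_1; have := @IsAdmissibleApprox.eq_def
  have := @cornersOf.eq_1; have := @cornersOf.eq_def
  have := @OnPolygon.eq_1; have := @OnPolygon.eq_def
  have := @atSpin.eq_1; have := @atSpin.eq_def
  have := @atDual.eq_1; have := @atDual.eq_def
  have := @atDisagreements.eq_1; have := @atDisagreements.eq_def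
  have := @IsAdmissibleSpins.eq_1; have := @IsAdmissibleSpins.eq_def
  have := @IsATHeight.eq_1; have := @IsATHeight.eq_def
  have := @atHeight.eq_1; have := @atHeight.eq_def
  have := @atExpect.eq_1; have := @atExpect.eq_def
  have := @atT.eq_1; have := @atT.eq_def
  have := @atG.eq_1; have := @atG.eq_def
  have := @Claims.C0468.lap2.eq_1; have := @Claims.C0468.lap2.eq_def
  trivial

/-! ### the constants -/

theorem at92_base_pos (U : ℝ) : 0 < 1 + Real.exp (4 * U) := by positivity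

theorem at92_T_pos (U : ℝ) : 0 < atT U := by
  unfold atT
  exact Real.rpow_pos_of_pos (at92_base_pos U) _

theorem at92_T_inv (U : ℝ) : (atT U)⁻¹ = Real.sqrt (1 + Real.exp (4 * U)) := by
  unfold atT
  rw [← Real.rpow_neg (at92_base_pos U).le, Real.sqrt_eq_rpow]
  norm_num

theorem at92_one_lt_inv (U : ℝ) : 1 < (atT U)⁻¹ := by
  rw [at92_T_inv]
  have : (1 : ℝ) < 1 + Real.exp (4 * U) := by have := Real.exp_pos (4 * U); linarith
  calc (1 : ℝ) = Real.sqrt 1 := Real.sqrt_one.symm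
    _ < _ := Real.sqrt_lt_sqrt zero_le_one this

theorem at92_T_lt_one (U : ℝ) : atT U < 1 := by
  have h := at92_one_lt_inv U
  have h0 := at92_T_pos U
  exact (inv_lt_one₀ (inv_pos.2 h0)).2 h |> fun h' => by simpa using h'

/-- on the critical line below the Potts point -/
theorem at92_exp_le_three {J U : ℝ} (hUJ : U ≤ J) (hcrit : Real.sinh (2 * J) = Real.exp (-2 * U)) :
    Real.exp (4 * U) ≤ 3 := by
  have h1 : Real.sinh (2 * U) ≤ Real.sinh (2 * J) := Real.sinh_le_sinh.2 (by linarith)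
  rw [hcrit, Real.sinh_eq] at h1
  have e1 : Real.exp (-(2 * U)) = Real.exp (-2 * U) := by congr 1; ring
  rw [e1] at h1
  have h2 : Real.exp (2 * U) ≤ 3 * Real.exp (-2 * U) := by linarith
  have h3 : Real.exp (4 * U) = Real.exp (2 * U) * Real.exp (2 * U) := by rw [← Real.exp_add]; congr 1; ring
  have h4 : Real.exp (-2 * U) * Real.exp (2 * U) = 1 := by rw [← Real.exp_add]; simp
  have h5 : 0 < Real.exp (2 * U) := Real.exp_pos _
  calc Real.exp (4 * U) = Real.exp (2 * U) * Real.exp (2 * U) := h3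
    _ ≤ (3 * Real.exp (-2 * U)) * Real.exp (2 * U) := by gcongr
    _ = 3 := by rw [mul_assoc, h4, mul_one]

theorem at92_inv_le_two {J U : ℝ} (hUJ : U ≤ J) (hcrit : Real.sinh (2 * J) = Real.exp (-2 * U)) :
    (atT U)⁻¹ ≤ 2 := by
  rw [at92_T_inv]
  have h := at92_exp_le_three hUJ hcrit
  calc Real.sqrt (1 + Real.exp (4 * U)) ≤ Real.sqrt (2 ^ 2) := Real.sqrt_le_sqrt (by linarith)
    _ = 2 := Real.sqrt_sq (by norm_num)

theorem at92_G_gt (U : ℝ) : 4 / 3 < atG U := by
  unfold atG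
  have h1 : (1 : ℝ) / 2 < (atT U)⁻¹ / 2 := by have := at92_one_lt_inv U; linarith
  have h2 : Real.pi / 6 < Real.arcsin ((atT U)⁻¹ / 2) := by
    by_cases hle : (atT U)⁻¹ / 2 ≤ 1
    · have : Real.arcsin (1 / 2) < Real.arcsin ((atT U)⁻¹ / 2) :=
        Real.arcsin_lt_arcsin (by norm_num) h1 hle
      have e : Real.arcsin (1 / 2) = Real.pi / 6 := by
        rw [← Real.sin_pi_div_six]
        exact Real.arcsin_sin (by have := Real.pi_pos; linarith) (by have := Real.pi_pos; linarith)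
      rwa [e] at this
    · rw [Real.arcsin_of_one_le (not_le.1 hle).le]
      have := Real.pi_pos; linarith
  have hp := Real.pi_pos
  rw [lt_div_iff₀ hp]
  linarith

theorem at92_G_le (U : ℝ) : atG U ≤ 4 := by
  unfold atG
  have hp := Real.pi_pos
  rw [div_le_iff₀ hp]
  have := Real.arcsin_le_pi_div_two ((atT U)⁻¹ / 2)
  linarith

theorem at92_G_pos (U : ℝ) : 0 < atG U := lt_trans (by norm_num) (at92_G_gt U)

/-! ### finite volume -/

/-- pairs (primal spins, dual spins) -/
abbrev at92Cfg (F : Finset (ℤ × ℤ)) : Type := (cornersOf F → Bool) × (F → Bool)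

open Classical in
/-- the admissible pairs -/
noncomputable def at92Adm (F : Finset (ℤ × ℤ)) : Finset (at92Cfg F) :=
  Finset.univ.filter fun p => IsAdmissibleSpins p.1 p.2

theorem at92_mem_adm {F : Finset (ℤ × ℤ)} (p : at92Cfg F) : p ∈ at92Adm F ↔ IsAdmissibleSpins p.1 p.2 := by
  classical
  simp [at92Adm]

/-- the all-plus pair -/
def at92Plus (F : Finset (ℤ × ℤ)) : at92Cfg F := (fun _ => true, fun _ => true)

theorem at92_spin_plus (F : Finset (ℤ × ℤ)) (v : ℤ × ℤ) : atSpin (at92Plus F).1 v = 1 := by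
  unfold atSpin at92Plus
  split_ifs <;> simp_all

theorem at92_dual_plus (F : Finset (ℤ × ℤ)) (f : ℤ × ℤ) : atDual (at92Plus F).2 f = 1 := by
  unfold atDual at92Plus
  split_ifs <;> simp_all

theorem at92_plus_adm (F : Finset (ℤ × ℤ)) : at92Plus F ∈ at92Adm F := by
  rw [at92_mem_adm]
  refine ⟨fun v _ _ => at92_spin_plus F v, fun v _ => ⟨fun _ => ?_, fun _ => ?_⟩⟩ <;>
  simp [at92_spin_plus]

theorem at92_spin_sq {F : Finset (ℤ × ℤ)} (τ : cornersOf F → Bool) (v : ℤ × ℤ) :
    atSpin τ v = 1 ∨ atSpin τ v = -1 := by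
  unfold atSpin
  split_ifs <;> simp

theorem at92_dual_sq {F : Finset (ℤ × ℤ)} (τd : F → Bool) (f : ℤ × ℤ) :
    atDual τd f = 1 ∨ atDual τd f = -1 := by
  unfold atDual
  split_ifs <;> simp

/-- the weight -/
noncomputable def at92W (t : ℝ) {F : Finset (ℤ × ℤ)} (p : at92Cfg F) : ℝ := t ^ atDisagreements p.1 p.2

/-- the smeared height -/
noncomputable def at92X (δ : ℝ) {F : Finset (ℤ × ℤ)} (φ : ℝ × ℝ → ℝ) (p : at92Cfg F) : ℝ :=
  δ ^ 2 * ∑ v ∈ cornersOf F, atHeight p.1 p.2 v * φ (δ * v.1, δ * v.2)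

theorem at92_Z_pos {t : ℝ} (ht : 0 < t) (F : Finset (ℤ × ℤ)) : 0 < ∑ p ∈ at92Adm F, at92W t p :=
  Finset.sum_pos (fun _ _ => pow_pos ht _) ⟨_, at92_plus_adm F⟩

theorem at92_expect_eq (t δ : ℝ) (F : Finset (ℤ × ℤ)) (φ : ℝ × ℝ → ℝ) (ψ : ℝ → ℝ) :
    atExpect t δ F φ ψ = (∑ p ∈ at92Adm F, at92W t p * ψ (at92X δ φ p)) / ∑ p ∈ at92Adm F, at92W t p := by
  classical
  unfold atExpect at92Adm at92W at92X
  rw [Finset.sum_filter, Finset.sum_filter, ← Finset.univ_product_univ, Finset.sum_product, Finset.sum_product]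

/-- the law of the smeared height -/
noncomputable def at92Law (t δ : ℝ) (F : Finset (ℤ × ℤ)) (φ : ℝ × ℝ → ℝ) : Measure ℝ :=
  tmmLaw (at92Adm F) (at92W t) (at92X δ φ)

theorem at92_law_prob {t : ℝ} (ht : 0 < t) (δ : ℝ) (F : Finset (ℤ × ℤ)) (φ : ℝ × ℝ → ℝ) :
    IsProbabilityMeasure (at92Law t δ F φ) :=
  tmm_law_prob _ _ _ (fun _ _ => (pow_pos ht _).le) (at92_Z_pos ht F)

theorem at92_law_integral {t : ℝ} (ht : 0 < t) (δ : ℝ) (F : Finset (ℤ × ℤ)) (φ : ℝ × ℝ → ℝ) (g : ℝ → ℝ) :
    ∫ s, g s ∂at92Law t δ F φ = atExpect t δ F φ g := by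
  rw [at92_expect_eq]
  exact tmm_law_integral _ _ _ (fun _ _ => (pow_pos ht _).le) (at92_Z_pos ht F) g

/-- **TOP reduction**: convergence of all moments of the smeared height to the Wick numbers gives the frozen conclusion -/
theorem at92_top {t : ℝ} (ht : 0 < t) (δ : ℕ → ℝ) (F : ℕ → Finset (ℤ × ℤ)) (φ : ℝ × ℝ → ℝ) (v : ℝ)
    (hmom : ∀ k : ℕ, Tendsto (fun n => atExpect t (δ n) (F n) φ fun s => s ^ k) atTop (𝓝 (tmmWick v k)))
    (ψ : ℝ →ᵇ ℝ) :
    Tendsto (fun n => atExpect t (δ n) (F n) φ ψ) atTop (𝓝 (∫ s, ψ s ∂gaussianReal 0 v.toNNReal)) := by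
  have := fun n => at92_law_prob ht (δ n) (F n) φ
  have h := tmm_gauss (fun n => at92Law t (δ n) (F n) φ) (fun n k => tmm_law_integrable _ _ _ _) v
    (by simpa only [at92_law_integral ht] using hmom) ψ
  simpa only [at92_law_integral ht] using h

end Claimed.Agent.R292
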