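import Mathlib
import Claimed.Prelude.Def_0468

/-!
# Row 292 (S0540), unit TOP : the faces outside `F` are 8-connected      (owner helper30; prefix `at30_`, defs `at30*`)

Step (C) of the plan for `atHeight` (no Jordan curve theorem): if the frontier of `faceRegionSq d F` is connected, then the
faces of `ℤ²` that are NOT in `F` form one class for the corner-sharing adjacency `at30Adj`.

* `at30Sq d f`            the closed square of the face `f`
* `at30_compl_region`     `(faceRegionSq d F)ᶜ = ⋃ f ∉ F, at30Sq d f`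
* **`at30_compl_conn`**   a set of faces that contains a face outside `F` and is closed under `at30Adj` inside the complement
                          of `F` contains every face outside `F`
* `at30_of_approx`        `IsAdmissibleApprox D δ F` gives `0 < δ n` and the connectedness of the frontier
-/

set_option autoImplicit false

namespace Claimed.Agent.R292

open Claims Claims.C0468 Set Filter Topology

/-- the closed square of the face `f` at mesh `d` -/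
def at30Sq (d : ℝ) (f : ℤ × ℤ) : Set (ℝ × ℝ) :=
  Set.Icc (d * f.1) (d * (f.1 + 1)) ×ˢ Set.Icc (d * f.2) (d * (f.2 + 1))

/-- the open square of the face `f` at mesh `d` -/
def at30Osq (d : ℝ) (f : ℤ × ℤ) : Set (ℝ × ℝ) :=
  Set.Ioo (d * f.1) (d * (f.1 + 1)) ×ˢ Set.Ioo (d * f.2) (d * (f.2 + 1))

/-- corner-sharing adjacency of faces (equality included) -/
def at30Adj (f g : ℤ × ℤ) : Prop := |f.1 - g.1| ≤ 1 ∧ |f.2 - g.2| ≤ 1

theorem at30_region_eq (d : ℝ) (F : Finset (ℤ × ℤ)) :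
    faceRegionSq d F = interior (⋃ f ∈ F, at30Sq d f) := rfl

theorem at30_sq_nonempty {d : ℝ} (hd : 0 < d) (f : ℤ × ℤ) : (at30Sq d f).Nonempty := by
  refine ⟨(d * f.1, d * f.2), ⟨le_rfl, ?_⟩, ⟨le_rfl, ?_⟩⟩ <;> nlinarith

theorem at30_isClosed_sq (d : ℝ) (f : ℤ × ℤ) : IsClosed (at30Sq d f) :=
  isClosed_Icc.prod isClosed_Icc

theorem at30_cover {d : ℝ} (hd : 0 < d) (x : ℝ × ℝ) : ∃ f, x ∈ at30Sq d f := by
  refine ⟨(⌊x.1 / d⌋, ⌊x.2 / d⌋), ⟨?_, ?_⟩, ⟨?_, ?_⟩⟩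
  · have := Int.floor_le (x.1 / d)
    rw [le_div_iff₀ hd] at this
    simpa [mul_comm] using this
  · have := (Int.lt_floor_add_one (x.1 / d)).le
    rw [div_le_iff₀ hd] at this
    simpa [mul_comm] using this
  · have := Int.floor_le (x.2 / d)
    rw [le_div_iff₀ hd] at this
    simpa [mul_comm] using this
  · have := (Int.lt_floor_add_one (x.2 / d)).le
    rw [div_le_iff₀ hd] at this
    simpa [mul_comm] using this

/-- one coordinate: two closed cells that meet are neighbours -/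
theorem at30_coord_le {d : ℝ} (hd : 0 < d) {a b : ℤ} {t : ℝ} (h1 : d * a ≤ t) (h2 : t ≤ d * (b + 1)) :
    a - b ≤ 1 := by
  have h : (a : ℝ) ≤ b + 1 := le_of_mul_le_mul_left (h1.trans h2) hd
  have : a ≤ b + 1 := by exact_mod_cast h
  omega

theorem at30_coord_lt {d : ℝ} (hd : 0 < d) {a b : ℤ} {t : ℝ} (h1 : d * a < t) (h2 : t ≤ d * (b + 1)) :
    a - b ≤ 0 := by
  have h : (a : ℝ) < b + 1 := lt_of_mul_lt_mul_left (h1.trans_le h2) hd.le
  have : a < b + 1 := by exact_mod_cast h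
  omega

theorem at30_coord_lt' {d : ℝ} (hd : 0 < d) {a b : ℤ} {t : ℝ} (h1 : d * a ≤ t) (h2 : t < d * (b + 1)) :
    a - b ≤ 0 := by
  have h : (a : ℝ) < b + 1 := lt_of_mul_lt_mul_left (h1.trans_lt h2) hd.le
  have : a < b + 1 := by exact_mod_cast h
  omega

theorem at30_adj_of_mem {d : ℝ} (hd : 0 < d) {f g : ℤ × ℤ} {x : ℝ × ℝ} (hf : x ∈ at30Sq d f)
    (hg : x ∈ at30Sq d g) : at30Adj f g := by
  obtain ⟨⟨f1, f2⟩, ⟨f3, f4⟩⟩ := hf
  obtain ⟨⟨g1, g2⟩, ⟨g3, g4⟩⟩ := hg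
  constructor
  · rw [abs_le]
    have := at30_coord_le hd f1 g2
    have := at30_coord_le hd g1 f2
    constructor <;> omega
  · rw [abs_le]
    have := at30_coord_le hd f3 g4
    have := at30_coord_le hd g3 f4
    constructor <;> omega

theorem at30_eq_of_mem_osq {d : ℝ} (hd : 0 < d) {f g : ℤ × ℤ} {x : ℝ × ℝ} (hf : x ∈ at30Osq d f)
    (hg : x ∈ at30Sq d g) : g = f := by
  obtain ⟨⟨f1, f2⟩, ⟨f3, f4⟩⟩ := hf
  obtain ⟨⟨g1, g2⟩, ⟨g3, g4⟩⟩ := hg
  have a1 := at30_coord_lt hd f1 g2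
  have a2 := at30_coord_lt' hd g1 f2
  have a3 := at30_coord_lt hd f3 g4
  have a4 := at30_coord_lt' hd g3 f4
  ext <;> omega

theorem at30_sq_subset_closure {d : ℝ} (hd : 0 < d) (f : ℤ × ℤ) : at30Sq d f ⊆ closure (at30Osq d f) := by
  unfold at30Sq at30Osq
  rw [closure_prod_eq, closure_Ioo (by nlinarith), closure_Ioo (by nlinarith)]

theorem at30_locallyFinite {d : ℝ} (hd : 0 < d) : LocallyFinite (at30Sq d) := by
  intro x
  refine ⟨Set.Ioo (x.1 - d) (x.1 + d) ×ˢ Set.Ioo (x.2 - d) (x.2 + d), ?_, ?_⟩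
  · exact prod_mem_nhds (Ioo_mem_nhds (by linarith) (by linarith)) (Ioo_mem_nhds (by linarith) (by linarith))
  · obtain ⟨e, ⟨e1, e2⟩, ⟨e3, e4⟩⟩ := at30_cover hd x
    refine (Set.finite_Icc (e.1 - 2, e.2 - 2) (e.1 + 2, e.2 + 2)).subset ?_
    rintro f ⟨y, ⟨⟨f1, f2⟩, ⟨f3, f4⟩⟩, ⟨⟨y1, y2⟩, ⟨y3, y4⟩⟩⟩
    have b1 : f.1 - (e.1 + 1) ≤ 0 := at30_coord_lt' hd (b := e.1 + 1) f1 (by push_cast; nlinarith)
    have b2 : (e.1 - 1) - f.1 ≤ 0 := at30_coord_lt hd (a := e.1 - 1) (t := y.1) (by push_cast; nlinarith) f2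
    have b3 : f.2 - (e.2 + 1) ≤ 0 := at30_coord_lt' hd (b := e.2 + 1) f3 (by push_cast; nlinarith)
    have b4 : (e.2 - 1) - f.2 ≤ 0 := at30_coord_lt hd (a := e.2 - 1) (t := y.2) (by push_cast; nlinarith) f4
    refine ⟨⟨?_, ?_⟩, ⟨?_, ?_⟩⟩ <;> simp only <;> omega

theorem at30_isClosed_union {d : ℝ} (hd : 0 < d) (A : Set (ℤ × ℤ)) : IsClosed (⋃ f ∈ A, at30Sq d f) := by
  rw [Set.biUnion_eq_iUnion]
  exact ((at30_locallyFinite hd).comp_injective Subtype.val_injective).isClosed_iUnion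
    fun f => at30_isClosed_sq d f

/-- the complement of the open face region is the union of the closed squares of the faces outside `F` -/
theorem at30_compl_region {d : ℝ} (hd : 0 < d) (F : Finset (ℤ × ℤ)) :
    (faceRegionSq d F)ᶜ = ⋃ f ∈ {f : ℤ × ℤ | f ∉ F}, at30Sq d f := by
  rw [at30_region_eq]
  apply Set.Subset.antisymm
  · intro x hx
    by_contra hxC
    apply hx
    have hopen : IsOpen (⋃ f ∈ {f : ℤ × ℤ | f ∉ F}, at30Sq d f)ᶜ := (at30_isClosed_union hd _).isOpen_compl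
    refine mem_interior.2 ⟨_, ?_, hopen, hxC⟩
    intro y hy
    obtain ⟨g, hg⟩ := at30_cover hd y
    by_cases hgF : g ∈ F
    · exact Set.mem_biUnion hgF hg
    · exact absurd (Set.mem_biUnion (show g ∈ {f : ℤ × ℤ | f ∉ F} from hgF) hg) hy
  · intro x hx hxi
    simp only [Set.mem_iUnion, Set.mem_ofPred_eq, exists_prop] at hx
    obtain ⟨f, hfF, hxf⟩ := hx
    have hcl := at30_sq_subset_closure hd f hxf
    obtain ⟨y, hyU, hyO⟩ := mem_closure_iff.1 hcl _ isOpen_interior hxi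
    have hyU' := interior_subset hyU
    simp only [Set.mem_iUnion, exists_prop] at hyU'
    obtain ⟨g, hgF, hyg⟩ := hyU'
    exact hfF (at30_eq_of_mem_osq hd hyO hyg ▸ hgF)

/-- a piece of a disjoint closed union that misses the frontier of the union is open -/
theorem at30_isOpen_piece {X : Type*} [TopologicalSpace X] {C₁ C₂ : Set X} (h₁ : IsClosed C₁)
    (hd : Disjoint C₁ C₂) (hfr : Disjoint (frontier (C₁ ∪ C₂)) C₂) : IsOpen C₂ := by
  rw [isOpen_iff_mem_nhds]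
  intro x hx
  have hxi : x ∈ interior (C₁ ∪ C₂) := by
    by_contra h
    exact Set.disjoint_left.1 hfr ⟨subset_closure (Or.inr hx), h⟩ hx
  have hx1 : x ∈ C₁ᶜ := fun h => Set.disjoint_left.1 hd h hx
  refine Filter.mem_of_superset (Filter.inter_mem (isOpen_interior.mem_nhds hxi) (h₁.isOpen_compl.mem_nhds hx1)) ?_
  rintro y ⟨hy, hy1⟩
  exact (interior_subset hy).resolve_left hy1

/-- in a connected space two disjoint nonempty closed sets cannot have a union with connected frontier -/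
theorem at30_false_of_pieces {X : Type*} [TopologicalSpace X] [PreconnectedSpace X] {C₁ C₂ : Set X}
    (h₁ : IsClosed C₁) (h₂ : IsClosed C₂) (hd : Disjoint C₁ C₂) (n₁ : C₁.Nonempty) (n₂ : C₂.Nonempty)
    (hc : IsPreconnected (frontier (C₁ ∪ C₂))) : False := by
  have hsub : frontier (C₁ ∪ C₂) ⊆ C₁ ∪ C₂ := (h₁.union h₂).frontier_subset
  have key : ∀ {D₁ D₂ : Set X}, IsClosed D₁ → IsClosed D₂ → Disjoint D₁ D₂ → D₁.Nonempty → D₂.Nonempty →
      Disjoint (frontier (D₁ ∪ D₂)) D₂ → False := by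
    intro D₁ D₂ g₁ g₂ gd m₁ m₂ gfr
    have hclopen : IsClopen D₂ := ⟨g₂, at30_isOpen_piece g₁ gd gfr⟩
    have huniv := hclopen.eq_univ m₂
    obtain ⟨x, hx⟩ := m₁
    exact Set.disjoint_left.1 gd hx (huniv ▸ Set.mem_univ x)
  by_cases c₂ : (frontier (C₁ ∪ C₂) ∩ C₂).Nonempty
  · by_cases c₁ : (frontier (C₁ ∪ C₂) ∩ C₁).Nonempty
    · obtain ⟨x, -, hx1, hx2⟩ := isPreconnected_closed_iff.1 hc C₁ C₂ h₁ h₂ hsub c₁ c₂
      exact Set.disjoint_left.1 hd hx1 hx2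
    · refine key h₂ h₁ hd.symm n₂ n₁ ?_
      rw [Set.union_comm]
      exact Set.disjoint_iff_inter_eq_empty.2 (Set.not_nonempty_iff_eq_empty.1 c₁)
  · exact key h₁ h₂ hd n₁ n₂ (Set.disjoint_iff_inter_eq_empty.2 (Set.not_nonempty_iff_eq_empty.1 c₂))

/-- **The faces outside `F` are 8-connected** as soon as the frontier of the face region is connected. -/
theorem at30_compl_conn {d : ℝ} (hd : 0 < d) (F : Finset (ℤ × ℤ))
    (hc : IsPreconnected (frontier (faceRegionSq d F))) (S : Set (ℤ × ℤ)) (f0 : ℤ × ℤ) (h0 : f0 ∉ F)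
    (h0S : f0 ∈ S) (hS : ∀ f g, f ∉ F → g ∉ F → at30Adj f g → f ∈ S → g ∈ S) :
    ∀ g, g ∉ F → g ∈ S := by
  intro g0 hg0
  by_contra hg0S
  have hunion : (faceRegionSq d F)ᶜ =
      (⋃ f ∈ {f : ℤ × ℤ | f ∉ F ∧ f ∈ S}, at30Sq d f) ∪ ⋃ f ∈ {f : ℤ × ℤ | f ∉ F ∧ f ∉ S}, at30Sq d f := by
    have hset : {f : ℤ × ℤ | f ∉ F} = {f : ℤ × ℤ | f ∉ F ∧ f ∈ S} ∪ {f : ℤ × ℤ | f ∉ F ∧ f ∉ S} := by
      ext f
      simp only [Set.mem_ofPred_eq, Set.mem_union]
      tauto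
    rw [at30_compl_region hd, hset, Set.biUnion_union]
  have hfr : frontier (faceRegionSq d F) = frontier
      ((⋃ f ∈ {f : ℤ × ℤ | f ∉ F ∧ f ∈ S}, at30Sq d f) ∪ ⋃ f ∈ {f : ℤ × ℤ | f ∉ F ∧ f ∉ S}, at30Sq d f) := by
    rw [← hunion, frontier_compl]
  rw [hfr] at hc
  refine at30_false_of_pieces (at30_isClosed_union hd _) (at30_isClosed_union hd _) ?_ ?_ ?_ hc
  · rw [Set.disjoint_left]
    intro x hx1 hx2
    simp only [Set.mem_iUnion, Set.mem_ofPred_eq, exists_prop] at hx1 hx2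
    obtain ⟨f, ⟨hfF, hfS⟩, hxf⟩ := hx1
    obtain ⟨g, ⟨hgF, hgS⟩, hxg⟩ := hx2
    exact hgS (hS f g hfF hgF (at30_adj_of_mem hd hxf hxg) hfS)
  · obtain ⟨x, hx⟩ := at30_sq_nonempty hd f0
    exact ⟨x, Set.mem_biUnion (show f0 ∈ {f : ℤ × ℤ | f ∉ F ∧ f ∈ S} from ⟨h0, h0S⟩) hx⟩
  · obtain ⟨x, hx⟩ := at30_sq_nonempty hd g0
    exact ⟨x, Set.mem_biUnion (show g0 ∈ {f : ℤ × ℤ | f ∉ F ∧ f ∉ S} from ⟨hg0, hg0S⟩) hx⟩

/-- what `IsAdmissibleApprox` gives for the height: positive mesh and a connected frontier -/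
theorem at30_of_approx {D : Set (ℝ × ℝ)} {δ : ℕ → ℝ} {F : ℕ → Finset (ℤ × ℤ)} (happ : IsAdmissibleApprox D δ F)
    (n : ℕ) : 0 < δ n ∧ IsPreconnected (frontier (faceRegionSq (δ n) (F n))) := by
  obtain ⟨hpos, -, -, γ, γs, -, -, -, hγs, -⟩ := happ
  refine ⟨hpos n, ?_⟩
  obtain ⟨hcont, -, hrange⟩ := hγs n
  rw [← hrange]
  exact isPreconnected_range hcont

/-- the form used by the height: under `IsAdmissibleApprox` the faces outside `F n` are 8-connected -/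
theorem at30_compl_conn_of_approx {D : Set (ℝ × ℝ)} {δ : ℕ → ℝ} {F : ℕ → Finset (ℤ × ℤ)}
    (happ : IsAdmissibleApprox D δ F) (n : ℕ) (S : Set (ℤ × ℤ)) (f0 : ℤ × ℤ) (h0 : f0 ∉ F n) (h0S : f0 ∈ S)
    (hS : ∀ f g, f ∉ F n → g ∉ F n → at30Adj f g → f ∈ S → g ∈ S) : ∀ g, g ∉ F n → g ∈ S :=
  at30_compl_conn (at30_of_approx happ n).1 (F n) (at30_of_approx happ n).2 S f0 h0 h0S hS

end Claimed.Agent.R292
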