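import Claimed.Prelude.Def_0468

/-!
# Row 292 (S0540), R292/AtHeight : THE HEIGHT FUNCTION OF `Def_0468`      (helper212, prefix `at2h_`)

Needed on every route: the frozen `atHeight` is `Classical.choose` of a solution of `IsATHeight` when one exists and `0` otherwise.

* sec.1  potentials on `ℤ` and on `ℤ × ℤ` (a curl free pair `dx, dy` is a gradient)
* sec.2  the plane height of a closed pair of spin fields
* sec.3  extended spins `atSpin τ`, `atDual τd` of an admissible pair are closed on the whole of `ℤ × ℤ`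
* sec.4  `At2hConn F`: the complement of `F` is connected for "two faces share a corner";  existence of the height
* sec.5  uniqueness of the height on `cornersOf F` and on `F` (every finite `F`)
* sec.6  topology: a connected frontier of `faceRegionSq δ F` gives `At2hConn F` (no Jordan curve theorem)
* sec.7  `atHeight` satisfies its specification under `IsAdmissibleApprox`; flip of the dual spins; positivity of the partition function
-/

set_option autoImplicit false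

namespace Claimed.Agent.R292

open Claims Claims.C0468 Set

/-! ## 1. Potentials -/

/-- discrete primitive on `ℤ` -/
noncomputable def at2hPrim (g : ℤ → ℝ) (n : ℤ) : ℝ :=
  ∑ i ∈ Finset.Ico 0 n, g i - ∑ i ∈ Finset.Ico n 0, g i

theorem at2h_prim_zero (g : ℤ → ℝ) : at2hPrim g 0 = 0 := by
  simp [at2hPrim]

theorem at2h_prim_succ (g : ℤ → ℝ) (n : ℤ) : at2hPrim g (n + 1) - at2hPrim g n = g n := by
  unfold at2hPrim
  rcases le_or_gt 0 n with h | h
  · have e1 : Finset.Ico (0 : ℤ) (n + 1) = insert n (Finset.Ico 0 n) := by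
      ext i; simp only [Finset.mem_Ico, Finset.mem_insert]; omega
    have e2 : Finset.Ico (n + 1) (0 : ℤ) = ∅ := Finset.Ico_eq_empty (by omega)
    have e3 : Finset.Ico n (0 : ℤ) = ∅ := Finset.Ico_eq_empty (by omega)
    rw [e1, e2, e3, Finset.sum_insert (by simp)]
    simp
  · have e1 : Finset.Ico n (0 : ℤ) = insert n (Finset.Ico (n + 1) 0) := by
      ext i; simp only [Finset.mem_Ico, Finset.mem_insert]; omega
    have e2 : Finset.Ico (0 : ℤ) (n + 1) = ∅ := Finset.Ico_eq_empty (by omega)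
    have e3 : Finset.Ico (0 : ℤ) n = ∅ := Finset.Ico_eq_empty (by omega)
    rw [e1, e2, e3, Finset.sum_insert (by simp)]
    simp

/-- a function on `ℤ` with vanishing increments which vanishes at `0` vanishes. -/
theorem at2h_int_const {E : ℤ → ℝ} (h0 : E 0 = 0) (hs : ∀ n, E (n + 1) = E n) (n : ℤ) : E n = 0 := by
  induction n using Int.induction_on with
  | zero => exact h0
  | succ k ih => rw [hs, ih]
  | pred k ih =>
    have := hs (-(k : ℤ) - 1)
    rw [sub_add_cancel] at this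
    rw [← this, ih]

/-- **a curl free field on `ℤ × ℤ` is a gradient.** -/
theorem at2h_potential (dx dy : ℤ × ℤ → ℝ)
    (hcurl : ∀ a b : ℤ, dx (a, b) + dy (a + 1, b) = dy (a, b) + dx (a, b + 1)) :
    ∃ H : ℤ × ℤ → ℝ, (∀ a b : ℤ, H (a + 1, b) - H (a, b) = dx (a, b)) ∧
      ∀ a b : ℤ, H (a, b + 1) - H (a, b) = dy (a, b) := by
  refine ⟨fun v => at2hPrim (fun a => dx (a, 0)) v.1 + at2hPrim (fun b => dy (v.1, b)) v.2, ?_, ?_⟩
  · intro a b
    have h0 : at2hPrim (fun a => dx (a, 0)) (a + 1) - at2hPrim (fun a => dx (a, 0)) a = dx (a, 0) :=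
      at2h_prim_succ (fun a => dx (a, 0)) a
    have key : (at2hPrim (fun a => dx (a, 0)) (a + 1) + at2hPrim (fun b => dy (a + 1, b)) b)
        - (at2hPrim (fun a => dx (a, 0)) a + at2hPrim (fun b => dy (a, b)) b) - dx (a, b) = 0 :=
      at2h_int_const
      (E := fun b => (at2hPrim (fun a => dx (a, 0)) (a + 1) + at2hPrim (fun b => dy (a + 1, b)) b)
        - (at2hPrim (fun a => dx (a, 0)) a + at2hPrim (fun b => dy (a, b)) b) - dx (a, b))
      (by
        show (at2hPrim (fun a => dx (a, 0)) (a + 1) + at2hPrim (fun b => dy (a + 1, b)) 0)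
          - (at2hPrim (fun a => dx (a, 0)) a + at2hPrim (fun b => dy (a, b)) 0) - dx (a, 0) = 0
        rw [at2h_prim_zero, at2h_prim_zero]
        linarith)
      (by
        intro n
        have h1 : at2hPrim (fun b => dy (a + 1, b)) (n + 1) - at2hPrim (fun b => dy (a + 1, b)) n
            = dy (a + 1, n) := at2h_prim_succ (fun b => dy (a + 1, b)) n
        have h2 : at2hPrim (fun b => dy (a, b)) (n + 1) - at2hPrim (fun b => dy (a, b)) n
            = dy (a, n) := at2h_prim_succ (fun b => dy (a, b)) n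
        have h3 := hcurl a n
        show (at2hPrim (fun a => dx (a, 0)) (a + 1) + at2hPrim (fun b => dy (a + 1, b)) (n + 1))
          - (at2hPrim (fun a => dx (a, 0)) a + at2hPrim (fun b => dy (a, b)) (n + 1)) - dx (a, n + 1)
          = (at2hPrim (fun a => dx (a, 0)) (a + 1) + at2hPrim (fun b => dy (a + 1, b)) n)
          - (at2hPrim (fun a => dx (a, 0)) a + at2hPrim (fun b => dy (a, b)) n) - dx (a, n)
        linarith) b
    show (at2hPrim (fun a => dx (a, 0)) (a + 1) + at2hPrim (fun b => dy (a + 1, b)) b)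
        - (at2hPrim (fun a => dx (a, 0)) a + at2hPrim (fun b => dy (a, b)) b) = dx (a, b)
    linarith
  · intro a b
    have h2 : at2hPrim (fun b => dy (a, b)) (b + 1) - at2hPrim (fun b => dy (a, b)) b
        = dy (a, b) := at2h_prim_succ (fun b => dy (a, b)) b
    show (at2hPrim (fun a => dx (a, 0)) a + at2hPrim (fun b => dy (a, b)) (b + 1))
        - (at2hPrim (fun a => dx (a, 0)) a + at2hPrim (fun b => dy (a, b)) b) = dy (a, b)
    linarith

/-! ## 2. The plane height of a closed pair of spin fields -/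

/-- closedness of a pair (corner spins, face spins) across every edge of `ℤ × ℤ` -/
def At2hClosed (s s' : ℤ × ℤ → ℤ) : Prop :=
  (∀ a b : ℤ, (s (a, b) - s (a + 1, b)) * (s' (a, b) - s' (a, b - 1)) = 0) ∧
  ∀ a b : ℤ, (s (a, b) - s (a, b + 1)) * (s' (a, b) - s' (a - 1, b)) = 0

/-- the four corners of a face (the literal finset of the frozen definitions) -/
def at2hC4 (f : ℤ × ℤ) : Finset (ℤ × ℤ) := {f, (f.1 + 1, f.2), (f.1, f.2 + 1), (f.1 + 1, f.2 + 1)}

theorem at2h_mem_C4 {w f : ℤ × ℤ} :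
    w ∈ at2hC4 f ↔ (w.1 = f.1 ∨ w.1 = f.1 + 1) ∧ (w.2 = f.2 ∨ w.2 = f.2 + 1) := by
  obtain ⟨w1, w2⟩ := w
  obtain ⟨f1, f2⟩ := f
  simp only [at2hC4, Finset.mem_insert, Finset.mem_singleton, Prod.mk.injEq]
  tauto

theorem at2h_plane (s s' : ℤ × ℤ → ℤ) (h : At2hClosed s s') :
    ∃ Hv Hf : ℤ × ℤ → ℝ, ∀ f : ℤ × ℤ, ∀ w ∈ at2hC4 f, Hf f - Hv w = (s w * s' f : ℝ) / 2 := by
  have hV : ∀ a b : ℤ, ((s (a + 1, b) : ℝ) - s (a + 1, b + 1)) * ((s' (a + 1, b) : ℝ) - s' (a, b)) = 0 := by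
    intro a b
    have := h.2 (a + 1) b
    rw [add_sub_cancel_right] at this
    exact_mod_cast this
  have hH : ∀ a b : ℤ, ((s (a, b + 1) : ℝ) - s (a + 1, b + 1)) * ((s' (a, b + 1) : ℝ) - s' (a, b)) = 0 := by
    intro a b
    have := h.1 a (b + 1)
    rw [add_sub_cancel_right] at this
    exact_mod_cast this
  obtain ⟨H, hx, hy⟩ := at2h_potential
    (fun v => ((s v : ℝ) - s (v.1 + 1, v.2)) * s' v / 2)
    (fun v => ((s v : ℝ) - s (v.1, v.2 + 1)) * s' v / 2)
    (by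
      intro a b
      show ((s (a, b) : ℝ) - s (a + 1, b)) * s' (a, b) / 2
          + ((s (a + 1, b) : ℝ) - s (a + 1, b + 1)) * s' (a + 1, b) / 2
        = ((s (a, b) : ℝ) - s (a, b + 1)) * s' (a, b) / 2
          + ((s (a, b + 1) : ℝ) - s (a + 1, b + 1)) * s' (a, b + 1) / 2
      linear_combination (1 / 2) * hV a b - (1 / 2) * hH a b)
  refine ⟨H, fun f => H f + (s f * s' f : ℝ) / 2, ?_⟩
  rintro ⟨a, b⟩ ⟨w1, w2⟩ hw
  rw [at2h_mem_C4] at hw
  have hx0 : H (a + 1, b) - H (a, b) = ((s (a, b) : ℝ) - s (a + 1, b)) * s' (a, b) / 2 := hx a b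
  have hy0 : H (a, b + 1) - H (a, b) = ((s (a, b) : ℝ) - s (a, b + 1)) * s' (a, b) / 2 := hy a b
  have hy1 : H (a + 1, b + 1) - H (a + 1, b)
      = ((s (a + 1, b) : ℝ) - s (a + 1, b + 1)) * s' (a + 1, b) / 2 := hy (a + 1) b
  have hV0 := hV a b
  show H (a, b) + (s (a, b) * s' (a, b) : ℝ) / 2 - H (w1, w2) = (s (w1, w2) * s' (a, b) : ℝ) / 2
  obtain ⟨h1 | h1, h2 | h2⟩ := hw <;> simp only at h1 h2 <;> subst h1 <;> subst h2
  · ring
  · linear_combination (-1 : ℝ) * hy0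
  · linear_combination (-1 : ℝ) * hx0
  · linear_combination (-1 : ℝ) * hx0 - hy1 - (1 / 2) * hV0

/-! ## 3. The extended spins of an admissible pair are closed -/

theorem at2h_onPolygon_iff {F : Finset (ℤ × ℤ)} {v : ℤ × ℤ} :
    OnPolygon F v ↔ ∃ g, g ∉ F ∧ v ∈ at2hC4 g := by
  obtain ⟨a, b⟩ := v
  constructor
  · intro h
    by_contra hc
    push Not at hc
    apply h
    refine ⟨?_, ?_, ?_, ?_⟩
    · by_contra h1
      exact hc _ h1 (by rw [at2h_mem_C4]; simp)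
    · by_contra h1
      exact hc _ h1 (by rw [at2h_mem_C4]; simp)
    · by_contra h1
      exact hc _ h1 (by rw [at2h_mem_C4]; simp)
    · by_contra h1
      exact hc _ h1 (by rw [at2h_mem_C4]; simp)
  · rintro ⟨⟨g1, g2⟩, hg, hv⟩ ⟨h1, h2, h3, h4⟩
    rw [at2h_mem_C4] at hv
    simp only at hv h1 h2 h3 h4
    obtain ⟨e1 | e1, e2 | e2⟩ := hv <;> subst e1 <;> subst e2
    · exact hg h1
    · exact hg (by simpa using h3)
    · exact hg (by simpa using h2)
    · exact hg (by simpa using h4)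

theorem at2h_self_mem_C4 (f : ℤ × ℤ) : f ∈ at2hC4 f := by rw [at2h_mem_C4]; simp

theorem at2h_C4_subset_corners {F : Finset (ℤ × ℤ)} {f : ℤ × ℤ} (hf : f ∈ F) {w : ℤ × ℤ}
    (hw : w ∈ at2hC4 f) : w ∈ cornersOf F :=
  Finset.mem_biUnion.2 ⟨f, hf, hw⟩

theorem at2h_mem_corners {F : Finset (ℤ × ℤ)} {w : ℤ × ℤ} :
    w ∈ cornersOf F ↔ ∃ f ∈ F, w ∈ at2hC4 f := by
  unfold cornersOf at2hC4
  rw [Finset.mem_biUnion]

theorem at2h_spin_one {F : Finset (ℤ × ℤ)} {τ : cornersOf F → Bool} {τd : F → Bool}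
    (h : IsAdmissibleSpins τ τd) {v : ℤ × ℤ} (hv : OnPolygon F v) : atSpin τ v = 1 := by
  by_cases hc : v ∈ cornersOf F
  · exact h.1 v hc hv
  · simp [atSpin, hc]

theorem at2h_dual_one {F : Finset (ℤ × ℤ)} (τd : F → Bool) {f : ℤ × ℤ} (hf : f ∉ F) :
    atDual τd f = 1 := by
  simp [atDual, hf]

theorem at2h_closed {F : Finset (ℤ × ℤ)} {τ : cornersOf F → Bool} {τd : F → Bool}
    (h : IsAdmissibleSpins τ τd) : At2hClosed (atSpin τ) (atDual τd) := by
  constructor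
  · intro a b
    by_cases hF : (a, b) ∈ F ∧ (a, b - 1) ∈ F
    · exact (h.2 (a, b) (at2h_C4_subset_corners hF.1 (at2h_self_mem_C4 _))).1 hF
    · have hg : ∃ g, g ∉ F ∧ (a, b) ∈ at2hC4 g ∧ (a + 1, b) ∈ at2hC4 g := by
        by_cases h1 : (a, b) ∈ F
        · exact ⟨(a, b - 1), fun h2 => hF ⟨h1, h2⟩, by rw [at2h_mem_C4]; simp, by rw [at2h_mem_C4]; simp⟩
        · exact ⟨(a, b), h1, by rw [at2h_mem_C4]; simp, by rw [at2h_mem_C4]; simp⟩
      obtain ⟨g, hg, h1, h2⟩ := hg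
      rw [at2h_spin_one h (at2h_onPolygon_iff.2 ⟨g, hg, h1⟩),
        at2h_spin_one h (at2h_onPolygon_iff.2 ⟨g, hg, h2⟩)]
      simp
  · intro a b
    by_cases hF : (a, b) ∈ F ∧ (a - 1, b) ∈ F
    · exact (h.2 (a, b) (at2h_C4_subset_corners hF.1 (at2h_self_mem_C4 _))).2 hF
    · have hg : ∃ g, g ∉ F ∧ (a, b) ∈ at2hC4 g ∧ (a, b + 1) ∈ at2hC4 g := by
        by_cases h1 : (a, b) ∈ F
        · exact ⟨(a - 1, b), fun h2 => hF ⟨h1, h2⟩, by rw [at2h_mem_C4]; simp, by rw [at2h_mem_C4]; simp⟩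
        · exact ⟨(a, b), h1, by rw [at2h_mem_C4]; simp, by rw [at2h_mem_C4]; simp⟩
      obtain ⟨g, hg, h1, h2⟩ := hg
      rw [at2h_spin_one h (at2h_onPolygon_iff.2 ⟨g, hg, h1⟩),
        at2h_spin_one h (at2h_onPolygon_iff.2 ⟨g, hg, h2⟩)]
      simp

/-! ## 4. Existence of the height -/

/-- the complement of `F` is connected for the relation "the two faces share a corner" (no-split form) -/
def At2hConn (F : Finset (ℤ × ℤ)) : Prop :=
  ∀ S : Set (ℤ × ℤ), (∀ f ∈ S, f ∉ F) → S.Nonempty →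
    (∀ f ∈ S, ∀ g, g ∉ F → (∃ w, w ∈ at2hC4 f ∧ w ∈ at2hC4 g) → g ∈ S) → ∀ g, g ∉ F → g ∈ S

/-- `IsATHeight` in the vocabulary `at2hC4`. -/
theorem at2h_isATHeight_iff {F : Finset (ℤ × ℤ)} {τ : cornersOf F → Bool} {τd : F → Bool}
    {Hv Hf : ℤ × ℤ → ℝ} : IsATHeight τ τd Hv Hf ↔
      (∀ v ∈ cornersOf F, OnPolygon F v → Hv v = 0) ∧
      ∀ f ∈ F, ∀ v ∈ at2hC4 f, Hf f - Hv v = (atSpin τ v * atDual τd f : ℝ) / 2 := Iff.rfl

/-- **existence of the height.** -/
theorem at2h_exists {F : Finset (ℤ × ℤ)} (hF : At2hConn F) {τ : cornersOf F → Bool} {τd : F → Bool}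
    (h : IsAdmissibleSpins τ τd) : ∃ Hv Hf : ℤ × ℤ → ℝ, IsATHeight τ τd Hv Hf := by
  obtain ⟨Hv, Hf, hH⟩ := at2h_plane _ _ (at2h_closed h)
  have hout : ∀ g, g ∉ F → ∀ w ∈ at2hC4 g, Hv w = Hf g - 1 / 2 := by
    intro g hg w hw
    have := hH g w hw
    rw [at2h_spin_one h (at2h_onPolygon_iff.2 ⟨g, hg, hw⟩), at2h_dual_one τd hg] at this
    push_cast at this
    linarith
  obtain ⟨f0, hf0⟩ := Infinite.exists_notMem_finset F
  have hconst : ∀ g, g ∉ F → g ∈ {f | f ∉ F ∧ Hf f = Hf f0} :=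
    hF {f | f ∉ F ∧ Hf f = Hf f0} (fun f hf => hf.1) ⟨f0, hf0, rfl⟩ (by
      rintro f ⟨hf, hfe⟩ g hg ⟨w, hwf, hwg⟩
      refine ⟨hg, ?_⟩
      have h1 := hout f hf w hwf
      have h2 := hout g hg w hwg
      linarith)
  refine ⟨fun v => Hv v - (Hf f0 - 1 / 2), fun f => Hf f - (Hf f0 - 1 / 2), ?_, ?_⟩
  · intro v _ hv
    obtain ⟨g, hg, hvg⟩ := at2h_onPolygon_iff.1 hv
    have h1 := hout g hg v hvg
    have h2 := (hconst g hg).2
    show Hv v - (Hf f0 - 1 / 2) = 0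
    linarith
  · intro f _ v hv
    have := hH f v hv
    show Hf f - (Hf f0 - 1 / 2) - (Hv v - (Hf f0 - 1 / 2)) = _
    linarith

/-! ## 5. Uniqueness of the height -/

theorem at2h_unique_face {F : Finset (ℤ × ℤ)} {τ : cornersOf F → Bool} {τd : F → Bool}
    {Hv Hf Hv' Hf' : ℤ × ℤ → ℝ} (h : IsATHeight τ τd Hv Hf) (h' : IsATHeight τ τd Hv' Hf') :
    ∀ f ∈ F, Hf f = Hf' f := by
  obtain ⟨B, hB⟩ : ∃ B : ℤ, ∀ g ∈ F, g.1 ≤ B := by
    obtain ⟨B, hB⟩ := (F.image Prod.fst).bddAbove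
    exact ⟨B, fun g hg => hB (by simpa using ⟨g.2, hg⟩)⟩
  have key : ∀ n : ℕ, ∀ f ∈ F, B - f.1 < n → Hf f = Hf' f := by
    intro n
    induction n with
    | zero =>
      intro f hf hlt
      have := hB f hf
      simp only [Nat.cast_zero] at hlt
      omega
    | succ n ih =>
      intro f hf hlt
      have hw : (f.1 + 1, f.2) ∈ at2hC4 f := by rw [at2h_mem_C4]; simp
      have e1 := h.2 f hf _ hw
      have e2 := h'.2 f hf _ hw
      by_cases hg : (f.1 + 1, f.2) ∈ F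
      · have e3 := h.2 _ hg _ (at2h_self_mem_C4 _)
        have e4 := h'.2 _ hg _ (at2h_self_mem_C4 _)
        have e5 := ih _ hg (by
          show B - (f.1 + 1) < (n : ℤ)
          push_cast at hlt
          omega)
        linarith
      · have hp : OnPolygon F (f.1 + 1, f.2) := at2h_onPolygon_iff.2 ⟨_, hg, at2h_self_mem_C4 _⟩
        have e3 := h.1 _ (at2h_C4_subset_corners hf hw) hp
        have e4 := h'.1 _ (at2h_C4_subset_corners hf hw) hp
        linarith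
  intro f hf
  exact key (B - f.1 + 1).toNat f hf (by have := hB f hf; omega)

theorem at2h_unique {F : Finset (ℤ × ℤ)} {τ : cornersOf F → Bool} {τd : F → Bool}
    {Hv Hf Hv' Hf' : ℤ × ℤ → ℝ} (h : IsATHeight τ τd Hv Hf) (h' : IsATHeight τ τd Hv' Hf') :
    ∀ v ∈ cornersOf F, Hv v = Hv' v := by
  intro v hv
  obtain ⟨f, hf, hvf⟩ := at2h_mem_corners.1 hv
  have e1 := h.2 f hf v hvf
  have e2 := h'.2 f hf v hvf
  have e3 := at2h_unique_face h h' f hf
  linarith

/-! ## 6. Glue with the king-move form of the connectedness of the complement -/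

theorem at2h_share_of_king {f g : ℤ × ℤ} (h : |f.1 - g.1| ≤ 1 ∧ |f.2 - g.2| ≤ 1) :
    ∃ w, w ∈ at2hC4 f ∧ w ∈ at2hC4 g := by
  obtain ⟨h1, h2⟩ := h
  rw [abs_le] at h1 h2
  refine ⟨(max f.1 g.1, max f.2 g.2), ?_, ?_⟩ <;> rw [at2h_mem_C4] <;> constructor <;> simp only <;> omega

theorem at2h_king_of_share {f g : ℤ × ℤ} (h : ∃ w, w ∈ at2hC4 f ∧ w ∈ at2hC4 g) :
    |f.1 - g.1| ≤ 1 ∧ |f.2 - g.2| ≤ 1 := by
  obtain ⟨w, h1, h2⟩ := h
  rw [at2h_mem_C4] at h1 h2
  constructor <;> rw [abs_le] <;> omega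

/-- the no-split statement for king moves (the output format of `R292/AtConn`, helper30) gives `At2hConn`. -/
theorem at2h_conn_of_king {F : Finset (ℤ × ℤ)}
    (h : ∀ (S : Set (ℤ × ℤ)) (f0 : ℤ × ℤ), f0 ∉ F → f0 ∈ S →
      (∀ f g : ℤ × ℤ, f ∉ F → g ∉ F → (|f.1 - g.1| ≤ 1 ∧ |f.2 - g.2| ≤ 1) → f ∈ S → g ∈ S) →
      ∀ g, g ∉ F → g ∈ S) : At2hConn F := by
  rintro S hS ⟨f0, hf0⟩ hcl g hg
  exact h S f0 (hS f0 hf0) hf0 (fun f g _ hg hadj hfS => hcl f hfS g hg (at2h_share_of_king hadj)) g hg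

/-! ## 7. The frozen `atHeight` -/

theorem at2h_spec_of_exists {F : Finset (ℤ × ℤ)} {τ : cornersOf F → Bool} {τd : F → Bool}
    (hex : ∃ Hv Hf : ℤ × ℤ → ℝ, IsATHeight τ τd Hv Hf) :
    ∃ Hf, IsATHeight τ τd (atHeight τ τd) Hf := by
  unfold atHeight
  rw [dif_pos hex]
  exact Classical.choose_spec hex

/-- **`atHeight` solves `IsATHeight`** for every admissible pair. -/
theorem at2h_spec {F : Finset (ℤ × ℤ)} (hF : At2hConn F) {τ : cornersOf F → Bool} {τd : F → Bool}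
    (h : IsAdmissibleSpins τ τd) : ∃ Hf, IsATHeight τ τd (atHeight τ τd) Hf :=
  at2h_spec_of_exists (at2h_exists hF h)

/-- **`atHeight` is any solution**, on the corners. -/
theorem at2h_eq {F : Finset (ℤ × ℤ)} {τ : cornersOf F → Bool} {τd : F → Bool}
    {Hv Hf : ℤ × ℤ → ℝ} (h : IsATHeight τ τd Hv Hf) : ∀ v ∈ cornersOf F, atHeight τ τd v = Hv v := by
  obtain ⟨Hf', h'⟩ := at2h_spec_of_exists ⟨Hv, Hf, h⟩
  exact at2h_unique h' h

theorem at2h_zero_of_not_exists {F : Finset (ℤ × ℤ)} {τ : cornersOf F → Bool} {τd : F → Bool}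
    (hex : ¬ ∃ Hv Hf : ℤ × ℤ → ℝ, IsATHeight τ τd Hv Hf) : atHeight τ τd = fun _ => 0 := by
  unfold atHeight
  rw [dif_neg hex]

/-- flip of all the dual spins -/
def at2hFlip {F : Finset (ℤ × ℤ)} (τd : F → Bool) : F → Bool := fun f => !τd f

theorem at2h_flip_flip {F : Finset (ℤ × ℤ)} (τd : F → Bool) : at2hFlip (at2hFlip τd) = τd := by
  funext f; simp [at2hFlip]

theorem at2h_dual_flip {F : Finset (ℤ × ℤ)} (τd : F → Bool) {f : ℤ × ℤ} (hf : f ∈ F) :
    atDual (at2hFlip τd) f = - atDual τd f := by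
  unfold atDual at2hFlip
  rw [dif_pos hf, dif_pos hf]
  cases τd ⟨f, hf⟩ <;> simp

theorem at2h_adm_flip {F : Finset (ℤ × ℤ)} {τ : cornersOf F → Bool} {τd : F → Bool}
    (h : IsAdmissibleSpins τ τd) : IsAdmissibleSpins τ (at2hFlip τd) := by
  refine ⟨h.1, fun v hv => ⟨fun hF => ?_, fun hF => ?_⟩⟩
  · have := (h.2 v hv).1 hF
    rw [at2h_dual_flip τd hF.1, at2h_dual_flip τd hF.2]
    linear_combination (-1 : ℤ) * this
  · have := (h.2 v hv).2 hF
    rw [at2h_dual_flip τd hF.1, at2h_dual_flip τd hF.2]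
    linear_combination (-1 : ℤ) * this

theorem at2h_adm_flip_iff {F : Finset (ℤ × ℤ)} {τ : cornersOf F → Bool} {τd : F → Bool} :
    IsAdmissibleSpins τ (at2hFlip τd) ↔ IsAdmissibleSpins τ τd :=
  ⟨fun h => by simpa [at2h_flip_flip] using at2h_adm_flip h, at2h_adm_flip⟩

theorem at2h_dis_flip {F : Finset (ℤ × ℤ)} (τ : cornersOf F → Bool) (τd : F → Bool) :
    atDisagreements τ (at2hFlip τd) = atDisagreements τ τd := by
  unfold atDisagreements
  refine Finset.sum_congr rfl fun v _ => ?_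
  have e1 : ((v ∈ F ∧ (v.1, v.2 - 1) ∈ F) ∧ atDual (at2hFlip τd) v ≠ atDual (at2hFlip τd) (v.1, v.2 - 1))
      ↔ ((v ∈ F ∧ (v.1, v.2 - 1) ∈ F) ∧ atDual τd v ≠ atDual τd (v.1, v.2 - 1)) := by
    refine and_congr_right fun hF => ?_
    rw [at2h_dual_flip τd hF.1, at2h_dual_flip τd hF.2, Ne, Ne, neg_inj]
  have e2 : ((v ∈ F ∧ (v.1 - 1, v.2) ∈ F) ∧ atDual (at2hFlip τd) v ≠ atDual (at2hFlip τd) (v.1 - 1, v.2))
      ↔ ((v ∈ F ∧ (v.1 - 1, v.2) ∈ F) ∧ atDual τd v ≠ atDual τd (v.1 - 1, v.2)) := by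
    refine and_congr_right fun hF => ?_
    rw [at2h_dual_flip τd hF.1, at2h_dual_flip τd hF.2, Ne, Ne, neg_inj]
  simp only [e1, e2]

theorem at2h_isATHeight_flip {F : Finset (ℤ × ℤ)} {τ : cornersOf F → Bool} {τd : F → Bool}
    {Hv Hf : ℤ × ℤ → ℝ} (h : IsATHeight τ τd Hv Hf) :
    IsATHeight τ (at2hFlip τd) (fun v => - Hv v) (fun f => - Hf f) := by
  refine ⟨fun v hv hp => ?_, fun f hf v hv => ?_⟩
  · show - Hv v = 0
    rw [h.1 v hv hp, neg_zero]
  · have := h.2 f hf v hv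
    rw [at2h_dual_flip τd hf]
    push_cast
    show - Hf f - - Hv v = _
    linarith

/-- **the flip of the dual spins reverses the height** (no hypothesis). -/
theorem at2h_height_flip {F : Finset (ℤ × ℤ)} (τ : cornersOf F → Bool) (τd : F → Bool) :
    ∀ v ∈ cornersOf F, atHeight τ (at2hFlip τd) v = - atHeight τ τd v := by
  intro v hv
  by_cases hex : ∃ Hv Hf : ℤ × ℤ → ℝ, IsATHeight τ τd Hv Hf
  · obtain ⟨Hf, h⟩ := at2h_spec_of_exists hex
    exact at2h_eq (at2h_isATHeight_flip h) v hv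
  · have hex' : ¬ ∃ Hv Hf : ℤ × ℤ → ℝ, IsATHeight τ (at2hFlip τd) Hv Hf := by
      rintro ⟨Hv, Hf, h⟩
      apply hex
      have := at2h_isATHeight_flip h
      rw [at2h_flip_flip] at this
      exact ⟨_, _, this⟩
    rw [at2h_zero_of_not_exists hex, at2h_zero_of_not_exists hex']
    simp

/-- the flip as a permutation of the dual configurations -/
def at2hFlipEquiv (F : Finset (ℤ × ℤ)) : (F → Bool) ≃ (F → Bool) where
  toFun := at2hFlip
  invFun := at2hFlip
  left_inv := at2h_flip_flip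
  right_inv := at2h_flip_flip

/-- **the law of the pairing is symmetric.** -/
theorem at2h_expect_neg (t δ : ℝ) (F : Finset (ℤ × ℤ)) (φ : ℝ × ℝ → ℝ) (ψ : ℝ → ℝ) :
    atExpect t δ F φ (fun x => ψ (-x)) = atExpect t δ F φ ψ := by
  classical
  unfold atExpect
  congr 1
  refine Finset.sum_congr rfl fun τ _ => ?_
  rw [← (at2hFlipEquiv F).sum_comp]
  refine Finset.sum_congr rfl fun τd _ => ?_
  show (if IsAdmissibleSpins τ (at2hFlip τd) then
      t ^ atDisagreements τ (at2hFlip τd) *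
        ψ (-(δ ^ 2 * ∑ v ∈ cornersOf F, atHeight τ (at2hFlip τd) v * φ (δ * v.1, δ * v.2))) else 0) = _
  have e : ∑ v ∈ cornersOf F, atHeight τ (at2hFlip τd) v * φ (δ * v.1, δ * v.2)
      = - ∑ v ∈ cornersOf F, atHeight τ τd v * φ (δ * v.1, δ * v.2) := by
    rw [← Finset.sum_neg_distrib]
    refine Finset.sum_congr rfl fun v hv => ?_
    rw [at2h_height_flip τ τd v hv, neg_mul]
  rw [e, at2h_dis_flip, mul_neg, neg_neg]
  simp only [at2h_adm_flip_iff]

/-- the all plus pair is admissible -/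
theorem at2h_adm_plus (F : Finset (ℤ × ℤ)) :
    IsAdmissibleSpins (F := F) (fun _ => true) (fun _ => true) := by
  have h1 : ∀ v, atSpin (F := F) (fun _ => true) v = 1 := by
    intro v; unfold atSpin; split_ifs <;> simp_all
  refine ⟨fun v _ _ => h1 v, fun v _ => ⟨fun _ => ?_, fun _ => ?_⟩⟩ <;> rw [h1, h1] <;> simp

/-- **the partition function is positive.** -/
theorem at2h_Z_pos {t : ℝ} (ht : 0 < t) (F : Finset (ℤ × ℤ)) :
    0 < ∑ τ : cornersOf F → Bool, ∑ τd : F → Bool,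
      (open Classical in if IsAdmissibleSpins τ τd then t ^ atDisagreements τ τd else 0) := by
  classical
  have hnn : ∀ (τ : cornersOf F → Bool) (τd : F → Bool),
      0 ≤ (if IsAdmissibleSpins τ τd then t ^ atDisagreements τ τd else 0 : ℝ) := by
    intro τ τd
    split_ifs
    · positivity
    · exact le_rfl
  refine Finset.sum_pos' (fun τ _ => Finset.sum_nonneg fun τd _ => ?_) ⟨fun _ => true, Finset.mem_univ _, ?_⟩
  · convert hnn τ τd
  · refine Finset.sum_pos' (fun τd _ => ?_) ⟨fun _ => true, Finset.mem_univ _, ?_⟩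
    · convert hnn _ τd
    · rw [if_pos (at2h_adm_plus F)]
      positivity

theorem at2h_T_pos (U : ℝ) : 0 < atT U := by
  unfold atT
  positivity

end Claimed.Agent.R292
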