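import Mathlib
import Claimed.Agent.R292.Api

/-!
# Row 292 (S0540), Height : THE FROZEN HEIGHT EXISTS, IS UNIQUE, AND `atHeight` IS IT      (owner helper292; prefix `at92h_`, defs `at92h*`, `At92h*`)      0 sorry

No Jordan curve theorem: only the CONNECTEDNESS of the frontier of the polygonal region is used.
* `at92hSq δ f` closed square of a face; `at92h_usc` (squares through `y` near `x` pass through `x`), `at92h_region : faceRegionSq δ F = {x | every square through x is in F}`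
* **`at92h_ext_conn`**   frontier of `faceRegionSq δ F` preconnected  ⟹  the faces outside `F` are star connected (`At92hExt F`)
* `at92h_poincare`, `at92h_plane`   discrete Poincare lemma on `ℤ²`; plane potential of a closed pair of spin fields
* `at92h_closedH/V`      admissible spins (extended by `+1`) are closed around EVERY edge of `ℤ²`
* **`at92h_exists`**     `At92hExt F` + admissible  ⟹  `∃ Hv Hf, IsATHeight τ τd Hv Hf`
* **`at92h_unique`**     uniqueness on `cornersOf F` and on `F`, every finite `F`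
* `at92h_spec`, `at92h_eq`, `at92h_zero_of_not`, `at92h_isHeight_iff` (corners as `at92hCor f v`)
* **`at92h_spec_approx`**  under `IsAdmissibleApprox D δ F`: for every `n` and every admissible pair, `∃ Hf, IsATHeight τ τd (atHeight τ τd) Hf`
* dual flip `at92hFlip`: admissibility, weight kept, `atHeight ↦ -atHeight` (no hypothesis on `F`); **`at92h_expect_neg`** (law symmetric),
  **`at92h_odd_moment`** (odd moments are `0`), `at92h_odd_tendsto` (the odd half of every moment contract); `at92h_incr_le`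
-/

set_option autoImplicit false
open Claims Claims.C0468 Set Topology

namespace Claimed.Agent.R292

/-- the closed square of a face -/
def at92hSq (δ : ℝ) (f : ℤ × ℤ) : Set (ℝ × ℝ) :=
  Set.Icc (δ * f.1) (δ * (f.1 + 1)) ×ˢ Set.Icc (δ * f.2) (δ * (f.2 + 1))

theorem at92h_mem_sq (δ : ℝ) (f : ℤ × ℤ) (x : ℝ × ℝ) :
    x ∈ at92hSq δ f ↔ (δ * f.1 ≤ x.1 ∧ x.1 ≤ δ * (f.1 + 1)) ∧ (δ * f.2 ≤ x.2 ∧ x.2 ≤ δ * (f.2 + 1)) := by
  simp only [at92hSq, Set.mem_prod, Set.mem_Icc]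

/-- star adjacency (sharing a corner) or equality -/
def at92hAdj (f g : ℤ × ℤ) : Prop := |f.1 - g.1| ≤ 1 ∧ |f.2 - g.2| ≤ 1

theorem at92h_usc1 {δ : ℝ} (hδ : 0 < δ) (x : ℝ) :
    ∃ ε > 0, ∀ y, |y - x| < ε → ∀ n : ℤ, δ * n ≤ y → y ≤ δ * (n + 1) → δ * n ≤ x ∧ x ≤ δ * (n + 1) := by
  set s := x / δ with hs
  have hx : x = δ * s := by rw [hs]; field_simp
  have h1 : 0 < (⌊s⌋ : ℝ) + 1 - s := by have := Int.lt_floor_add_one s; linarith
  have h2 : 0 < s - ⌈s⌉ + 1 := by have := Int.ceil_lt_add_one s; linarith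
  refine ⟨δ * min ((⌊s⌋ : ℝ) + 1 - s) (s - ⌈s⌉ + 1), mul_pos hδ (lt_min h1 h2), fun y hy n hn1 hn2 => ?_⟩
  rw [abs_lt] at hy
  constructor
  · by_contra hc
    rw [not_le] at hc
    have hsn : s < n := by rw [hx] at hc; exact lt_of_mul_lt_mul_left hc hδ.le
    have h3 : ⌊s⌋ + 1 ≤ n := Int.floor_lt.2 hsn
    have h4 : (⌊s⌋ : ℝ) + 1 ≤ n := by exact_mod_cast h3
    have h5 : δ * min ((⌊s⌋ : ℝ) + 1 - s) (s - ⌈s⌉ + 1) ≤ δ * (n - s) :=
      mul_le_mul_of_nonneg_left ((min_le_left _ _).trans (by linarith)) hδ.le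
    have h6 : δ * (n - s) = δ * n - x := by rw [hx]; ring
    linarith [hy.2]
  · by_contra hc
    rw [not_le] at hc
    have hsn : ((n + 1 : ℤ) : ℝ) < s := by
      rw [hx] at hc; push_cast; exact lt_of_mul_lt_mul_left hc hδ.le
    have h3 : n + 1 + 1 ≤ ⌈s⌉ := Int.lt_ceil.2 hsn
    have h4 : (n : ℝ) + 1 + 1 ≤ ⌈s⌉ := by exact_mod_cast h3
    have h5 : δ * min ((⌊s⌋ : ℝ) + 1 - s) (s - ⌈s⌉ + 1) ≤ δ * (s - (n + 1)) :=
      mul_le_mul_of_nonneg_left ((min_le_right _ _).trans (by linarith)) hδ.le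
    have h6 : δ * (s - (n + 1)) = x - δ * (n + 1) := by rw [hx]; ring
    linarith [hy.1]

/-- upper semicontinuity of the set of squares through a point -/
theorem at92h_usc {δ : ℝ} (hδ : 0 < δ) (x : ℝ × ℝ) :
    ∃ ε > 0, ∀ y, dist y x < ε → ∀ f, y ∈ at92hSq δ f → x ∈ at92hSq δ f := by
  obtain ⟨e1, he1, H1⟩ := at92h_usc1 hδ x.1
  obtain ⟨e2, he2, H2⟩ := at92h_usc1 hδ x.2
  refine ⟨min e1 e2, lt_min he1 he2, fun y hy f hf => ?_⟩
  rw [at92h_mem_sq] at hf ⊢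
  rw [Prod.dist_eq, max_lt_iff, Real.dist_eq, Real.dist_eq] at hy
  exact ⟨H1 y.1 (hy.1.trans_le (min_le_left _ _)) f.1 hf.1.1 hf.1.2,
    H2 y.2 (hy.2.trans_le (min_le_right _ _)) f.2 hf.2.1 hf.2.2⟩

theorem at92h_cover {δ : ℝ} (hδ : 0 < δ) (x : ℝ × ℝ) : ∃ f, x ∈ at92hSq δ f := by
  refine ⟨(⌊x.1 / δ⌋, ⌊x.2 / δ⌋), ?_⟩
  rw [at92h_mem_sq]
  have a1 := Int.floor_le (x.1 / δ)
  have a2 := (Int.lt_floor_add_one (x.1 / δ)).le
  have b1 := Int.floor_le (x.2 / δ)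
  have b2 := (Int.lt_floor_add_one (x.2 / δ)).le
  rw [le_div_iff₀ hδ] at a1 b1
  rw [div_le_iff₀ hδ] at a2 b2
  refine ⟨⟨?_, ?_⟩, ?_, ?_⟩ <;> simp only [] <;> linarith

theorem at92h_int_le {δ : ℝ} (hδ : 0 < δ) {m n : ℤ} {y : ℝ} (h1 : δ * m ≤ y) (h2 : y ≤ δ * (n + 1)) : m ≤ n + 1 := by
  have : (m : ℝ) ≤ n + 1 := le_of_mul_le_mul_left (h1.trans h2) hδ
  exact_mod_cast this

theorem at92h_int_lt {δ : ℝ} (hδ : 0 < δ) {m n : ℤ} {y : ℝ} (h1 : δ * m ≤ y) (h2 : y < δ * (n + 1)) : m ≤ n := by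
  have : (m : ℝ) < n + 1 := lt_of_mul_lt_mul_left (h1.trans_lt h2) hδ.le
  have : m < n + 1 := by exact_mod_cast this
  omega

theorem at92h_int_lt' {δ : ℝ} (hδ : 0 < δ) {m n : ℤ} {y : ℝ} (h1 : δ * m < y) (h2 : y ≤ δ * (n + 1)) : m ≤ n := by
  have : (m : ℝ) < n + 1 := lt_of_mul_lt_mul_left (h1.trans_le h2) hδ.le
  have : m < n + 1 := by exact_mod_cast this
  omega

theorem at92h_adj_of_mem {δ : ℝ} (hδ : 0 < δ) {x : ℝ × ℝ} {f g : ℤ × ℤ} (hf : x ∈ at92hSq δ f)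
    (hg : x ∈ at92hSq δ g) : at92hAdj f g := by
  rw [at92h_mem_sq] at hf hg
  have a1 := at92h_int_le hδ hf.1.1 hg.1.2
  have a2 := at92h_int_le hδ hg.1.1 hf.1.2
  have b1 := at92h_int_le hδ hf.2.1 hg.2.2
  have b2 := at92h_int_le hδ hg.2.1 hf.2.2
  constructor <;> rw [abs_le] <;> constructor <;> omega

/-- strictly inside the square of `f` -/
theorem at92h_eq_of_strict {δ : ℝ} (hδ : 0 < δ) {y : ℝ × ℝ} {f g : ℤ × ℤ}
    (h1 : δ * f.1 < y.1) (h2 : y.1 < δ * (f.1 + 1)) (h3 : δ * f.2 < y.2) (h4 : y.2 < δ * (f.2 + 1))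
    (hg : y ∈ at92hSq δ g) : g = f := by
  rw [at92h_mem_sq] at hg
  have a1 := at92h_int_lt hδ hg.1.1 h2
  have a2 := at92h_int_lt' hδ h1 hg.1.2
  have b1 := at92h_int_lt hδ hg.2.1 h4
  have b2 := at92h_int_lt' hδ h3 hg.2.2
  ext <;> omega

/-- every point of a closed square is a limit of points that lie in no other square -/
theorem at92h_approach {δ : ℝ} (hδ : 0 < δ) {x : ℝ × ℝ} {f : ℤ × ℤ} (hf : x ∈ at92hSq δ f) {ε : ℝ} (hε : 0 < ε) :
    ∃ y, dist y x < ε ∧ y ∈ at92hSq δ f ∧ ∀ g, y ∈ at92hSq δ g → g = f := by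
  rw [at92h_mem_sq] at hf
  set c : ℝ × ℝ := (δ * (f.1 + 1 / 2), δ * (f.2 + 1 / 2)) with hc
  set s : ℝ := min 1 (ε / (2 * δ)) with hs
  have hs0 : 0 < s := lt_min one_pos (by positivity)
  have hs1 : s ≤ 1 := min_le_left _ _
  have hs2 : s * δ ≤ ε / 2 := by
    have : s ≤ ε / (2 * δ) := min_le_right _ _
    calc s * δ ≤ ε / (2 * δ) * δ := by gcongr
      _ = ε / 2 := by field_simp
  set y : ℝ × ℝ := (x.1 + s * (c.1 - x.1), x.2 + s * (c.2 - x.2)) with hy
  have k1 : δ * f.1 < y.1 := by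
    have : y.1 = (1 - s) * x.1 + s * (δ * (f.1 + 1 / 2)) := by simp only [hy, hc]; ring
    rw [this]
    nlinarith [hf.1.1, mul_pos hs0 hδ]
  have k2 : y.1 < δ * (f.1 + 1) := by
    have : y.1 = (1 - s) * x.1 + s * (δ * (f.1 + 1 / 2)) := by simp only [hy, hc]; ring
    rw [this]
    nlinarith [hf.1.2, mul_pos hs0 hδ]
  have k3 : δ * f.2 < y.2 := by
    have : y.2 = (1 - s) * x.2 + s * (δ * (f.2 + 1 / 2)) := by simp only [hy, hc]; ring
    rw [this]
    nlinarith [hf.2.1, mul_pos hs0 hδ]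
  have k4 : y.2 < δ * (f.2 + 1) := by
    have : y.2 = (1 - s) * x.2 + s * (δ * (f.2 + 1 / 2)) := by simp only [hy, hc]; ring
    rw [this]
    nlinarith [hf.2.2, mul_pos hs0 hδ]
  refine ⟨y, ?_, ?_, fun g hg => at92h_eq_of_strict hδ k1 k2 k3 k4 hg⟩
  · rw [Prod.dist_eq, max_lt_iff, Real.dist_eq, Real.dist_eq]
    have d1 : |c.1 - x.1| ≤ δ := by
      rw [abs_le]; simp only [hc]; constructor <;> nlinarith [hf.1.1, hf.1.2]
    have d2 : |c.2 - x.2| ≤ δ := by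
      rw [abs_le]; simp only [hc]; constructor <;> nlinarith [hf.2.1, hf.2.2]
    constructor
    · have : y.1 - x.1 = s * (c.1 - x.1) := by simp only [hy]; ring
      rw [this, abs_mul, abs_of_pos hs0]
      calc s * |c.1 - x.1| ≤ s * δ := by gcongr
        _ ≤ ε / 2 := hs2
        _ < ε := by linarith
    · have : y.2 - x.2 = s * (c.2 - x.2) := by simp only [hy]; ring
      rw [this, abs_mul, abs_of_pos hs0]
      calc s * |c.2 - x.2| ≤ s * δ := by gcongr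
        _ ≤ ε / 2 := hs2
        _ < ε := by linarith
  · rw [at92h_mem_sq]; exact ⟨⟨k1.le, k2.le⟩, k3.le, k4.le⟩

/-- the region = the points all of whose squares belong to `F` -/
theorem at92h_region {δ : ℝ} (hδ : 0 < δ) (F : Finset (ℤ × ℤ)) :
    faceRegionSq δ F = {x | ∀ f, x ∈ at92hSq δ f → f ∈ F} := by
  have e : faceRegionSq δ F = interior (⋃ f ∈ F, at92hSq δ f) := rfl
  rw [e]
  ext x
  simp only [mem_ofPred_eq, mem_interior_iff_mem_nhds, Metric.mem_nhds_iff]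
  constructor
  · rintro ⟨ε, hε, hb⟩ f hf
    obtain ⟨y, hy1, _, hy3⟩ := at92h_approach hδ hf hε
    have := hb (Metric.mem_ball.2 hy1)
    simp only [mem_iUnion, exists_prop] at this
    obtain ⟨g, hg, hyg⟩ := this
    rw [← hy3 g hyg]; exact hg
  · intro h
    obtain ⟨ε, hε, H⟩ := at92h_usc hδ x
    refine ⟨ε, hε, fun y hy => ?_⟩
    obtain ⟨f, hf⟩ := at92h_cover hδ y
    simp only [mem_iUnion, exists_prop]
    exact ⟨f, h f (H y (Metric.mem_ball.1 hy) f hf), hf⟩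

/-- union of the squares of a set of faces -/
def at92hK (δ : ℝ) (S : Set (ℤ × ℤ)) : Set (ℝ × ℝ) := {x | ∃ f ∈ S, x ∈ at92hSq δ f}

theorem at92h_K_closed {δ : ℝ} (hδ : 0 < δ) (S : Set (ℤ × ℤ)) : IsClosed (at92hK δ S) := by
  rw [← isOpen_compl_iff, Metric.isOpen_iff]
  intro x hx
  obtain ⟨ε, hε, H⟩ := at92h_usc hδ x
  refine ⟨ε, hε, fun y hy hyK => hx ?_⟩
  obtain ⟨f, hfS, hf⟩ := hyK
  exact ⟨f, hfS, H y (Metric.mem_ball.1 hy) f hf⟩

/-- **the exterior faces are star connected as soon as the frontier of the region is connected** -/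
theorem at92h_ext_conn {δ : ℝ} (hδ : 0 < δ) (F : Finset (ℤ × ℤ))
    (hfr : IsPreconnected (frontier (faceRegionSq δ F))) (S : Set (ℤ × ℤ)) (hS : ∀ f ∈ S, f ∉ F)
    (hne : S.Nonempty) (hcl : ∀ f ∈ S, ∀ g, g ∉ F → at92hAdj f g → g ∈ S) : ∀ g, g ∉ F → g ∈ S := by
  by_contra hcon
  push Not at hcon
  obtain ⟨g0, hg0F, hg0S⟩ := hcon
  set S' : Set (ℤ × ℤ) := {g | g ∉ F ∧ g ∉ S} with hS'
  have hdisj : ∀ x, x ∈ at92hK δ S → x ∈ at92hK δ S' → False := by
    rintro x ⟨f, hfS, hf⟩ ⟨g, ⟨hgF, hgS⟩, hg⟩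
    exact hgS (hcl f hfS g hgF (at92h_adj_of_mem hδ hf hg))
  have hRc : ∀ x, x ∉ faceRegionSq δ F ↔ x ∈ at92hK δ S ∨ x ∈ at92hK δ S' := by
    intro x
    rw [at92h_region hδ]
    simp only [mem_ofPred_eq, not_forall]
    constructor
    · rintro ⟨f, hf, hfF⟩
      by_cases hfS : f ∈ S
      · exact Or.inl ⟨f, hfS, hf⟩
      · exact Or.inr ⟨f, ⟨hfF, hfS⟩, hf⟩
    · rintro (⟨f, hfS, hf⟩ | ⟨f, ⟨hfF, _⟩, hf⟩)
      · exact ⟨f, hf, hS f hfS⟩
      · exact ⟨f, hf, hfF⟩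
  have hopen : IsOpen (faceRegionSq δ F) := isOpen_interior
  -- a frontier point in each piece
  have key : ∀ A B : Set (ℤ × ℤ), A.Nonempty → B.Nonempty →
      (∀ x, x ∈ at92hK δ A → x ∈ at92hK δ B → False) →
      (∀ x, x ∉ faceRegionSq δ F ↔ x ∈ at92hK δ A ∨ x ∈ at92hK δ B) →
      ∃ x, x ∈ frontier (faceRegionSq δ F) ∧ x ∈ at92hK δ A := by
    intro A B hA hB hAB hR
    have hAc := at92h_K_closed hδ A
    have hBc := at92h_K_closed hδ B
    have hnot : ¬ IsOpen (at92hK δ A) := by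
      intro ho
      rcases isClopen_iff.1 ⟨hAc, ho⟩ with h | h
      · obtain ⟨f, hf⟩ := hA
        obtain ⟨y, _, hy, _⟩ := at92h_approach hδ (x := (δ * f.1, δ * f.2)) (f := f)
          (by rw [at92h_mem_sq]; simp only []; refine ⟨⟨le_rfl, ?_⟩, le_rfl, ?_⟩ <;> nlinarith) one_pos
        have : y ∈ at92hK δ A := ⟨f, hf, hy⟩
        rw [h] at this; exact this
      · obtain ⟨g, hg⟩ := hB
        obtain ⟨y, _, hy, _⟩ := at92h_approach hδ (x := (δ * g.1, δ * g.2)) (f := g)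
          (by rw [at92h_mem_sq]; simp only []; refine ⟨⟨le_rfl, ?_⟩, le_rfl, ?_⟩ <;> nlinarith) one_pos
        exact hAB y (h ▸ mem_univ y) ⟨g, hg, hy⟩
    rw [Metric.isOpen_iff] at hnot
    push Not at hnot
    obtain ⟨x, hxA, hx⟩ := hnot
    refine ⟨x, ?_, hxA⟩
    rw [hopen.frontier_eq]
    refine ⟨?_, (hR x).2 (Or.inl hxA)⟩
    have hxB : x ∈ (at92hK δ B)ᶜ := fun h => hAB x hxA h
    obtain ⟨e, he, hBe⟩ := Metric.isOpen_iff.1 hBc.isOpen_compl x hxB
    rw [Metric.mem_closure_iff]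
    intro ε hε
    have := hx (min ε e) (lt_min hε he)
    rw [not_subset] at this
    obtain ⟨y, hy1, hy2⟩ := this
    rw [Metric.mem_ball] at hy1
    refine ⟨y, ?_, by rw [dist_comm]; exact hy1.trans_le (min_le_left _ _)⟩
    by_contra hyR
    rcases (hR y).1 hyR with h | h
    · exact hy2 h
    · exact hBe (Metric.mem_ball.2 (hy1.trans_le (min_le_right _ _))) h
  obtain ⟨x1, hx1, hx1S⟩ := key S S' hne ⟨g0, hg0F, hg0S⟩ hdisj hRc
  obtain ⟨x2, hx2, hx2S⟩ := key S' S ⟨g0, hg0F, hg0S⟩ hne (fun x a b => hdisj x b a)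
    (fun x => (hRc x).trans or_comm)
  have := hfr (at92hK δ S')ᶜ (at92hK δ S)ᶜ (at92h_K_closed hδ S').isOpen_compl (at92h_K_closed hδ S).isOpen_compl
    (fun x _ => by
      by_cases h : x ∈ at92hK δ S
      · exact Or.inl fun h' => hdisj x h h'
      · exact Or.inr h)
    ⟨x1, hx1, fun h' => hdisj x1 hx1S h'⟩ ⟨x2, hx2, fun h' => hdisj x2 h' hx2S⟩
  obtain ⟨x, hx, hxa, hxb⟩ := this
  have hxR : x ∉ faceRegionSq δ F := by
    rw [hopen.frontier_eq] at hx; exact hx.2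
  rcases (hRc x).1 hxR with h | h
  · exact hxb h
  · exact hxa h


/-! ### the plane potential -/

/-- two-sided discrete primitive -/
noncomputable def at92hZs (g : ℤ → ℝ) (n : ℤ) : ℝ := ∑ i ∈ Finset.Ico 0 n, g i - ∑ i ∈ Finset.Ico n 0, g i

theorem at92h_zs_zero (g : ℤ → ℝ) : at92hZs g 0 = 0 := by simp [at92hZs]

theorem at92h_zs_succ (g : ℤ → ℝ) (n : ℤ) : at92hZs g (n + 1) = at92hZs g n + g n := by
  unfold at92hZs
  rcases le_or_gt 0 n with h | h
  · have e1 : Finset.Ico 0 (n + 1) = insert n (Finset.Ico 0 n) := by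
      ext i; simp only [Finset.mem_Ico, Finset.mem_insert]; omega
    have e2 : Finset.Ico (n + 1) 0 = ∅ := Finset.Ico_eq_empty (by omega)
    have e3 : Finset.Ico n 0 = ∅ := Finset.Ico_eq_empty (by omega)
    rw [e1, e2, e3, Finset.sum_insert (by simp)]
    simp; ring
  · have e1 : Finset.Ico n 0 = insert n (Finset.Ico (n + 1) 0) := by
      ext i; simp only [Finset.mem_Ico, Finset.mem_insert]; omega
    have e2 : Finset.Ico 0 (n + 1) = ∅ := Finset.Ico_eq_empty (by omega)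
    have e3 : Finset.Ico 0 n = ∅ := Finset.Ico_eq_empty (by omega)
    rw [e1, e2, e3, Finset.sum_insert (by simp)]
    simp

/-- discrete Poincare lemma on `ℤ²` -/
theorem at92h_poincare (dx dy : ℤ → ℤ → ℝ) (hc : ∀ a b, dx a b + dy (a + 1) b = dy a b + dx a (b + 1)) :
    ∃ H : ℤ → ℤ → ℝ, (∀ a b, H (a + 1) b = H a b + dx a b) ∧ ∀ a b, H a (b + 1) = H a b + dy a b := by
  refine ⟨fun a b => at92hZs (fun i => dx i 0) a + at92hZs (fun j => dy a j) b, fun a b => ?_, fun a b => ?_⟩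
  · induction b using Int.induction_on with
    | zero => simp only [at92h_zs_zero, at92h_zs_succ]; ring
    | succ k ih =>
      have := hc a k
      simp only [at92h_zs_succ] at ih ⊢
      linarith
    | pred k ih =>
      have := hc a (-(k:ℤ) - 1)
      have e1 := at92h_zs_succ (fun j => dy (a + 1) j) (-(k:ℤ) - 1)
      have e2 := at92h_zs_succ (fun j => dy a j) (-(k:ℤ) - 1)
      simp only [sub_add_cancel] at e1 e2 this
      simp only [at92h_zs_succ] at ih ⊢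
      linarith
  · simp only [at92h_zs_succ]; ring

/-- `v` is one of the four corners of the face `f` -/
def at92hCor (f v : ℤ × ℤ) : Prop := (v.1 = f.1 ∨ v.1 = f.1 + 1) ∧ (v.2 = f.2 ∨ v.2 = f.2 + 1)

/-- plane potential of a closed pair of spin fields -/
theorem at92h_plane (s d : ℤ × ℤ → ℤ)
    (hH : ∀ a b : ℤ, (s (a, b) - s (a + 1, b)) * (d (a, b) - d (a, b - 1)) = 0)
    (hV : ∀ a b : ℤ, (s (a, b) - s (a, b + 1)) * (d (a, b) - d (a - 1, b)) = 0) :
    ∃ Hv Hf : ℤ × ℤ → ℝ, ∀ f v : ℤ × ℤ, at92hCor f v → Hf f - Hv v = ((s v : ℝ) * (d f : ℝ)) / 2 := by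
  have hH' : ∀ a b : ℤ, ((s (a, b) : ℝ) - s (a + 1, b)) * ((d (a, b) : ℝ) - d (a, b - 1)) = 0 := by
    intro a b; exact_mod_cast hH a b
  have hV' : ∀ a b : ℤ, ((s (a, b) : ℝ) - s (a, b + 1)) * ((d (a, b) : ℝ) - d (a - 1, b)) = 0 := by
    intro a b; exact_mod_cast hV a b
  obtain ⟨H, hx, hy⟩ := at92h_poincare (fun a b => ((s (a, b) : ℝ) - s (a + 1, b)) * d (a, b) / 2)
    (fun a b => ((s (a, b) : ℝ) - s (a, b + 1)) * d (a, b) / 2) (by
      intro a b
      have h1 := hV' (a + 1) b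
      have h2 := hH' a (b + 1)
      simp only [add_sub_cancel_right] at h1 h2
      linear_combination (1 / 2 : ℝ) * h1 - (1 / 2 : ℝ) * h2)
  refine ⟨fun v => H v.1 v.2, fun f => H f.1 f.2 + (s f : ℝ) * d f / 2, ?_⟩
  rintro ⟨a, b⟩ ⟨x, y⟩ ⟨h1, h2⟩
  simp only at h1 h2 ⊢
  have e1 := hx a b
  have e2 := hy a b
  have e3 := hy (a + 1) b
  have e4 := hV' (a + 1) b
  simp only [add_sub_cancel_right] at e4
  rcases h1 with rfl | rfl <;> rcases h2 with rfl | rfl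
  · ring
  · rw [e2]; ring
  · rw [e1]; ring
  · rw [e3, e1]; linear_combination (-1 / 2 : ℝ) * e4

/-! ### admissible spins are closed in the whole plane -/

theorem at92h_self_mem_corners {F : Finset (ℤ × ℤ)} {f : ℤ × ℤ} (hf : f ∈ F) : f ∈ cornersOf F := by
  unfold cornersOf
  rw [Finset.mem_biUnion]
  exact ⟨f, hf, by simp⟩

theorem at92h_mem_corners {F : Finset (ℤ × ℤ)} {v : ℤ × ℤ} : v ∈ cornersOf F ↔ ∃ f ∈ F, at92hCor f v := by
  unfold cornersOf at92hCor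
  rw [Finset.mem_biUnion]
  constructor
  · rintro ⟨f, hf, hv⟩
    refine ⟨f, hf, ?_⟩
    simp only [Finset.mem_insert, Finset.mem_singleton] at hv
    rcases hv with rfl | rfl | rfl | rfl <;> simp
  · rintro ⟨f, hf, h1, h2⟩
    refine ⟨f, hf, ?_⟩
    simp only [Finset.mem_insert, Finset.mem_singleton]
    obtain ⟨x, y⟩ := v
    simp only at h1 h2
    rcases h1 with rfl | rfl <;> rcases h2 with rfl | rfl <;> simp

theorem at92h_spin_one {F : Finset (ℤ × ℤ)} {τ : cornersOf F → Bool} {τd : F → Bool}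
    (h : IsAdmissibleSpins τ τd) {v : ℤ × ℤ} (hv : OnPolygon F v) : atSpin τ v = 1 := by
  by_cases hc : v ∈ cornersOf F
  · exact h.1 v hc hv
  · unfold atSpin; rw [dif_neg hc]

theorem at92h_dual_one {F : Finset (ℤ × ℤ)} (τd : F → Bool) {f : ℤ × ℤ} (hf : f ∉ F) : atDual τd f = 1 := by
  unfold atDual; rw [dif_neg hf]

/-- a corner of an exterior face is on the polygon -/
theorem at92h_onPolygon {F : Finset (ℤ × ℤ)} {f v : ℤ × ℤ} (hf : f ∉ F) (hc : at92hCor f v) : OnPolygon F v := by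
  obtain ⟨a, b⟩ := f
  obtain ⟨x, y⟩ := v
  obtain ⟨h1, h2⟩ := hc
  simp only at h1 h2
  unfold OnPolygon
  rintro ⟨k1, k2, k3, k4⟩
  simp only at k1 k2 k3 k4
  rcases h1 with rfl | rfl <;> rcases h2 with rfl | rfl
  · exact hf k1
  · exact hf (by simpa using k3)
  · exact hf (by simpa using k2)
  · exact hf (by simpa using k4)

/-- a polygon point is a corner of an exterior face -/
theorem at92h_exists_ext {F : Finset (ℤ × ℤ)} {v : ℤ × ℤ} (hv : OnPolygon F v) : ∃ f, f ∉ F ∧ at92hCor f v := by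
  unfold OnPolygon at hv
  by_cases k1 : v ∈ F
  · by_cases k2 : (v.1 - 1, v.2) ∈ F
    · by_cases k3 : (v.1, v.2 - 1) ∈ F
      · by_cases k4 : (v.1 - 1, v.2 - 1) ∈ F
        · exact absurd ⟨k1, k2, k3, k4⟩ hv
        · exact ⟨_, k4, by simp [at92hCor]⟩
      · exact ⟨_, k3, by simp [at92hCor]⟩
    · exact ⟨_, k2, by simp [at92hCor]⟩
  · exact ⟨_, k1, by simp [at92hCor]⟩

theorem at92h_closedH {F : Finset (ℤ × ℤ)} {τ : cornersOf F → Bool} {τd : F → Bool}
    (h : IsAdmissibleSpins τ τd) (a b : ℤ) :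
    (atSpin τ (a, b) - atSpin τ (a + 1, b)) * (atDual τd (a, b) - atDual τd (a, b - 1)) = 0 := by
  by_cases h1 : (a, b) ∈ F
  · by_cases h2 : (a, b - 1) ∈ F
    · exact (h.2 (a, b) (at92h_self_mem_corners h1)).1 ⟨h1, h2⟩
    · rw [at92h_spin_one h (at92h_onPolygon h2 (v := (a, b)) (by simp [at92hCor])),
        at92h_spin_one h (at92h_onPolygon h2 (v := (a + 1, b)) (by simp [at92hCor]))]
      simp
  · rw [at92h_spin_one h (at92h_onPolygon h1 (v := (a, b)) (by simp [at92hCor])),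
      at92h_spin_one h (at92h_onPolygon h1 (v := (a + 1, b)) (by simp [at92hCor]))]
    simp

theorem at92h_closedV {F : Finset (ℤ × ℤ)} {τ : cornersOf F → Bool} {τd : F → Bool}
    (h : IsAdmissibleSpins τ τd) (a b : ℤ) :
    (atSpin τ (a, b) - atSpin τ (a, b + 1)) * (atDual τd (a, b) - atDual τd (a - 1, b)) = 0 := by
  by_cases h1 : (a, b) ∈ F
  · by_cases h2 : (a - 1, b) ∈ F
    · exact (h.2 (a, b) (at92h_self_mem_corners h1)).2 ⟨h1, h2⟩
    · rw [at92h_spin_one h (at92h_onPolygon h2 (v := (a, b)) (by simp [at92hCor])),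
        at92h_spin_one h (at92h_onPolygon h2 (v := (a, b + 1)) (by simp [at92hCor]))]
      simp
  · rw [at92h_spin_one h (at92h_onPolygon h1 (v := (a, b)) (by simp [at92hCor])),
      at92h_spin_one h (at92h_onPolygon h1 (v := (a, b + 1)) (by simp [at92hCor]))]
    simp

/-! ### existence and uniqueness of the height -/

/-- the exterior faces are star connected -/
def At92hExt (F : Finset (ℤ × ℤ)) : Prop :=
  ∀ S : Set (ℤ × ℤ), (∀ f ∈ S, f ∉ F) → S.Nonempty → (∀ f ∈ S, ∀ g, g ∉ F → at92hAdj f g → g ∈ S) →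
    ∀ g, g ∉ F → g ∈ S

theorem at92h_isHeight_iff {F : Finset (ℤ × ℤ)} {τ : cornersOf F → Bool} {τd : F → Bool} {Hv Hf : ℤ × ℤ → ℝ} :
    IsATHeight τ τd Hv Hf ↔ (∀ v ∈ cornersOf F, OnPolygon F v → Hv v = 0) ∧
      ∀ f ∈ F, ∀ v, at92hCor f v → Hf f - Hv v = ((atSpin τ v : ℝ) * (atDual τd f : ℝ)) / 2 := by
  unfold IsATHeight
  refine and_congr_right fun _ => forall₂_congr fun f _ => ?_
  constructor
  · rintro h ⟨x, y⟩ ⟨h1, h2⟩
    simp only at h1 h2
    refine h _ ?_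
    simp only [Finset.mem_insert, Finset.mem_singleton]
    rcases h1 with rfl | rfl <;> rcases h2 with rfl | rfl <;> simp
  · intro h v hv
    refine h v ?_
    simp only [Finset.mem_insert, Finset.mem_singleton] at hv
    rcases hv with rfl | rfl | rfl | rfl <;> simp [at92hCor]

/-- two star adjacent faces share a corner -/
theorem at92h_common_corner {f g : ℤ × ℤ} (h : at92hAdj f g) : ∃ v, at92hCor f v ∧ at92hCor g v := by
  obtain ⟨h1, h2⟩ := h
  rw [abs_le] at h1 h2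
  refine ⟨(max f.1 g.1, max f.2 g.2), ⟨?_, ?_⟩, ?_, ?_⟩ <;> simp only [] <;> omega

/-- **existence of the height** -/
theorem at92h_exists {F : Finset (ℤ × ℤ)} (hext : At92hExt F) {τ : cornersOf F → Bool} {τd : F → Bool}
    (h : IsAdmissibleSpins τ τd) : ∃ Hv Hf : ℤ × ℤ → ℝ, IsATHeight τ τd Hv Hf := by
  obtain ⟨Hv, Hf, hp⟩ := at92h_plane (atSpin τ) (atDual τd) (at92h_closedH h) (at92h_closedV h)
  obtain ⟨g0, hg0⟩ := Infinite.exists_notMem_finset F
  have hE : ∀ f, f ∉ F → ∀ v, at92hCor f v → Hf f - Hv v = 1 / 2 := by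
    intro f hf v hv
    rw [hp f v hv, at92h_spin_one h (at92h_onPolygon hf hv), at92h_dual_one τd hf]
    norm_num
  have hS := hext {f | f ∉ F ∧ Hf f = Hf g0} (fun f hf => hf.1) ⟨g0, hg0, rfl⟩ (by
    rintro f ⟨hfF, hf⟩ g hg hadj
    obtain ⟨v, hv1, hv2⟩ := at92h_common_corner hadj
    refine ⟨hg, ?_⟩
    have a1 := hE f hfF v hv1
    have a2 := hE g hg v hv2
    linarith)
  refine ⟨fun v => Hv v - (Hf g0 - 1 / 2), fun f => Hf f - (Hf g0 - 1 / 2), ?_⟩
  rw [at92h_isHeight_iff]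
  refine ⟨fun v _ hv => ?_, fun f _ v hv => ?_⟩
  · obtain ⟨g, hg, hgv⟩ := at92h_exists_ext hv
    have a1 := hE g hg v hgv
    have a2 := (hS g hg).2
    linarith
  · rw [← hp f v hv]; ring

/-- **uniqueness of the height** (any finite `F`) -/
theorem at92h_unique {F : Finset (ℤ × ℤ)} {τ : cornersOf F → Bool} {τd : F → Bool} {Hv Hf Hv' Hf' : ℤ × ℤ → ℝ}
    (h : IsATHeight τ τd Hv Hf) (h' : IsATHeight τ τd Hv' Hf') :
    (∀ v ∈ cornersOf F, Hv v = Hv' v) ∧ ∀ f ∈ F, Hf f = Hf' f := by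
  rw [at92h_isHeight_iff] at h h'
  have hD : ∀ f ∈ F, ∀ v, at92hCor f v → Hf f - Hf' f = Hv v - Hv' v := by
    intro f hf v hv
    have a1 := h.2 f hf v hv
    have a2 := h'.2 f hf v hv
    linarith
  have hf0 : ∀ f ∈ F, Hf f = Hf' f := by
    by_contra hcon
    push Not at hcon
    obtain ⟨f0, hf0, hne⟩ := hcon
    classical
    obtain ⟨f, hfT, hmax⟩ := Finset.exists_max_image (F.filter fun f => Hf f ≠ Hf' f) (fun f => f.1 + f.2)
      ⟨f0, Finset.mem_filter.2 ⟨hf0, hne⟩⟩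
    rw [Finset.mem_filter] at hfT
    have hcor : at92hCor f (f.1 + 1, f.2 + 1) := by simp [at92hCor]
    have e1 := hD f hfT.1 _ hcor
    by_cases hP : OnPolygon F (f.1 + 1, f.2 + 1)
    · have hc : (f.1 + 1, f.2 + 1) ∈ cornersOf F := at92h_mem_corners.2 ⟨f, hfT.1, hcor⟩
      rw [h.1 _ hc hP, h'.1 _ hc hP] at e1
      exact hfT.2 (by linarith)
    · unfold OnPolygon at hP
      rw [not_not] at hP
      have hg := hP.1
      have e2 := hD _ hg (f.1 + 1, f.2 + 1) (by simp [at92hCor])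
      have := hmax (f.1 + 1, f.2 + 1) (Finset.mem_filter.2 ⟨hg, fun hh => hfT.2 (by linarith)⟩)
      simp only at this
      omega
  refine ⟨fun v hv => ?_, hf0⟩
  obtain ⟨f, hf, hc⟩ := at92h_mem_corners.1 hv
  have := hD f hf v hc
  rw [hf0 f hf] at this
  linarith

/-! ### API of the frozen `atHeight` -/

theorem at92h_spec {F : Finset (ℤ × ℤ)} {τ : cornersOf F → Bool} {τd : F → Bool}
    (hex : ∃ Hv Hf : ℤ × ℤ → ℝ, IsATHeight τ τd Hv Hf) : ∃ Hf, IsATHeight τ τd (atHeight τ τd) Hf := by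
  unfold atHeight
  rw [dif_pos hex]
  exact Classical.choose_spec hex

theorem at92h_eq {F : Finset (ℤ × ℤ)} {τ : cornersOf F → Bool} {τd : F → Bool} {Hv Hf : ℤ × ℤ → ℝ}
    (h : IsATHeight τ τd Hv Hf) : ∀ v ∈ cornersOf F, atHeight τ τd v = Hv v := by
  obtain ⟨Hf', h'⟩ := at92h_spec ⟨Hv, Hf, h⟩
  exact (at92h_unique h' h).1

theorem at92h_zero_of_not {F : Finset (ℤ × ℤ)} {τ : cornersOf F → Bool} {τd : F → Bool}
    (hex : ¬ ∃ Hv Hf : ℤ × ℤ → ℝ, IsATHeight τ τd Hv Hf) (v : ℤ × ℤ) : atHeight τ τd v = 0 := by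
  unfold atHeight
  rw [dif_neg hex]

/-- the frontier of an admissible approximation is connected, so the exterior is star connected -/
theorem at92h_ext_of_approx {D : Set (ℝ × ℝ)} {δ : ℕ → ℝ} {F : ℕ → Finset (ℤ × ℤ)}
    (h : IsAdmissibleApprox D δ F) (n : ℕ) : At92hExt (F n) := by
  obtain ⟨hδ, _, _, γ, γs, _, _, _, hγs, _⟩ := h
  intro S h1 h2 h3
  refine at92h_ext_conn (hδ n) (F n) ?_ S h1 h2 h3
  rw [← (hγs n).2.2]
  exact isPreconnected_range (hγs n).1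

/-- **on an admissible approximation every admissible pair has its height, and the frozen `atHeight` is it** -/
theorem at92h_spec_approx {D : Set (ℝ × ℝ)} {δ : ℕ → ℝ} {F : ℕ → Finset (ℤ × ℤ)}
    (h : IsAdmissibleApprox D δ F) (n : ℕ) {τ : cornersOf (F n) → Bool} {τd : F n → Bool}
    (ha : IsAdmissibleSpins τ τd) : ∃ Hf, IsATHeight τ τd (atHeight τ τd) Hf :=
  at92h_spec (at92h_exists (at92h_ext_of_approx h n) ha)


/-! ### the dual flip: the law of the height is symmetric -/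

/-- flip of all dual spins -/
def at92hFlip {F : Finset (ℤ × ℤ)} (p : at92Cfg F) : at92Cfg F := (p.1, fun f => !p.2 f)

theorem at92h_flip_flip {F : Finset (ℤ × ℤ)} (p : at92Cfg F) : at92hFlip (at92hFlip p) = p := by
  unfold at92hFlip
  simp

theorem at92h_dual_flip {F : Finset (ℤ × ℤ)} (p : at92Cfg F) {f : ℤ × ℤ} (hf : f ∈ F) :
    atDual (at92hFlip p).2 f = - atDual p.2 f := by
  unfold atDual at92hFlip
  rw [dif_pos hf, dif_pos hf]
  cases h : p.2 ⟨f, hf⟩ <;> simp [h]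

theorem at92h_flip_adm {F : Finset (ℤ × ℤ)} {p : at92Cfg F} (h : IsAdmissibleSpins p.1 p.2) :
    IsAdmissibleSpins (at92hFlip p).1 (at92hFlip p).2 := by
  refine ⟨h.1, fun v hv => ⟨fun hF => ?_, fun hF => ?_⟩⟩
  · have := (h.2 v hv).1 hF
    rw [at92h_dual_flip p hF.1, at92h_dual_flip p hF.2]
    show (atSpin p.1 v - atSpin p.1 (v.1 + 1, v.2)) * _ = 0
    linear_combination -this
  · have := (h.2 v hv).2 hF
    rw [at92h_dual_flip p hF.1, at92h_dual_flip p hF.2]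
    show (atSpin p.1 v - atSpin p.1 (v.1, v.2 + 1)) * _ = 0
    linear_combination -this

theorem at92h_flip_mem {F : Finset (ℤ × ℤ)} {p : at92Cfg F} (h : p ∈ at92Adm F) : at92hFlip p ∈ at92Adm F := by
  rw [at92_mem_adm] at h ⊢
  exact at92h_flip_adm h

theorem at92h_flip_dis {F : Finset (ℤ × ℤ)} (p : at92Cfg F) :
    atDisagreements (at92hFlip p).1 (at92hFlip p).2 = atDisagreements p.1 p.2 := by
  classical
  unfold atDisagreements
  refine Finset.sum_congr rfl fun v _ => ?_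
  have e3 : ((v ∈ F ∧ (v.1, v.2 - 1) ∈ F) ∧ atDual (at92hFlip p).2 v ≠ atDual (at92hFlip p).2 (v.1, v.2 - 1)) ↔
      ((v ∈ F ∧ (v.1, v.2 - 1) ∈ F) ∧ atDual p.2 v ≠ atDual p.2 (v.1, v.2 - 1)) := by
    refine and_congr_right fun hF => ?_
    rw [at92h_dual_flip p hF.1, at92h_dual_flip p hF.2, ne_eq, ne_eq, neg_inj]
  have e4 : ((v ∈ F ∧ (v.1 - 1, v.2) ∈ F) ∧ atDual (at92hFlip p).2 v ≠ atDual (at92hFlip p).2 (v.1 - 1, v.2)) ↔
      ((v ∈ F ∧ (v.1 - 1, v.2) ∈ F) ∧ atDual p.2 v ≠ atDual p.2 (v.1 - 1, v.2)) := by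
    refine and_congr_right fun hF => ?_
    rw [at92h_dual_flip p hF.1, at92h_dual_flip p hF.2, ne_eq, ne_eq, neg_inj]
  simp only [e3, e4]
  rfl

theorem at92h_flip_isHeight {F : Finset (ℤ × ℤ)} {p : at92Cfg F} {Hv Hf : ℤ × ℤ → ℝ}
    (h : IsATHeight p.1 p.2 Hv Hf) :
    IsATHeight (at92hFlip p).1 (at92hFlip p).2 (fun v => - Hv v) (fun f => - Hf f) := by
  rw [at92h_isHeight_iff] at h ⊢
  refine ⟨fun v hv hP => by rw [h.1 v hv hP, neg_zero], fun f hf v hc => ?_⟩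
  have := h.2 f hf v hc
  rw [at92h_dual_flip p hf]
  show -Hf f - -Hv v = ((atSpin p.1 v : ℝ) * ((-atDual p.2 f : ℤ) : ℝ)) / 2
  push_cast
  linear_combination -this

/-- the frozen height changes sign under the dual flip (no hypothesis on `F`) -/
theorem at92h_flip_height {F : Finset (ℤ × ℤ)} (p : at92Cfg F) {v : ℤ × ℤ} (hv : v ∈ cornersOf F) :
    atHeight (at92hFlip p).1 (at92hFlip p).2 v = - atHeight p.1 p.2 v := by
  by_cases hex : ∃ Hv Hf : ℤ × ℤ → ℝ, IsATHeight p.1 p.2 Hv Hf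
  · obtain ⟨Hv, Hf, h⟩ := hex
    rw [at92h_eq (at92h_flip_isHeight h) v hv, at92h_eq h v hv]
  · have hex' : ¬ ∃ Hv Hf : ℤ × ℤ → ℝ, IsATHeight (at92hFlip p).1 (at92hFlip p).2 Hv Hf := by
      rintro ⟨Hv, Hf, h⟩
      have := at92h_flip_isHeight h
      rw [at92h_flip_flip] at this
      exact hex ⟨_, _, this⟩
    rw [at92h_zero_of_not hex, at92h_zero_of_not hex', neg_zero]

theorem at92h_flip_X (δ : ℝ) {F : Finset (ℤ × ℤ)} (φ : ℝ × ℝ → ℝ) (p : at92Cfg F) :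
    at92X δ φ (at92hFlip p) = - at92X δ φ p := by
  unfold at92X
  rw [← mul_neg, ← Finset.sum_neg_distrib]
  congr 1
  refine Finset.sum_congr rfl fun v hv => ?_
  rw [at92h_flip_height p hv]; ring

theorem at92h_flip_W (t : ℝ) {F : Finset (ℤ × ℤ)} (p : at92Cfg F) : at92W t (at92hFlip p) = at92W t p := by
  unfold at92W
  rw [at92h_flip_dis]

/-- **symmetry of the law** -/
theorem at92h_expect_neg (t δ : ℝ) (F : Finset (ℤ × ℤ)) (φ : ℝ × ℝ → ℝ) (g : ℝ → ℝ) :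
    atExpect t δ F φ (fun s => g (-s)) = atExpect t δ F φ g := by
  rw [at92_expect_eq, at92_expect_eq]
  congr 1
  refine Finset.sum_nbij' at92hFlip at92hFlip (fun p hp => at92h_flip_mem hp) (fun p hp => at92h_flip_mem hp)
    (fun p _ => at92h_flip_flip p) (fun p _ => at92h_flip_flip p) (fun p _ => ?_)
  rw [at92h_flip_W, at92h_flip_X]

/-- **odd moments vanish identically** -/
theorem at92h_odd_moment (t δ : ℝ) (F : Finset (ℤ × ℤ)) (φ : ℝ × ℝ → ℝ) (j : ℕ) :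
    atExpect t δ F φ (fun s => s ^ (2 * j + 1)) = 0 := by
  have h := at92h_expect_neg t δ F φ (fun s => s ^ (2 * j + 1))
  have e : (fun s : ℝ => (-s) ^ (2 * j + 1)) = fun s => - s ^ (2 * j + 1) := by
    funext s; exact Odd.neg_pow ⟨j, rfl⟩ s
  simp only [e] at h
  have h2 : atExpect t δ F φ (fun s => - s ^ (2 * j + 1)) = - atExpect t δ F φ (fun s => s ^ (2 * j + 1)) := by
    rw [at92_expect_eq, at92_expect_eq, ← neg_div, ← Finset.sum_neg_distrib]
    congr 1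
    refine Finset.sum_congr rfl fun p _ => ?_
    ring
  rw [h2] at h
  linarith

/-- the odd half of every moment contract -/
theorem at92h_odd_tendsto (t : ℝ) (δ : ℕ → ℝ) (F : ℕ → Finset (ℤ × ℤ)) (φ : ℝ × ℝ → ℝ) (v : ℝ) (j : ℕ) :
    Filter.Tendsto (fun n => atExpect t (δ n) (F n) φ (fun s => s ^ (2 * j + 1))) Filter.atTop
      (𝓝 (Claimed.Agent.R291.tmmWick v (2 * j + 1))) := by
  simp only [at92h_odd_moment, Claimed.Agent.R291.tmm_wick_odd]
  exact tendsto_const_nhds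

/-! ### increments and bounds -/

/-- along an edge of a face of `F` the height moves by `0` or `±1`; in any case by at most `1` -/
theorem at92h_incr_le {F : Finset (ℤ × ℤ)} {τ : cornersOf F → Bool} {τd : F → Bool} {Hv Hf : ℤ × ℤ → ℝ}
    (h : IsATHeight τ τd Hv Hf) {f v w : ℤ × ℤ} (hf : f ∈ F) (hv : at92hCor f v) (hw : at92hCor f w) :
    |Hv v - Hv w| ≤ 1 := by
  rw [at92h_isHeight_iff] at h
  have a1 := h.2 f hf v hv
  have a2 := h.2 f hf w hw
  have e : Hv v - Hv w = (((atSpin τ w : ℝ) - atSpin τ v) * atDual τd f) / 2 := by linarith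
  rw [e]
  rcases at92_spin_sq τ v with k1 | k1 <;> rcases at92_spin_sq τ w with k2 | k2 <;>
    rcases at92_dual_sq τd f with k3 | k3 <;> rw [k1, k2, k3] <;> norm_num

end Claimed.Agent.R292
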