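import Claimed.Agent.R291.Lim.Ult
import Claimed.Agent.R291.Top.Mom
import Claimed.Agent.R290.GreenWick149
import Claimed.Agent.R291.Wick.Green
import Claimed.Agent.R292.Defs.GAUSS

/-!
# Row 292 (S0540), Gauss92 : BLOCK G-POL = POLARISATION OF ONE-TEST WICK MOMENTS, JOINT LAW      (owner helper92, unit GAUSS; prefix `gauss92_`, defs `gauss92*` / `Gauss92*`)      0 sorry

Sec. 1-8, 10 are MODEL FREE (Mathlib + the abstract machines `LmMul`, `LmOk`, `lmT`, `lmE` of R291/Lim, `tmmWick` of R291/Top/Mom, `sv149_wick` of R290/GreenWick149).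
Sec. 9, 11 are the adapters for the frozen Ashkin-Teller law (`at92Adm`, `at92W`, `at92X` of Api; `AtFlatGFF` of Defs/Top; `AtFlatU`, `GaussDom` of Defs/GAUSS).

* Sec. 1  `gauss92_zero_of_diag`, `gauss92_eq_of_diag`       a symmetric multilinear functional (`LmMul V T`) is determined by its diagonal `T (replicate k f)`
* Sec. 2  `gauss92Q`                                          the Wick numbers of the variance `a + 2 b t + c t²` as polynomials in `t`
* Sec. 3  `Gauss92Diag V T q`, `gauss92_key`, **`gauss92_wick_rec`**   one-test Wick moments ⟹ `T (g ::ₘ s) = Σ_{h ∈ s} T {g,h} T (s.erase h)`;  `gauss92_B_eq`, `gauss92_q_line`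
* Sec. 4  **`gauss92_wick`**, `gauss92_wick_of`               pairing form `T (univ.val.map v) = sv149_wick ..`;  `gauss92_eq_of_family`, `gauss92_q_sum`
* Sec. 5  `Gauss92One V A w X l q`, **`gauss92_tendsto`**, `gauss92_tendsto_two`, `gauss92_tendsto_T`    moment systems: all mixed moments converge along ANY filter `l ≤ atTop`
* Sec. 6  `gauss92Law`, `gauss92_law_prob/_integral/_E`, `gauss92_charFun`     finite weighted laws in a measurable space; Cramér-Wold at one mesh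
* Sec. 7  **`gauss92_joint`**, `gauss92S`, `gauss92_S_psd`, `gauss92_S_quad`   joint law of `(X_n f_i)_i` along `l`: `multivariateGaussian 0 (gauss92S q f)`
* Sec. 8  **`gauss92_joint_vec`**, `gauss92_levy`, `gauss92_vec_seq`           the same WITHOUT a moment system: weights `≥ 0`, `Z > 0`, moments of `Σ c_i Y_i` along any filter on any index type
* Sec. 9  `Gauss92Sol D φ u`, `gauss92Cov`, **`gauss92_at_joint`**, `gauss92_at_joint_flat`, `gauss92_at_joint_U`     Ashkin-Teller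
* Sec. 10 `gauss92_vec_mom` (mixed moments), `gauss92_vec_law` (in `ProbabilityMeasure`), `gauss92_vec_set` (null frontier), `gauss92_joint_vec_pi` (`Fin m → ℝ`)
* Sec. 11 `gauss92_at_mom`, `gauss92_at_set`, `gauss92_at_of_flat`, `gauss92_at_of_flatU`
(Lévy's theorem fails along nets: the general filter is reached through a coarser COUNTABLY GENERATED filter made of countably many moments.)
-/

set_option autoImplicit false
set_option linter.unusedSectionVars false

namespace Claimed.Agent.R292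

open MeasureTheory ProbabilityTheory Filter Topology
open Claimed.Agent.R291 Claimed.Agent.R290

/-! ## 1. Symmetric multilinear functionals are determined by their diagonal -/

section pol

variable {τ : Type} [AddCommGroup τ] [Module ℝ τ] {V : Submodule ℝ τ}

theorem gauss92_mul_cons {T : Multiset τ → ℝ} (H : LmMul V T) {g : τ} (hg : g ∈ V) :
    LmMul V (fun s => T (g ::ₘ s)) where
  add a a' s ha ha' hs := by
    show T (g ::ₘ (a + a') ::ₘ s) = T (g ::ₘ a ::ₘ s) + T (g ::ₘ a' ::ₘ s)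
    rw [Multiset.cons_swap g (a + a') s, Multiset.cons_swap g a s, Multiset.cons_swap g a' s]
    exact H.add a a' (g ::ₘ s) ha ha' (lm_mem_cons hg hs)
  smul c a s ha hs := by
    show T (g ::ₘ (c • a) ::ₘ s) = c * T (g ::ₘ a ::ₘ s)
    rw [Multiset.cons_swap g (c • a) s, Multiset.cons_swap g a s]
    exact H.smul c a (g ::ₘ s) ha (lm_mem_cons hg hs)

theorem gauss92_mul_sub {T T' : Multiset τ → ℝ} (H : LmMul V T) (H' : LmMul V T') :
    LmMul V (fun s => T s - T' s) where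
  add a a' s ha ha' hs := by
    show T _ - T' _ = (T _ - T' _) + (T _ - T' _)
    rw [H.add a a' s ha ha' hs, H'.add a a' s ha ha' hs]
    ring
  smul c a s ha hs := by
    show T _ - T' _ = c * (T _ - T' _)
    rw [H.smul c a s ha hs, H'.smul c a s ha hs]
    ring

/-- the polynomial `t ↦ T (replicate n (f + t g) + u)` -/
noncomputable def gauss92P (T : Multiset τ → ℝ) (f g : τ) : ℕ → Multiset τ → Polynomial ℝ
  | 0, u => Polynomial.C (T u)
  | n + 1, u => gauss92P T f g n (f ::ₘ u) + Polynomial.X * gauss92P T f g n (g ::ₘ u)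

theorem gauss92_P_zero (T : Multiset τ → ℝ) (f g : τ) (u : Multiset τ) :
    gauss92P T f g 0 u = Polynomial.C (T u) := rfl

theorem gauss92_P_succ (T : Multiset τ → ℝ) (f g : τ) (n : ℕ) (u : Multiset τ) :
    gauss92P T f g (n + 1) u = gauss92P T f g n (f ::ₘ u) + Polynomial.X * gauss92P T f g n (g ::ₘ u) := rfl

theorem gauss92_mem_rep_add {h : τ} (hh : h ∈ V) (n : ℕ) {u : Multiset τ} (hu : ∀ x ∈ u, x ∈ V) :
    ∀ x ∈ Multiset.replicate n h + u, x ∈ V := by
  intro x hx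
  rcases Multiset.mem_add.1 hx with h1 | h1
  · rw [Multiset.eq_of_mem_replicate h1]; exact hh
  · exact hu x h1

theorem gauss92_P_eval {T : Multiset τ → ℝ} (H : LmMul V T) {f g : τ} (hf : f ∈ V) (hg : g ∈ V) (t : ℝ) :
    ∀ (n : ℕ) (u : Multiset τ), (∀ x ∈ u, x ∈ V) →
      (gauss92P T f g n u).eval t = T (Multiset.replicate n (f + t • g) + u)
  | 0, u, _ => by simp [gauss92_P_zero]
  | n + 1, u, hu => by
    rw [gauss92_P_succ, Polynomial.eval_add, Polynomial.eval_mul, Polynomial.eval_X,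
      gauss92_P_eval H hf hg t n _ (lm_mem_cons hf hu), gauss92_P_eval H hf hg t n _ (lm_mem_cons hg hu),
      Multiset.replicate_succ, Multiset.cons_add, Multiset.add_cons, Multiset.add_cons]
    have hm := gauss92_mem_rep_add (V.add_mem hf (V.smul_mem t hg)) n hu
    rw [H.add f (t • g) _ hf (V.smul_mem t hg) hm, H.smul t g _ hg hm]

theorem gauss92_P_coeff_zero (T : Multiset τ → ℝ) (f g : τ) : ∀ (n : ℕ) (u : Multiset τ),
    (gauss92P T f g n u).coeff 0 = T (Multiset.replicate n f + u)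
  | 0, u => by simp [gauss92_P_zero]
  | n + 1, u => by
    rw [gauss92_P_succ, Polynomial.coeff_add, Polynomial.coeff_X_mul_zero, add_zero, gauss92_P_coeff_zero T f g n,
      Multiset.replicate_succ, Multiset.cons_add, Multiset.add_cons]

theorem gauss92_P_coeff_one (T : Multiset τ → ℝ) (f g : τ) : ∀ (n : ℕ) (u : Multiset τ),
    (gauss92P T f g (n + 1) u).coeff 1 = ((n : ℝ) + 1) * T (g ::ₘ (Multiset.replicate n f + u))
  | 0, u => by
    rw [gauss92_P_succ, Polynomial.coeff_add, Polynomial.coeff_X_mul, gauss92_P_zero, gauss92_P_zero,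
      Polynomial.coeff_C_succ, Polynomial.coeff_C_zero]
    simp
  | n + 1, u => by
    rw [gauss92_P_succ, Polynomial.coeff_add, Polynomial.coeff_X_mul, gauss92_P_coeff_one T f g n,
      gauss92_P_coeff_zero, Multiset.add_cons, Multiset.add_cons, ← Multiset.cons_add, ← Multiset.replicate_succ]
    push_cast
    ring

/-- first order term of the diagonal -/
theorem gauss92_diag_one {S : Multiset τ → ℝ} (H : LmMul V S) (h0 : ∀ f ∈ V, ∀ k : ℕ, S (Multiset.replicate k f) = 0)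
    {f g : τ} (hf : f ∈ V) (hg : g ∈ V) (k : ℕ) : S (g ::ₘ Multiset.replicate k f) = 0 := by
  have hP : gauss92P S f g (k + 1) 0 = 0 := by
    refine Polynomial.funext fun t => ?_
    rw [gauss92_P_eval H hf hg t (k + 1) 0 (by simp), add_zero, h0 _ (V.add_mem hf (V.smul_mem t hg)), Polynomial.eval_zero]
  have h1 := gauss92_P_coeff_one S f g k 0
  rw [hP, Polynomial.coeff_zero, add_zero] at h1
  have hk : ((k : ℝ) + 1) ≠ 0 := by positivity
  exact (mul_eq_zero.1 h1.symm).resolve_left hk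

/-- **polarisation**: a symmetric multilinear functional which vanishes on the diagonal vanishes -/
theorem gauss92_zero_of_diag : ∀ (n : ℕ) {S : Multiset τ → ℝ}, LmMul V S →
    (∀ f ∈ V, ∀ k : ℕ, S (Multiset.replicate k f) = 0) → ∀ s : Multiset τ, s.card = n → (∀ f ∈ s, f ∈ V) → S s = 0
  | 0, S, _, h0, s, hs, _ => by
    rw [Multiset.card_eq_zero] at hs
    subst hs
    simpa using h0 0 V.zero_mem 0
  | n + 1, S, H, h0, s, hs, hV => by
    obtain ⟨g, hg0⟩ := Multiset.card_pos_iff_exists_mem.1 (by omega : 0 < s.card)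
    obtain ⟨s', rfl⟩ := Multiset.exists_cons_of_mem hg0
    have hg : g ∈ V := hV g (Multiset.mem_cons_self _ _)
    have hs' : ∀ f ∈ s', f ∈ V := fun f hf => hV f (Multiset.mem_cons_of_mem hf)
    refine gauss92_zero_of_diag n (gauss92_mul_cons H hg) (fun f hf k => gauss92_diag_one H h0 hf hg k) s' ?_ hs'
    simpa using hs

/-- two symmetric multilinear functionals with the same diagonal agree -/
theorem gauss92_eq_of_diag {T T' : Multiset τ → ℝ} (H : LmMul V T) (H' : LmMul V T')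
    (h : ∀ f ∈ V, ∀ k : ℕ, T (Multiset.replicate k f) = T' (Multiset.replicate k f)) {s : Multiset τ}
    (hs : ∀ f ∈ s, f ∈ V) : T s = T' s := by
  have := gauss92_zero_of_diag s.card (gauss92_mul_sub H H') (fun f hf k => by rw [h f hf k, sub_self]) s rfl hs
  exact sub_eq_zero.1 this

/-! ## 2. The Wick numbers of the variance `a + 2 b t + c t²` as polynomials in `t` -/

noncomputable def gauss92Q (a b c : ℝ) : ℕ → Polynomial ℝ
  | 0 => 1
  | 1 => 0
  | n + 2 => Polynomial.C ((n : ℝ) + 1)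
      * ((Polynomial.C a + Polynomial.C (2 * b) * Polynomial.X + Polynomial.C c * Polynomial.X ^ 2) * gauss92Q a b c n)

theorem gauss92_Q_zero (a b c : ℝ) : gauss92Q a b c 0 = 1 := rfl
theorem gauss92_Q_one (a b c : ℝ) : gauss92Q a b c 1 = 0 := rfl
theorem gauss92_Q_succ (a b c : ℝ) (n : ℕ) : gauss92Q a b c (n + 2) = Polynomial.C ((n : ℝ) + 1)
      * ((Polynomial.C a + Polynomial.C (2 * b) * Polynomial.X + Polynomial.C c * Polynomial.X ^ 2) * gauss92Q a b c n) := rfl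

theorem gauss92_Q_eval (a b c t : ℝ) : ∀ n : ℕ, (gauss92Q a b c n).eval t = tmmWick (a + 2 * b * t + c * t ^ 2) n
  | 0 => by simp [gauss92_Q_zero, tmm_wick_zero]
  | 1 => by simp [gauss92_Q_one, tmm_wick_one]
  | n + 2 => by
    rw [gauss92_Q_succ, tmm_wick_succ, Polynomial.eval_mul, Polynomial.eval_mul, gauss92_Q_eval a b c t n]
    simp only [Polynomial.eval_C, Polynomial.eval_add, Polynomial.eval_mul, Polynomial.eval_X, Polynomial.eval_pow]
    ring

theorem gauss92_L_coeff_zero (a b c : ℝ) :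
    (Polynomial.C a + Polynomial.C (2 * b) * Polynomial.X + Polynomial.C c * Polynomial.X ^ 2 : Polynomial ℝ).coeff 0 = a := by
  simp

theorem gauss92_L_coeff_one (a b c : ℝ) :
    (Polynomial.C a + Polynomial.C (2 * b) * Polynomial.X + Polynomial.C c * Polynomial.X ^ 2 : Polynomial ℝ).coeff 1 = 2 * b := by
  simp [Polynomial.coeff_X_pow]

theorem gauss92_Q_coeff_zero (a b c : ℝ) : ∀ n : ℕ, (gauss92Q a b c n).coeff 0 = tmmWick a n
  | 0 => by simp [gauss92_Q_zero, tmm_wick_zero]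
  | 1 => by simp [gauss92_Q_one, tmm_wick_one]
  | n + 2 => by
    rw [gauss92_Q_succ, tmm_wick_succ, Polynomial.coeff_C_mul, Polynomial.mul_coeff_zero, gauss92_L_coeff_zero,
      gauss92_Q_coeff_zero a b c n]
    ring

theorem gauss92_Q_coeff_one (a b c : ℝ) : ∀ n : ℕ,
    (gauss92Q a b c (n + 2)).coeff 1 = ((n : ℝ) + 2) * ((n : ℝ) + 1) * b * tmmWick a n
  | 0 => by
    rw [gauss92_Q_succ, Polynomial.coeff_C_mul, Polynomial.mul_coeff_one, gauss92_L_coeff_zero, gauss92_L_coeff_one,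
      gauss92_Q_zero, tmm_wick_zero]
    simp [Polynomial.coeff_one]
  | 1 => by
    rw [gauss92_Q_succ, gauss92_Q_one, tmm_wick_one]
    simp
  | n + 2 => by
    rw [gauss92_Q_succ, Polynomial.coeff_C_mul, Polynomial.mul_coeff_one, gauss92_L_coeff_zero, gauss92_L_coeff_one,
      gauss92_Q_coeff_one a b c n, gauss92_Q_coeff_zero, tmm_wick_succ]
    push_cast
    ring

/-! ## 3. One-test Wick moments ⟹ the Wick recursion for all mixed moments -/

/-- `T` has the one-test moments of a centred Gaussian family with variances `q` -/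
def Gauss92Diag (V : Submodule ℝ τ) (T : Multiset τ → ℝ) (q : τ → ℝ) : Prop :=
  ∀ f ∈ V, ∀ k : ℕ, T (Multiset.replicate k f) = tmmWick (q f) k

theorem gauss92_T_zero {T : Multiset τ → ℝ} {q : τ → ℝ} (hq : Gauss92Diag V T q) : T 0 = 1 := by
  have := hq 0 V.zero_mem 0
  rwa [Multiset.replicate_zero, tmm_wick_zero] at this

theorem gauss92_T_one {T : Multiset τ → ℝ} {q : τ → ℝ} (hq : Gauss92Diag V T q) {g : τ} (hg : g ∈ V) :
    T (g ::ₘ 0) = 0 := by
  have := hq g hg 1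
  rwa [Multiset.replicate_one, tmm_wick_one] at this

theorem gauss92_T_two {T : Multiset τ → ℝ} {q : τ → ℝ} (hq : Gauss92Diag V T q) {g : τ} (hg : g ∈ V) :
    T (g ::ₘ g ::ₘ 0) = q g := by
  have := hq g hg 2
  rw [tmm_wick_succ, tmm_wick_zero] at this
  rw [show (g ::ₘ g ::ₘ 0 : Multiset τ) = Multiset.replicate 2 g from rfl, this]
  simp

theorem gauss92_B_comm (T : Multiset τ → ℝ) (g h : τ) : T (g ::ₘ h ::ₘ 0) = T (h ::ₘ g ::ₘ 0) := by
  rw [Multiset.cons_swap]

theorem gauss92_mem_one {h : τ} (hh : h ∈ V) : ∀ x ∈ (h ::ₘ 0 : Multiset τ), x ∈ V := by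
  intro x hx
  rw [Multiset.mem_cons] at hx
  rcases hx with rfl | hx
  · exact hh
  · simp at hx

theorem gauss92_B_add {T : Multiset τ → ℝ} (H : LmMul V T) {g g' h : τ} (hg : g ∈ V) (hg' : g' ∈ V) (hh : h ∈ V) :
    T ((g + g') ::ₘ h ::ₘ 0) = T (g ::ₘ h ::ₘ 0) + T (g' ::ₘ h ::ₘ 0) :=
  H.add g g' _ hg hg' (gauss92_mem_one hh)

theorem gauss92_B_smul {T : Multiset τ → ℝ} (H : LmMul V T) (c : ℝ) {g h : τ} (hg : g ∈ V) (hh : h ∈ V) :
    T ((c • g) ::ₘ h ::ₘ 0) = c * T (g ::ₘ h ::ₘ 0) :=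
  H.smul c g _ hg (gauss92_mem_one hh)

theorem gauss92_B_add_right {T : Multiset τ → ℝ} (H : LmMul V T) {g h h' : τ} (hg : g ∈ V) (hh : h ∈ V) (hh' : h' ∈ V) :
    T (g ::ₘ (h + h') ::ₘ 0) = T (g ::ₘ h ::ₘ 0) + T (g ::ₘ h' ::ₘ 0) := by
  rw [gauss92_B_comm T g (h + h'), gauss92_B_comm T g h, gauss92_B_comm T g h']
  exact gauss92_B_add H hh hh' hg

theorem gauss92_B_smul_right {T : Multiset τ → ℝ} (H : LmMul V T) (c : ℝ) {g h : τ} (hg : g ∈ V) (hh : h ∈ V) :
    T (g ::ₘ (c • h) ::ₘ 0) = c * T (g ::ₘ h ::ₘ 0) := by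
  rw [gauss92_B_comm T g (c • h), gauss92_B_comm T g h]
  exact gauss92_B_smul H c hh hg

/-- the variance along a line -/
theorem gauss92_q_line {T : Multiset τ → ℝ} {q : τ → ℝ} (H : LmMul V T) (hq : Gauss92Diag V T q) {f g : τ}
    (hf : f ∈ V) (hg : g ∈ V) (t : ℝ) :
    q (f + t • g) = q f + 2 * T (g ::ₘ f ::ₘ 0) * t + q g * t ^ 2 := by
  have htg := V.smul_mem t hg
  have hfg := V.add_mem hf htg
  rw [← gauss92_T_two hq hfg, ← gauss92_T_two hq hf, ← gauss92_T_two hq hg, gauss92_B_add H hf htg hfg,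
    gauss92_B_smul H t hg hfg, gauss92_B_add_right H hf hf htg, gauss92_B_add_right H hg hf htg,
    gauss92_B_smul_right H t hf hg, gauss92_B_smul_right H t hg hg, gauss92_B_comm T f g]
  ring

/-- polarisation identity for the covariance -/
theorem gauss92_B_eq {T : Multiset τ → ℝ} {q : τ → ℝ} (H : LmMul V T) (hq : Gauss92Diag V T q) {f g : τ}
    (hf : f ∈ V) (hg : g ∈ V) : T (g ::ₘ f ::ₘ 0) = (q (f + g) - q f - q g) / 2 := by
  have := gauss92_q_line H hq hf hg 1
  rw [one_smul] at this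
  rw [this]
  ring

/-- **the key formula**: one foreign test against a power -/
theorem gauss92_key {T : Multiset τ → ℝ} {q : τ → ℝ} (H : LmMul V T) (hq : Gauss92Diag V T q) {f g : τ}
    (hf : f ∈ V) (hg : g ∈ V) (j : ℕ) :
    T (g ::ₘ Multiset.replicate (j + 1) f) = ((j : ℝ) + 1) * T (g ::ₘ f ::ₘ 0) * T (Multiset.replicate j f) := by
  have hP : gauss92P T f g (j + 2) 0 = gauss92Q (q f) (T (g ::ₘ f ::ₘ 0)) (q g) (j + 2) := by
    refine Polynomial.funext fun t => ?_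
    rw [gauss92_P_eval H hf hg t (j + 2) 0 (by simp), add_zero, hq _ (V.add_mem hf (V.smul_mem t hg)), gauss92_Q_eval,
      gauss92_q_line H hq hf hg t]
  have h1 := gauss92_P_coeff_one T f g (j + 1) 0
  rw [hP, gauss92_Q_coeff_one, add_zero, ← hq f hf j] at h1
  have hk : ((j : ℝ) + 2) ≠ 0 := by positivity
  push_cast at h1
  have h2 : ((j : ℝ) + 2) * T (g ::ₘ Multiset.replicate (j + 1) f)
      = ((j : ℝ) + 2) * (((j : ℝ) + 1) * T (g ::ₘ f ::ₘ 0) * T (Multiset.replicate j f)) := by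
    linear_combination -h1
  exact mul_left_cancel₀ hk h2

section rec

variable [DecidableEq τ]

/-- the right side of the Wick recursion -/
noncomputable def gauss92R (T : Multiset τ → ℝ) (g : τ) (s : Multiset τ) : ℝ :=
  (s.map fun h => T (g ::ₘ h ::ₘ 0) * T (s.erase h)).sum

theorem gauss92_R_def (T : Multiset τ → ℝ) (g : τ) (s : Multiset τ) :
    gauss92R T g s = (s.map fun h => T (g ::ₘ h ::ₘ 0) * T (s.erase h)).sum := rfl

theorem gauss92_R_cons (T : Multiset τ → ℝ) (g x : τ) (s : Multiset τ) :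
    gauss92R T g (x ::ₘ s) = T (g ::ₘ x ::ₘ 0) * T s + (s.map fun h => T (g ::ₘ h ::ₘ 0) * T (x ::ₘ s.erase h)).sum := by
  rw [gauss92_R_def, Multiset.map_cons, Multiset.sum_cons, Multiset.erase_cons_head]
  congr 2
  refine Multiset.map_congr rfl fun h hh => ?_
  rw [Multiset.erase_cons_tail_of_mem hh]

theorem gauss92_R_mul {T : Multiset τ → ℝ} (H : LmMul V T) {g : τ} (hg : g ∈ V) : LmMul V (gauss92R T g) where
  add a a' s ha ha' hs := by
    rw [gauss92_R_cons, gauss92_R_cons, gauss92_R_cons, gauss92_B_add_right H hg ha ha']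
    have e : (s.map fun h => T (g ::ₘ h ::ₘ 0) * T ((a + a') ::ₘ s.erase h))
        = s.map fun h => T (g ::ₘ h ::ₘ 0) * T (a ::ₘ s.erase h) + T (g ::ₘ h ::ₘ 0) * T (a' ::ₘ s.erase h) := by
      refine Multiset.map_congr rfl fun h _ => ?_
      rw [H.add a a' _ ha ha' fun f hf => hs f (Multiset.mem_of_mem_erase hf)]
      ring
    rw [e, Multiset.sum_map_add]
    ring
  smul c a s ha hs := by
    rw [gauss92_R_cons, gauss92_R_cons, gauss92_B_smul_right H c hg ha]
    have e : (s.map fun h => T (g ::ₘ h ::ₘ 0) * T ((c • a) ::ₘ s.erase h))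
        = s.map fun h => c * (T (g ::ₘ h ::ₘ 0) * T (a ::ₘ s.erase h)) := by
      refine Multiset.map_congr rfl fun h _ => ?_
      rw [H.smul c a _ ha fun f hf => hs f (Multiset.mem_of_mem_erase hf)]
      ring
    rw [e, Multiset.sum_map_mul_left]
    ring

theorem gauss92_R_diag (T : Multiset τ → ℝ) (g f : τ) (j : ℕ) :
    gauss92R T g (Multiset.replicate (j + 1) f) = ((j : ℝ) + 1) * T (g ::ₘ f ::ₘ 0) * T (Multiset.replicate j f) := by
  rw [gauss92_R_def, Multiset.map_replicate, Multiset.sum_replicate, Multiset.replicate_succ, Multiset.erase_cons_head,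
    nsmul_eq_mul]
  push_cast
  ring

/-- **POLARISATION, recursion form**: a symmetric multilinear functional with the one-test moments of a centred Gaussian
family satisfies the Wick recursion, with the covariance `B g h = T {g, h}`. -/
theorem gauss92_wick_rec {T : Multiset τ → ℝ} {q : τ → ℝ} (H : LmMul V T) (hq : Gauss92Diag V T q) {g : τ} (hg : g ∈ V)
    {s : Multiset τ} (hs : ∀ f ∈ s, f ∈ V) :
    T (g ::ₘ s) = (s.map fun h => T (g ::ₘ h ::ₘ 0) * T (s.erase h)).sum := by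
  rw [← gauss92_R_def]
  refine gauss92_eq_of_diag (gauss92_mul_cons H hg) (gauss92_R_mul H hg) (fun f hf k => ?_) hs
  cases k with
  | zero =>
    rw [Multiset.replicate_zero, gauss92_T_one hq hg, gauss92_R_def]
    simp
  | succ j => rw [gauss92_key H hq hf hg j, gauss92_R_diag]

end rec

/-! ## 4. The pairing sum -/

theorem gauss92_erase [DecidableEq τ] {k : ℕ} (w : Fin (k + 1) → τ) (j : Fin (k + 1)) :
    ((Finset.univ : Finset (Fin (k + 1))).val.map w).erase (w j)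
      = (Finset.univ : Finset (Fin k)).val.map fun x => w (j.succAbove x) := by
  rw [Fin.univ_succAbove k j, Finset.cons_val, Multiset.map_cons, Multiset.erase_cons_head, Finset.map_val,
    Multiset.map_map]
  rfl

theorem gauss92_univ_succ {k : ℕ} (v : Fin (k + 1) → τ) :
    (Finset.univ : Finset (Fin (k + 1))).val.map v = v 0 ::ₘ (Finset.univ : Finset (Fin k)).val.map fun x => v x.succ := by
  rw [Fin.univ_succ, Finset.cons_val, Multiset.map_cons, Finset.map_val, Multiset.map_map]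
  rfl

theorem gauss92_mem_fin {k : ℕ} {v : Fin k → τ} (hv : ∀ i, v i ∈ V) :
    ∀ f ∈ (Finset.univ : Finset (Fin k)).val.map v, f ∈ V := by
  intro f hf
  obtain ⟨i, _, rfl⟩ := Multiset.mem_map.1 hf
  exact hv i

/-- **POLARISATION, pairing form** (the Wick sum of the frozen statements, `sv149_wick`) -/
theorem gauss92_wick {T : Multiset τ → ℝ} {q : τ → ℝ} (H : LmMul V T) (hq : Gauss92Diag V T q) {k : ℕ} (v : Fin k → τ)
    (hv : ∀ i, v i ∈ V) :
    T ((Finset.univ : Finset (Fin k)).val.map v) = sv149_wick fun a b => T (v a ::ₘ v b ::ₘ 0) := by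
  classical
  have h := sv149_wick_unique (ι := V) (fun a b => T (a.1 ::ₘ b.1 ::ₘ 0))
    (fun k u => T ((Finset.univ : Finset (Fin k)).val.map fun i => (u i).1)) (fun u => by simpa using gauss92_T_zero hq)
    (fun u => by
      show T ((Finset.univ : Finset (Fin 1)).val.map fun i => (u i).1) = 0
      rw [gauss92_univ_succ]
      simpa using gauss92_T_one hq (u 0).2)
    (fun k u => by
      show T ((Finset.univ : Finset (Fin (k + 2))).val.map fun i => (u i).1) = _
      rw [gauss92_univ_succ, gauss92_wick_rec H hq (u 0).2 (gauss92_mem_fin fun i => (u i.succ).2), Multiset.map_map]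
      refine Finset.sum_congr rfl fun j _ => ?_
      show T ((u 0).1 ::ₘ (u j.succ).1 ::ₘ 0) * T (((Finset.univ : Finset (Fin (k + 1))).val.map fun x => (u x.succ).1).erase
        (u j.succ).1) = _
      rw [gauss92_erase (fun x : Fin (k + 1) => (u x.succ).1) j]
      rfl) k (fun i => ⟨v i, hv i⟩)
  exact h

/-- the same with a given covariance -/
theorem gauss92_wick_of {T : Multiset τ → ℝ} {q : τ → ℝ} (H : LmMul V T) (hq : Gauss92Diag V T q) {k : ℕ} (v : Fin k → τ)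
    (hv : ∀ i, v i ∈ V) :
    T ((Finset.univ : Finset (Fin k)).val.map v) = sv149_wick fun a b => (q (v a + v b) - q (v a) - q (v b)) / 2 := by
  rw [gauss92_wick H hq v hv]
  congr 1
  funext a b
  rw [gauss92_B_eq H hq (hv b) (hv a), add_comm (v b) (v a)]
  ring

/-- two symmetric multilinear functionals which agree on the multisets of a finite family agree on its span -/
theorem gauss92_eq_of_family {T T' : Multiset τ → ℝ} (H : LmMul V T) (H' : LmMul V T') {m : ℕ} (f : Fin m → τ)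
    (hf : ∀ i, f i ∈ V) (h : ∀ κ : Multiset (Fin m), T (κ.map f) = T' (κ.map f)) (s : Multiset (Fin m → ℝ)) :
    ∀ κ : Multiset (Fin m), T (s.map (fun c => ∑ i, c i • f i) + κ.map f) = T' (s.map (fun c => ∑ i, c i • f i) + κ.map f) := by
  induction s using Multiset.induction_on with
  | empty => intro κ; simpa using h κ
  | cons c s ih =>
    intro κ
    have hm : ∀ x ∈ s.map (fun c => ∑ i, c i • f i) + κ.map f, x ∈ V := by
      intro x hx
      rcases Multiset.mem_add.1 hx with h1 | h1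
      · obtain ⟨c', _, rfl⟩ := Multiset.mem_map.1 h1
        exact V.sum_mem fun i _ => V.smul_mem _ (hf i)
      · obtain ⟨i, _, rfl⟩ := Multiset.mem_map.1 h1
        exact hf i
    rw [Multiset.map_cons, Multiset.cons_add, lm_mul_sum H Finset.univ c f (fun i _ => hf i) hm,
      lm_mul_sum H' Finset.univ c f (fun i _ => hf i) hm]
    refine Finset.sum_congr rfl fun i _ => ?_
    have := ih (i ::ₘ κ)
    rw [Multiset.map_cons, Multiset.add_cons] at this
    rw [this]

theorem gauss92_eq_of_family_diag {T T' : Multiset τ → ℝ} (H : LmMul V T) (H' : LmMul V T') {m : ℕ} (f : Fin m → τ)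
    (hf : ∀ i, f i ∈ V) (h : ∀ κ : Multiset (Fin m), T (κ.map f) = T' (κ.map f)) (c : Fin m → ℝ) (k : ℕ) :
    T (Multiset.replicate k (∑ i, c i • f i)) = T' (Multiset.replicate k (∑ i, c i • f i)) := by
  have := gauss92_eq_of_family H H' f hf h (Multiset.replicate k c) 0
  simpa [Multiset.map_replicate] using this

/-- the variance of a combination -/
theorem gauss92_q_sum {T : Multiset τ → ℝ} {q : τ → ℝ} (H : LmMul V T) (hq : Gauss92Diag V T q) {m : ℕ} (f : Fin m → τ)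
    (hf : ∀ i, f i ∈ V) (c : Fin m → ℝ) :
    q (∑ i, c i • f i) = ∑ i, ∑ j, c i * c j * T (f i ::ₘ f j ::ₘ 0) := by
  have hg : ∑ i, c i • f i ∈ V := V.sum_mem fun i _ => V.smul_mem _ (hf i)
  rw [← gauss92_T_two hq hg, lm_mul_sum H Finset.univ c f (fun i _ => hf i) (gauss92_mem_one hg)]
  refine Finset.sum_congr rfl fun i _ => ?_
  rw [Multiset.cons_swap, lm_mul_sum H Finset.univ c f (fun i _ => hf i) (gauss92_mem_one (hf i)), Finset.mul_sum]
  refine Finset.sum_congr rfl fun j _ => ?_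
  rw [Multiset.cons_swap]
  ring

end pol

/-! ## 5. Convergence form: moment systems -/

section sys

variable {Ω : ℕ → Type} {τ : Type} [AddCommGroup τ] [Module ℝ τ] {V : Submodule ℝ τ} {A : ∀ n, Finset (Ω n)}
  {w : ∀ n, Ω n → ℝ} {X : ∀ n, τ → Ω n → ℝ}

/-- the one-test moments converge along `l` to the moments of `N(0, q f)` -/
def Gauss92One (V : Submodule ℝ τ) (A : ∀ n, Finset (Ω n)) (w : ∀ n, Ω n → ℝ) (X : ∀ n, τ → Ω n → ℝ) (l : Filter ℕ)
    (q : τ → ℝ) : Prop :=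
  ∀ f ∈ V, ∀ k : ℕ, Tendsto (fun n => lmE (A n) (w n) fun h => X n f h ^ k) l (𝓝 (tmmWick (q f) k))

theorem gauss92_M_replicate {Ω' : Type} (A' : Finset Ω') (w' : Ω' → ℝ) (X' : τ → Ω' → ℝ) (f : τ) (k : ℕ) :
    lmM A' w' X' (Multiset.replicate k f) = lmE A' w' fun h => X' f h ^ k := by
  unfold lmM
  congr 1
  funext h
  rw [Multiset.map_replicate, Multiset.prod_replicate]

theorem gauss92_M_fin {Ω' : Type} (A' : Finset Ω') (w' : Ω' → ℝ) (X' : τ → Ω' → ℝ) {k : ℕ} (v : Fin k → τ) :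
    lmM A' w' X' ((Finset.univ : Finset (Fin k)).val.map v) = lmE A' w' fun h => ∏ i, X' (v i) h := by
  unfold lmM
  congr 1
  funext h
  rw [Multiset.map_map]
  rfl

theorem gauss92_M_two {Ω' : Type} (A' : Finset Ω') (w' : Ω' → ℝ) (X' : τ → Ω' → ℝ) (g h : τ) :
    lmM A' w' X' (g ::ₘ h ::ₘ 0) = lmE A' w' fun a => X' g a * X' h a := by
  unfold lmM
  congr 1
  funext a
  simp

theorem gauss92_one_mono {l l' : Filter ℕ} {q : τ → ℝ} (h : Gauss92One V A w X l q) (hl : l' ≤ l) :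
    Gauss92One V A w X l' q := fun f hf k => (h f hf k).mono_left hl

/-- the limit functional along an ultrafilter finer than `l` has the Gaussian diagonal -/
theorem gauss92_T_diag {l : Filter ℕ} {q : τ → ℝ} (hq : Gauss92One V A w X l q) (𝒰 : Ultrafilter ℕ) (hU : (𝒰 : Filter ℕ) ≤ l) :
    Gauss92Diag V (lmT 𝒰 A w X) q := by
  intro f hf k
  unfold lmT
  refine lm_U_eq 𝒰 (((hq f hf k).mono_left hU).congr fun n => ?_)
  rw [gauss92_M_replicate]

/-- **all mixed moments converge** (limit named by any ultrafilter finer than `l`) -/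
theorem gauss92_tendsto_T (H : LmOk V A w X) {l : Filter ℕ} (hl : l ≤ atTop) {q : τ → ℝ} (hq : Gauss92One V A w X l q)
    (𝒰₀ : Ultrafilter ℕ) (h0 : (𝒰₀ : Filter ℕ) ≤ l) {s : Multiset τ} (hs : ∀ g ∈ s, g ∈ V) :
    Tendsto (fun n => lmM (A n) (w n) (X n) s) l (𝓝 (lmT 𝒰₀ A w X s)) := by
  rw [tendsto_iff_ultrafilter]
  intro 𝒰 hU
  have h1 := lm_T_tendsto 𝒰 H (hU.trans hl) hs
  have h2 : lmT 𝒰 A w X s = lmT 𝒰₀ A w X s :=
    gauss92_eq_of_diag (lm_T_mul 𝒰 H (hU.trans hl)) (lm_T_mul 𝒰₀ H (h0.trans hl))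
      (fun f hf k => by rw [gauss92_T_diag hq 𝒰 hU f hf k, gauss92_T_diag hq 𝒰₀ h0 f hf k]) hs
  rwa [h2] at h1

/-- **POLARISATION, convergence form**: one-test Wick moments along `l` ⟹ every mixed moment converges along `l` to the
pairing sum of the polarised covariance. -/
theorem gauss92_tendsto (H : LmOk V A w X) {l : Filter ℕ} (hl : l ≤ atTop) {q : τ → ℝ} (hq : Gauss92One V A w X l q)
    {k : ℕ} (v : Fin k → τ) (hv : ∀ i, v i ∈ V) :
    Tendsto (fun n => lmE (A n) (w n) fun h => ∏ i, X n (v i) h) l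
      (𝓝 (sv149_wick fun a b => (q (v a + v b) - q (v a) - q (v b)) / 2)) := by
  rw [tendsto_iff_ultrafilter]
  intro 𝒰 hU
  have h1 := lm_T_tendsto 𝒰 H (hU.trans hl) (gauss92_mem_fin hv)
  rw [gauss92_wick_of (lm_T_mul 𝒰 H (hU.trans hl)) (gauss92_T_diag hq 𝒰 hU) v hv] at h1
  exact h1.congr fun n => gauss92_M_fin _ _ _ v

/-- the covariance converges -/
theorem gauss92_tendsto_two (H : LmOk V A w X) {l : Filter ℕ} (hl : l ≤ atTop) {q : τ → ℝ} (hq : Gauss92One V A w X l q)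
    {g h : τ} (hg : g ∈ V) (hh : h ∈ V) :
    Tendsto (fun n => lmE (A n) (w n) fun a => X n g a * X n h a) l (𝓝 ((q (g + h) - q g - q h) / 2)) := by
  rw [tendsto_iff_ultrafilter]
  intro 𝒰 hU
  have h1 := lm_T_tendsto 𝒰 H (hU.trans hl) (lm_mem_cons hg (gauss92_mem_one hh))
  rw [gauss92_B_eq (lm_T_mul 𝒰 H (hU.trans hl)) (gauss92_T_diag hq 𝒰 hU) hh hg, add_comm h g] at h1
  have h2 : (q (g + h) - q h - q g) / 2 = (q (g + h) - q g - q h) / 2 := by ring
  rw [h2] at h1
  exact h1.congr fun n => gauss92_M_two _ _ _ g h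

/-- linearity of the observable on finite combinations -/
theorem gauss92_X_sum (H : LmOk V A w X) (n : ℕ) {ι : Type} (S : Finset ι) (c : ι → ℝ) (f : ι → τ) (hf : ∀ i ∈ S, f i ∈ V) :
    ∀ h ∈ A n, X n (∑ i ∈ S, c i • f i) h = ∑ i ∈ S, c i * X n (f i) h := by
  classical
  intro h hh
  induction S using Finset.induction_on with
  | empty =>
    have := H.smul n 0 0 V.zero_mem h hh
    simpa using this
  | insert i S hi ih =>
    have hfS : ∀ j ∈ S, f j ∈ V := fun j hj => hf j (Finset.mem_insert_of_mem hj)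
    have hfi : f i ∈ V := hf i (Finset.mem_insert_self _ _)
    rw [Finset.sum_insert hi, Finset.sum_insert hi,
      H.add n _ _ (V.smul_mem _ hfi) (V.sum_mem fun j hj => V.smul_mem _ (hfS j hj)) h hh, H.smul n _ _ hfi h hh, ih hfS]

end sys

/-! ## 6. Finite weighted laws in a measurable space -/

section law

variable {α E : Type} [MeasurableSpace E]

/-- the law of `Y` under the finite weights `w` on `s` -/
noncomputable def gauss92Law (s : Finset α) (w : α → ℝ) (Y : α → E) : Measure E :=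
  ∑ a ∈ s, ENNReal.ofReal (w a / ∑ b ∈ s, w b) • Measure.dirac (Y a)

theorem gauss92_law_def (s : Finset α) (w : α → ℝ) (Y : α → E) :
    gauss92Law s w Y = ∑ a ∈ s, ENNReal.ofReal (w a / ∑ b ∈ s, w b) • Measure.dirac (Y a) := rfl

theorem gauss92_law_real (s : Finset α) (w Y : α → ℝ) : tmmLaw s w Y = gauss92Law s w Y := rfl

theorem gauss92_law_prob (s : Finset α) (w : α → ℝ) (Y : α → E) (hw : ∀ a ∈ s, 0 ≤ w a) (hZ : 0 < ∑ b ∈ s, w b) :
    IsProbabilityMeasure (gauss92Law s w Y) := by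
  constructor
  rw [gauss92_law_def, Measure.finsetSum_apply]
  simp only [Measure.smul_apply, measure_univ, smul_eq_mul, mul_one]
  rw [← ENNReal.ofReal_sum_of_nonneg fun a ha => div_nonneg (hw a ha) hZ.le, ← Finset.sum_div, div_self hZ.ne',
    ENNReal.ofReal_one]

theorem gauss92_law_integral [MeasurableSingletonClass E] {F : Type} [NormedAddCommGroup F] [NormedSpace ℝ F]
    [CompleteSpace F] (s : Finset α) (w : α → ℝ) (Y : α → E) (hw : ∀ a ∈ s, 0 ≤ w a) (hZ : 0 < ∑ b ∈ s, w b) (g : E → F) :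
    ∫ x, g x ∂gauss92Law s w Y = ∑ a ∈ s, (w a / ∑ b ∈ s, w b) • g (Y a) := by
  rw [gauss92_law_def,
    integral_finsetSum_measure fun a _ => (integrable_dirac (by simp)).smul_measure ENNReal.ofReal_ne_top]
  refine Finset.sum_congr rfl fun a ha => ?_
  rw [integral_smul_measure, integral_dirac, ENNReal.toReal_ofReal (div_nonneg (hw a ha) hZ.le)]

theorem gauss92_law_E [MeasurableSingletonClass E] (s : Finset α) (w : α → ℝ) (Y : α → E) (hw : ∀ a ∈ s, 0 ≤ w a)
    (hZ : 0 < ∑ b ∈ s, w b) (g : E → ℝ) : ∫ x, g x ∂gauss92Law s w Y = lmE s w fun a => g (Y a) := by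
  rw [gauss92_law_integral s w Y hw hZ g]
  unfold lmE
  rw [Finset.sum_div]
  refine Finset.sum_congr rfl fun a _ => ?_
  rw [smul_eq_mul]
  ring

end law

/-- Cramér-Wold at one mesh: the characteristic function of the vector at `t` is that of the pairing at `1` -/
theorem gauss92_charFun {α : Type} {m : ℕ} (s : Finset α) (w : α → ℝ) (Y : α → EuclideanSpace ℝ (Fin m)) (Z : α → ℝ)
    (hw : ∀ a ∈ s, 0 ≤ w a) (hZ : 0 < ∑ b ∈ s, w b) (t : EuclideanSpace ℝ (Fin m)) (h : ∀ a ∈ s, Z a = ∑ i, t i * Y a i) :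
    charFun (gauss92Law s w Y) t = charFun (tmmLaw s w Z) 1 := by
  rw [gauss92_law_real, charFun_apply, charFun_apply_real, gauss92_law_integral s w Y hw hZ,
    gauss92_law_integral s w Z hw hZ]
  refine Finset.sum_congr rfl fun a ha => ?_
  rw [h a ha]
  congr 3
  simp [PiLp.inner_apply]

/-! ## 7. The joint law -/

section joint

variable {Ω : ℕ → Type} {τ : Type} [AddCommGroup τ] [Module ℝ τ] {V : Submodule ℝ τ} {A : ∀ n, Finset (Ω n)}
  {w : ∀ n, Ω n → ℝ} {X : ∀ n, τ → Ω n → ℝ}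

/-- the vector of the observables -/
noncomputable def gauss92Vec {Ω' : Type} {m : ℕ} (X' : τ → Ω' → ℝ) (f : Fin m → τ) (h : Ω') : EuclideanSpace ℝ (Fin m) :=
  WithLp.toLp 2 fun i => X' (f i) h

theorem gauss92_vec_apply {Ω' : Type} {m : ℕ} (X' : τ → Ω' → ℝ) (f : Fin m → τ) (h : Ω') (i : Fin m) :
    gauss92Vec X' f h i = X' (f i) h := rfl

/-- the polarised covariance matrix -/
noncomputable def gauss92S {m : ℕ} (q : τ → ℝ) (f : Fin m → τ) : Matrix (Fin m) (Fin m) ℝ :=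
  Matrix.of fun i j => (q (f i + f j) - q (f i) - q (f j)) / 2

theorem gauss92_S_apply {m : ℕ} (q : τ → ℝ) (f : Fin m → τ) (i j : Fin m) :
    gauss92S q f i j = (q (f i + f j) - q (f i) - q (f j)) / 2 := rfl

/-- sequence form of Cramér-Wold + method of moments -/
theorem gauss92_joint_seq (H : LmOk V A w X) (u : ℕ → ℕ) {m : ℕ} (f : Fin m → τ) (hf : ∀ i, f i ∈ V)
    (S : Matrix (Fin m) (Fin m) ℝ) (hS : S.PosSemidef)
    (hmom : ∀ (c : Fin m → ℝ) (k : ℕ), Tendsto (fun j => lmE (A (u j)) (w (u j)) fun h => X (u j) (∑ i, c i • f i) h ^ k)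
      atTop (𝓝 (tmmWick (c ⬝ᵥ S.mulVec c) k)))
    (G : BoundedContinuousFunction (EuclideanSpace ℝ (Fin m)) ℝ) :
    Tendsto (fun j => lmE (A (u j)) (w (u j)) fun h => G (gauss92Vec (X (u j)) f h)) atTop
      (𝓝 (∫ x, G x ∂multivariateGaussian 0 S)) := by
  have hP : ∀ j, IsProbabilityMeasure (gauss92Law (A (u j)) (w (u j)) (gauss92Vec (X (u j)) f)) :=
    fun j => gauss92_law_prob _ _ _ (H.wnn _) (H.Zpos _)
  obtain ⟨ν, hν⟩ : ∃ ν : ℕ → ProbabilityMeasure (EuclideanSpace ℝ (Fin m)),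
      ∀ j, (ν j : Measure (EuclideanSpace ℝ (Fin m))) = gauss92Law (A (u j)) (w (u j)) (gauss92Vec (X (u j)) f) :=
    ⟨fun j => ⟨_, hP j⟩, fun _ => rfl⟩
  obtain ⟨ν₀, hν₀⟩ : ∃ ν₀ : ProbabilityMeasure (EuclideanSpace ℝ (Fin m)),
      (ν₀ : Measure (EuclideanSpace ℝ (Fin m))) = multivariateGaussian 0 S := ⟨⟨multivariateGaussian 0 S, inferInstance⟩, rfl⟩
  have h : Tendsto ν atTop (𝓝 ν₀) := by
    refine ProbabilityMeasure.tendsto_iff_tendsto_charFun.2 fun t => ?_
    have : ∀ j, IsProbabilityMeasure (tmmLaw (A (u j)) (w (u j)) (X (u j) (∑ i, t i • f i))) :=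
      fun j => tmm_law_prob _ _ _ (H.wnn _) (H.Zpos _)
    have h1 := tmm_charFun_tendsto (fun j => tmmLaw (A (u j)) (w (u j)) (X (u j) (∑ i, t i • f i)))
      (fun j k => tmm_law_integrable _ _ _ _) (t.ofLp ⬝ᵥ S.mulVec t.ofLp)
      (fun k => (hmom t.ofLp k).congr fun j => by
        rw [tmm_law_integral _ _ _ (H.wnn _) (H.Zpos _)]
        rfl) 1
    simp only [hν, hν₀, charFun_multivariateGaussian hS]
    have e : Complex.exp (((inner ℝ t (0 : EuclideanSpace ℝ (Fin m)) : ℝ) : ℂ) * Complex.I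
        - ((t.ofLp ⬝ᵥ S.mulVec t.ofLp : ℝ) : ℂ) / 2)
        = Complex.exp ((-(t.ofLp ⬝ᵥ S.mulVec t.ofLp * 1 ^ 2 / 2) : ℝ) : ℂ) := by
      congr 1
      rw [inner_zero_right]
      push_cast
      ring
    rw [e]
    refine h1.congr fun j => ?_
    refine (gauss92_charFun _ _ _ _ (H.wnn _) (H.Zpos _) t fun a ha => ?_).symm
    rw [gauss92_X_sum H (u j) Finset.univ _ f (fun i _ => hf i) a ha]
    rfl
  have h2 := ProbabilityMeasure.tendsto_iff_forall_integral_tendsto.1 h G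
  simp only [hν, hν₀] at h2
  refine h2.congr fun j => ?_
  rw [gauss92_law_E _ _ _ (H.wnn _) (H.Zpos _)]

theorem gauss92_q_nonneg (H : LmOk V A w X) {l : Filter ℕ} [l.NeBot] {q : τ → ℝ} (hq : Gauss92One V A w X l q) {g : τ}
    (hg : g ∈ V) : 0 ≤ q g := by
  have h2 := hq g hg 2
  have e : tmmWick (q g) 2 = q g := by
    rw [tmm_wick_succ, tmm_wick_zero]
    simp
  rw [e] at h2
  exact ge_of_tendsto' h2 fun n => lm_E_nonneg (H.wnn n) fun a _ => sq_nonneg _

theorem gauss92_S_quad {T : Multiset τ → ℝ} {q : τ → ℝ} (HT : LmMul V T) (hD : Gauss92Diag V T q) {m : ℕ} (f : Fin m → τ)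
    (hf : ∀ i, f i ∈ V) (c : Fin m → ℝ) : c ⬝ᵥ (gauss92S q f).mulVec c = q (∑ i, c i • f i) := by
  rw [gauss92_q_sum HT hD f hf c]
  show ∑ i, c i * ∑ j, gauss92S q f i j * c j = _
  refine Finset.sum_congr rfl fun i _ => ?_
  rw [Finset.mul_sum]
  refine Finset.sum_congr rfl fun j _ => ?_
  rw [gauss92_S_apply, gauss92_B_eq HT hD (hf j) (hf i), add_comm (f j) (f i)]
  ring

theorem gauss92_S_psd (H : LmOk V A w X) {l : Filter ℕ} [l.NeBot] (hl : l ≤ atTop) {q : τ → ℝ}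
    (hq : Gauss92One V A w X l q) {m : ℕ} (f : Fin m → τ) (hf : ∀ i, f i ∈ V) : (gauss92S q f).PosSemidef := by
  have h0 : ((Ultrafilter.of l : Ultrafilter ℕ) : Filter ℕ) ≤ l := Ultrafilter.of_le l
  refine Matrix.PosSemidef.of_dotProduct_mulVec_nonneg ?_ fun x => ?_
  · ext i j
    rw [Matrix.conjTranspose_apply, gauss92_S_apply, gauss92_S_apply, add_comm (f j) (f i)]
    simp only [star_trivial]
    ring
  · rw [star_trivial, gauss92_S_quad (lm_T_mul _ H (h0.trans hl)) (gauss92_T_diag hq _ h0) f hf x]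
    exact gauss92_q_nonneg H hq (V.sum_mem fun i _ => V.smul_mem _ (hf i))

/-- **JOINT LAW** (Cramér-Wold + method of moments, along ANY filter `l ≤ atTop`): if the one-test moments converge along `l`
to the moments of `N(0, q f)` for every test of `V`, then for every finite family of tests the vector of the observables
converges in law along `l` to the centred Gaussian vector with the polarised covariance. -/
theorem gauss92_joint (H : LmOk V A w X) {l : Filter ℕ} (hl : l ≤ atTop) {q : τ → ℝ} (hq : Gauss92One V A w X l q)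
    {m : ℕ} (f : Fin m → τ) (hf : ∀ i, f i ∈ V) (G : BoundedContinuousFunction (EuclideanSpace ℝ (Fin m)) ℝ) :
    Tendsto (fun n => lmE (A n) (w n) fun h => G (gauss92Vec (X n) f h)) l
      (𝓝 (∫ x, G x ∂multivariateGaussian 0 (gauss92S q f))) := by
  rcases l.eq_or_neBot with rfl | hne
  · exact tendsto_bot
  obtain ⟨𝒰₀, h0⟩ : ∃ 𝒰₀ : Ultrafilter ℕ, (𝒰₀ : Filter ℕ) ≤ l := ⟨Ultrafilter.of l, Ultrafilter.of_le l⟩
  have HT₀ : LmMul V (lmT 𝒰₀ A w X) := lm_T_mul 𝒰₀ H (h0.trans hl)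
  have hD₀ : Gauss92Diag V (lmT 𝒰₀ A w X) q := gauss92_T_diag hq 𝒰₀ h0
  have hmem : ∀ κ : Multiset (Fin m), ∀ g ∈ κ.map f, g ∈ V := by
    intro κ g hg
    obtain ⟨i, _, rfl⟩ := Multiset.mem_map.1 hg
    exact hf i
  -- a coarser countably generated filter along which the mixed moments of the family still converge
  obtain ⟨l', hl'def⟩ : ∃ l' : Filter ℕ, l' = atTop ⊓ ⨅ κ : Multiset (Fin m),
      comap (fun n => lmM (A n) (w n) (X n) (κ.map f)) (𝓝 (lmT 𝒰₀ A w X (κ.map f))) := ⟨_, rfl⟩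
  have hcg : l'.IsCountablyGenerated := by rw [hl'def]; infer_instance
  have hll' : l ≤ l' := by
    rw [hl'def]
    exact le_inf hl (le_iInf fun κ => tendsto_iff_comap.1 (gauss92_tendsto_T H hl hq 𝒰₀ h0 (hmem κ)))
  have hl' : l' ≤ atTop := by rw [hl'def]; exact inf_le_left
  have hκ : ∀ κ : Multiset (Fin m), Tendsto (fun n => lmM (A n) (w n) (X n) (κ.map f)) l' (𝓝 (lmT 𝒰₀ A w X (κ.map f))) := by
    intro κ
    rw [hl'def]
    exact tendsto_iff_comap.2 (inf_le_right.trans (iInf_le _ κ))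
  have hspan : ∀ (c : Fin m → ℝ) (k : ℕ), Tendsto (fun n => lmE (A n) (w n) fun h => X n (∑ i, c i • f i) h ^ k) l'
      (𝓝 (tmmWick (q (∑ i, c i • f i)) k)) := by
    intro c k
    have hg : ∑ i, c i • f i ∈ V := V.sum_mem fun i _ => V.smul_mem _ (hf i)
    rw [tendsto_iff_ultrafilter]
    intro 𝒰 hU
    have hUat := hU.trans hl'
    have h1 := lm_T_tendsto 𝒰 H hUat (s := Multiset.replicate k (∑ i, c i • f i))
      (fun x hx => by rw [Multiset.eq_of_mem_replicate hx]; exact hg)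
    have h2 : lmT 𝒰 A w X (Multiset.replicate k (∑ i, c i • f i)) = lmT 𝒰₀ A w X (Multiset.replicate k (∑ i, c i • f i)) :=
      gauss92_eq_of_family_diag (lm_T_mul 𝒰 H hUat) HT₀ f hf (fun κ => lm_U_eq 𝒰 ((hκ κ).mono_left hU)) c k
    rw [h2, hD₀ _ hg k] at h1
    exact h1.congr fun n => gauss92_M_replicate _ _ _ _ k
  refine Tendsto.mono_left ?_ hll'
  refine tendsto_of_seq_tendsto fun u hu => ?_
  exact gauss92_joint_seq H u f hf (gauss92S q f) (gauss92_S_psd H hl hq f hf)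
    (fun c k => by rw [gauss92_S_quad HT₀ hD₀ f hf c]; exact (hspan c k).comp hu) G

end joint

/-! ## 8. The joint law WITHOUT a moment system: only the moments of the linear combinations, along any filter on any index type -/

section vec

theorem gauss92_wick_continuous : ∀ k : ℕ, Continuous fun v : ℝ => tmmWick v k
  | 0 => by simp only [tmm_wick_zero]; exact continuous_const
  | 1 => by simp only [tmm_wick_one]; exact continuous_const
  | k + 2 => by
    simp only [tmm_wick_succ]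
    exact (continuous_const.mul continuous_id).mul (gauss92_wick_continuous k)

theorem gauss92_quad_continuous {m : ℕ} (S : Matrix (Fin m) (Fin m) ℝ) : Continuous fun c : Fin m → ℝ => c ⬝ᵥ S.mulVec c :=
  Continuous.dotProduct continuous_id (Continuous.matrix_mulVec continuous_const continuous_id)

theorem gauss92_sum_single {m : ℕ} (c : Fin m → ℝ) : ∑ i, c i • (Pi.single i 1 : Fin m → ℝ) = c := by
  ext j
  simp [Finset.sum_apply, Pi.single_apply]

/-- the diagonal of a symmetric multilinear functional on `ℝ^m` is continuous -/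
theorem gauss92_diag_continuous {m : ℕ} {T : Multiset (Fin m → ℝ) → ℝ} (H : LmMul ⊤ T) :
    ∀ (k : ℕ) (s : Multiset (Fin m → ℝ)), Continuous fun c : Fin m → ℝ => T (Multiset.replicate k c + s)
  | 0, s => by simp only [Multiset.replicate_zero, zero_add]; exact continuous_const
  | k + 1, s => by
    have e : ∀ c : Fin m → ℝ, T (Multiset.replicate (k + 1) c + s)
        = ∑ i, c i * T (Multiset.replicate k c + ((Pi.single i 1 : Fin m → ℝ) ::ₘ s)) := by
      intro c
      have h := lm_mul_sum H Finset.univ c (fun i => (Pi.single i 1 : Fin m → ℝ)) (fun _ _ => Submodule.mem_top)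
        (s := Multiset.replicate k c + s) (fun _ _ => Submodule.mem_top)
      rw [gauss92_sum_single] at h
      rw [Multiset.replicate_succ, Multiset.cons_add, h]
      refine Finset.sum_congr rfl fun i _ => ?_
      rw [Multiset.add_cons]
    simp only [e]
    exact continuous_finsetSum _ fun i _ => (continuous_apply i).mul (gauss92_diag_continuous H k _)

/-- Lévy + method of moments for finite weighted laws of vectors (sequences) -/
theorem gauss92_levy {Ω : ℕ → Type} {A : ∀ n, Finset (Ω n)} {w : ∀ n, Ω n → ℝ} (hw : ∀ n, ∀ a ∈ A n, 0 ≤ w n a)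
    (hZ : ∀ n, 0 < ∑ a ∈ A n, w n a) {m : ℕ} (Y : ∀ n, Fin m → Ω n → ℝ) (S : Matrix (Fin m) (Fin m) ℝ) (hS : S.PosSemidef)
    (hmom : ∀ (c : Fin m → ℝ) (k : ℕ), Tendsto (fun n => lmE (A n) (w n) fun h => (∑ i, c i * Y n i h) ^ k) atTop
      (𝓝 (tmmWick (c ⬝ᵥ S.mulVec c) k)))
    (G : BoundedContinuousFunction (EuclideanSpace ℝ (Fin m)) ℝ) :
    Tendsto (fun n => lmE (A n) (w n) fun h => G (WithLp.toLp 2 fun i => Y n i h)) atTop
      (𝓝 (∫ x, G x ∂multivariateGaussian 0 S)) := by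
  have hP : ∀ n, IsProbabilityMeasure (gauss92Law (A n) (w n)
      (fun h => (WithLp.toLp 2 fun i => Y n i h : EuclideanSpace ℝ (Fin m)))) :=
    fun n => gauss92_law_prob _ _ _ (hw n) (hZ n)
  obtain ⟨ν, hν⟩ : ∃ ν : ℕ → ProbabilityMeasure (EuclideanSpace ℝ (Fin m)),
      ∀ n, (ν n : Measure (EuclideanSpace ℝ (Fin m))) = gauss92Law (A n) (w n)
        (fun h => (WithLp.toLp 2 fun i => Y n i h : EuclideanSpace ℝ (Fin m))) :=
    ⟨fun n => ⟨_, hP n⟩, fun _ => rfl⟩
  obtain ⟨ν₀, hν₀⟩ : ∃ ν₀ : ProbabilityMeasure (EuclideanSpace ℝ (Fin m)),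
      (ν₀ : Measure (EuclideanSpace ℝ (Fin m))) = multivariateGaussian 0 S := ⟨⟨multivariateGaussian 0 S, inferInstance⟩, rfl⟩
  have h : Tendsto ν atTop (𝓝 ν₀) := by
    refine ProbabilityMeasure.tendsto_iff_tendsto_charFun.2 fun t => ?_
    have : ∀ n, IsProbabilityMeasure (tmmLaw (A n) (w n) (fun h => ∑ i, t i * Y n i h)) :=
      fun n => tmm_law_prob _ _ _ (hw n) (hZ n)
    have h1 := tmm_charFun_tendsto (fun n => tmmLaw (A n) (w n) (fun h => ∑ i, t i * Y n i h))
      (fun n k => tmm_law_integrable _ _ _ _) (t.ofLp ⬝ᵥ S.mulVec t.ofLp)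
      (fun k => (hmom t.ofLp k).congr fun n => by
        rw [tmm_law_integral _ _ _ (hw n) (hZ n)]
        rfl) 1
    simp only [hν, hν₀, charFun_multivariateGaussian hS]
    have e : Complex.exp (((inner ℝ t (0 : EuclideanSpace ℝ (Fin m)) : ℝ) : ℂ) * Complex.I
        - ((t.ofLp ⬝ᵥ S.mulVec t.ofLp : ℝ) : ℂ) / 2)
        = Complex.exp ((-(t.ofLp ⬝ᵥ S.mulVec t.ofLp * 1 ^ 2 / 2) : ℝ) : ℂ) := by
      congr 1
      rw [inner_zero_right]
      push_cast
      ring
    rw [e]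
    refine h1.congr fun n => ?_
    exact (gauss92_charFun (A n) (w n) (fun h => (WithLp.toLp 2 fun i => Y n i h : EuclideanSpace ℝ (Fin m)))
      (fun h => ∑ i, t i * Y n i h) (hw n) (hZ n) t fun a _ => rfl).symm
  have h2 := ProbabilityMeasure.tendsto_iff_forall_integral_tendsto.1 h G
  simp only [hν, hν₀] at h2
  refine h2.congr fun n => ?_
  rw [gauss92_law_E _ _ _ (hw n) (hZ n)]

/-- the moment system of the linear combinations of a vector -/
theorem gauss92_vec_ok {Ω : ℕ → Type} {A : ∀ n, Finset (Ω n)} {w : ∀ n, Ω n → ℝ} (hw : ∀ n, ∀ a ∈ A n, 0 ≤ w n a)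
    (hZ : ∀ n, 0 < ∑ a ∈ A n, w n a) {m : ℕ} (Y : ∀ n, Fin m → Ω n → ℝ)
    (hb : ∀ (i : Fin m) (p : ℕ), ∃ L : ℝ, Tendsto (fun n => lmE (A n) (w n) fun h => Y n i h ^ p) atTop (𝓝 L)) :
    LmOk (⊤ : Submodule ℝ (Fin m → ℝ)) A w (fun n c h => ∑ i, c i * Y n i h) where
  wnn := hw
  Zpos := hZ
  add n g g' _ _ h _ := by
    simp only [Pi.add_apply, add_mul, Finset.sum_add_distrib]
  smul n c g _ h _ := by
    simp only [Pi.smul_apply, smul_eq_mul, mul_assoc, Finset.mul_sum]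
  bdd c _ p hp := by
    rcases Nat.eq_zero_or_pos p with rfl | hp0
    · refine ⟨1, Eventually.of_forall fun n => ?_⟩
      simp only [pow_zero]
      rw [lm_E_const (hZ n)]
    · choose L hL using fun i => hb i p
      have hB : Tendsto (fun n => ((Finset.univ : Finset (Fin m)).card : ℝ) ^ p
          * ∑ i, c i ^ p * lmE (A n) (w n) fun h => Y n i h ^ p) atTop
          (𝓝 (((Finset.univ : Finset (Fin m)).card : ℝ) ^ p * ∑ i, c i ^ p * L i)) :=
        (tendsto_finsetSum _ fun i _ => (hL i).const_mul _).const_mul _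
      refine ⟨_, (hB.eventually (ge_mem_nhds (lt_add_one _))).mono fun n hn => le_trans ?_ hn⟩
      calc lmE (A n) (w n) (fun h => (∑ i, c i * Y n i h) ^ p)
          ≤ lmE (A n) (w n) (fun h => ((Finset.univ : Finset (Fin m)).card : ℝ) ^ p * ∑ i, c i ^ p * Y n i h ^ p) := by
            refine lm_E_mono (hw n) fun a _ => ?_
            have := lm_pow_sum_le Finset.univ (fun i => c i * Y n i a) hp hp0.ne'
            simpa only [mul_pow] using this
        _ = _ := by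
            rw [lm_E_mul_left, lm_E_sum]
            congr 1
            refine Finset.sum_congr rfl fun i _ => ?_
            rw [lm_E_mul_left]

theorem gauss92_rat_single {m : ℕ} (i : Fin m) (y : Fin m → ℝ) :
    ∑ k, (((Pi.single i 1 : Fin m → ℚ) k : ℚ) : ℝ) * y k = y i := by
  simp [Pi.single_apply, apply_ite]

/-- sequence form: RATIONAL combinations are enough -/
theorem gauss92_vec_seq {Ω : ℕ → Type} {A : ∀ n, Finset (Ω n)} {w : ∀ n, Ω n → ℝ} (hw : ∀ n, ∀ a ∈ A n, 0 ≤ w n a)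
    (hZ : ∀ n, 0 < ∑ a ∈ A n, w n a) {m : ℕ} (Y : ∀ n, Fin m → Ω n → ℝ) (S : Matrix (Fin m) (Fin m) ℝ) (hS : S.PosSemidef)
    (hrat : ∀ (r : Fin m → ℚ) (k : ℕ), Tendsto (fun n => lmE (A n) (w n) fun h => (∑ i, ((r i : ℚ) : ℝ) * Y n i h) ^ k) atTop
      (𝓝 (tmmWick ((fun i => ((r i : ℚ) : ℝ)) ⬝ᵥ S.mulVec fun i => ((r i : ℚ) : ℝ)) k)))
    (G : BoundedContinuousFunction (EuclideanSpace ℝ (Fin m)) ℝ) :
    Tendsto (fun n => lmE (A n) (w n) fun h => G (WithLp.toLp 2 fun i => Y n i h)) atTop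
      (𝓝 (∫ x, G x ∂multivariateGaussian 0 S)) := by
  have H := gauss92_vec_ok hw hZ Y fun i p => ⟨_, (hrat (Pi.single i 1) p).congr fun n => by
    simp only [gauss92_rat_single]⟩
  refine gauss92_levy hw hZ Y S hS (fun c k => ?_) G
  rw [tendsto_iff_ultrafilter]
  intro 𝒰 hU
  have HT := lm_T_mul 𝒰 H hU
  have hdense : DenseRange fun r : Fin m → ℚ => fun i => ((r i : ℚ) : ℝ) :=
    DenseRange.piMap fun _ => Rat.denseRange_cast
  have hc1 : Continuous fun c : Fin m → ℝ => lmT 𝒰 A w (fun n c h => ∑ i, c i * Y n i h) (Multiset.replicate k c) := by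
    have := gauss92_diag_continuous HT k 0
    simpa only [add_zero] using this
  have hc2 : Continuous fun c : Fin m → ℝ => tmmWick (c ⬝ᵥ S.mulVec c) k :=
    (gauss92_wick_continuous k).comp (gauss92_quad_continuous S)
  have hd := DenseRange.equalizer hdense hc1 hc2 (funext fun r =>
    lm_U_eq 𝒰 (((hrat r k).mono_left hU).congr fun n => (gauss92_M_replicate _ _ _ _ k).symm))
  have h1 := lm_T_tendsto 𝒰 H hU (s := Multiset.replicate k c) (fun _ _ => Submodule.mem_top)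
  rw [congrFun hd c] at h1
  exact h1.congr fun n => gauss92_M_replicate _ _ _ _ k

/-- **JOINT LAW, vector form**: weights `≥ 0`, `Z > 0`, and the moments of every linear combination `Σ c_i Y_i` converge along `l`
(ANY filter on ANY index type) to the Wick numbers of `c ⬝ᵥ S c`, `S` symmetric.  Then `(Y_i)_i` converges in law along `l` to `N(0, S)`. -/
theorem gauss92_joint_vec {ι : Type} {Ω : ι → Type} {A : ∀ n, Finset (Ω n)} {w : ∀ n, Ω n → ℝ}
    (hw : ∀ n, ∀ a ∈ A n, 0 ≤ w n a) (hZ : ∀ n, 0 < ∑ a ∈ A n, w n a) {m : ℕ} (Y : ∀ n, Fin m → Ω n → ℝ) (l : Filter ι)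
    (S : Matrix (Fin m) (Fin m) ℝ) (hS : S.IsHermitian)
    (hmom : ∀ (c : Fin m → ℝ) (k : ℕ), Tendsto (fun n => lmE (A n) (w n) fun h => (∑ i, c i * Y n i h) ^ k) l
      (𝓝 (tmmWick (c ⬝ᵥ S.mulVec c) k)))
    (G : BoundedContinuousFunction (EuclideanSpace ℝ (Fin m)) ℝ) :
    Tendsto (fun n => lmE (A n) (w n) fun h => G (WithLp.toLp 2 fun i => Y n i h)) l
      (𝓝 (∫ x, G x ∂multivariateGaussian 0 S)) := by
  rcases l.eq_or_neBot with rfl | hne
  · exact tendsto_bot
  have hpsd : S.PosSemidef := by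
    refine Matrix.PosSemidef.of_dotProduct_mulVec_nonneg hS fun x => ?_
    rw [star_trivial]
    have h2 := hmom x 2
    have e : tmmWick (x ⬝ᵥ S.mulVec x) 2 = x ⬝ᵥ S.mulVec x := by
      rw [tmm_wick_succ, tmm_wick_zero]
      simp
    rw [e] at h2
    exact ge_of_tendsto' h2 fun n => lm_E_nonneg (hw n) fun a _ => sq_nonneg _
  obtain ⟨l', hl'def⟩ : ∃ l' : Filter ι, l' = ⨅ p : (Fin m → ℚ) × ℕ,
      comap (fun n => lmE (A n) (w n) fun h => (∑ i, ((p.1 i : ℚ) : ℝ) * Y n i h) ^ p.2)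
        (𝓝 (tmmWick ((fun i => ((p.1 i : ℚ) : ℝ)) ⬝ᵥ S.mulVec fun i => ((p.1 i : ℚ) : ℝ)) p.2)) := ⟨_, rfl⟩
  have hcg : l'.IsCountablyGenerated := by rw [hl'def]; infer_instance
  have hll' : l ≤ l' := by
    rw [hl'def]
    exact le_iInf fun p => tendsto_iff_comap.1 (hmom _ p.2)
  have hrat : ∀ (r : Fin m → ℚ) (k : ℕ), Tendsto (fun n => lmE (A n) (w n) fun h => (∑ i, ((r i : ℚ) : ℝ) * Y n i h) ^ k) l'
      (𝓝 (tmmWick ((fun i => ((r i : ℚ) : ℝ)) ⬝ᵥ S.mulVec fun i => ((r i : ℚ) : ℝ)) k)) := by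
    intro r k
    rw [hl'def]
    exact tendsto_iff_comap.2 (iInf_le _ ((r, k) : (Fin m → ℚ) × ℕ))
  refine Tendsto.mono_left ?_ hll'
  refine tendsto_of_seq_tendsto fun u hu => ?_
  exact gauss92_vec_seq (fun j => hw (u j)) (fun j => hZ (u j)) (fun j => Y (u j)) S hpsd (fun r k => (hrat r k).comp hu) G

end vec

/-! ## 9. Adapters for the frozen Ashkin-Teller law (vocabulary of `Api`, `Defs/Top`, `Defs/GAUSS`) -/

section atl

open Claims Claims.C0468

/-- a classical Dirichlet pair of the frozen statement: test `φ`, potential `u` -/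
structure Gauss92Sol (D : Set (ℝ × ℝ)) (φ u : ℝ × ℝ → ℝ) : Prop where
  smooth : ContDiff ℝ ((⊤ : ℕ∞) : WithTop ℕ∞) φ
  comp : HasCompactSupport φ
  sub : tsupport φ ⊆ D
  u2 : ContDiffOn ℝ 2 u D
  uc : ContinuousOn u (closure D)
  u0 : ∀ z ∈ frontier D, u z = 0
  eq : ∀ z ∈ D, -C0468.lap2 u z = φ z

variable {D : Set (ℝ × ℝ)}

theorem gauss92_sol_test {φ u : ℝ × ℝ → ℝ} (h : Gauss92Sol D φ u) : WkTest D φ := ⟨h.smooth.continuous, h.comp, h.sub⟩

theorem gauss92_sol_zero (D : Set (ℝ × ℝ)) : Gauss92Sol D (fun _ => 0) (fun _ => 0) where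
  smooth := contDiff_const
  comp := (lm_mem_V.1 (lmV D).zero_mem).comp
  sub := (lm_mem_V.1 (lmV D).zero_mem).sub
  u2 := contDiffOn_const
  uc := continuousOn_const
  u0 _ _ := rfl
  eq z _ := by
    show -C0467.lap2 (fun _ => (0 : ℝ)) z = 0
    rw [wkg_lap_zero]
    simp

theorem gauss92_sol_add (hD : IsOpen D) {φ u φ' u' : ℝ × ℝ → ℝ} (h : Gauss92Sol D φ u) (h' : Gauss92Sol D φ' u') :
    Gauss92Sol D (fun z => φ z + φ' z) (fun z => u z + u' z) where
  smooth := h.smooth.add h'.smooth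
  comp := ((gauss92_sol_test h).add' (gauss92_sol_test h')).comp
  sub := ((gauss92_sol_test h).add' (gauss92_sol_test h')).sub
  u2 := h.u2.add h'.u2
  uc := h.uc.add h'.uc
  u0 z hz := by rw [h.u0 z hz, h'.u0 z hz, add_zero]
  eq z hz := by
    show -C0467.lap2 (fun z => u z + u' z) z = _
    rw [wkg_lap_add (h.u2.contDiffAt (hD.mem_nhds hz)) (h'.u2.contDiffAt (hD.mem_nhds hz)), ← h.eq z hz, ← h'.eq z hz]
    show _ = -C0467.lap2 u z + -C0467.lap2 u' z
    ring

theorem gauss92_sol_smul (c : ℝ) {φ u : ℝ × ℝ → ℝ} (h : Gauss92Sol D φ u) :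
    Gauss92Sol D (fun z => c * φ z) (fun z => c * u z) where
  smooth := contDiff_const.mul h.smooth
  comp := ((gauss92_sol_test h).smul' c).comp
  sub := ((gauss92_sol_test h).smul' c).sub
  u2 := contDiffOn_const.mul h.u2
  uc := continuousOn_const.mul h.uc
  u0 z hz := by rw [h.u0 z hz, mul_zero]
  eq z hz := by
    show -C0467.lap2 (fun z => c * u z) z = _
    rw [wkg_lap_smul, ← h.eq z hz]
    show _ = c * -C0467.lap2 u z
    ring

theorem gauss92_sol_sum (hD : IsOpen D) {ι : Type} (S : Finset ι) (c : ι → ℝ) (φ u : ι → ℝ × ℝ → ℝ)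
    (h : ∀ i ∈ S, Gauss92Sol D (φ i) (u i)) :
    Gauss92Sol D (fun z => ∑ i ∈ S, c i * φ i z) (fun z => ∑ i ∈ S, c i * u i z) := by
  classical
  induction S using Finset.induction_on with
  | empty => simpa using gauss92_sol_zero D
  | insert i S hi ih =>
    simp only [Finset.sum_insert hi]
    exact gauss92_sol_add hD (gauss92_sol_smul (c i) (h i (Finset.mem_insert_self _ _)))
      (ih fun j hj => h j (Finset.mem_insert_of_mem hj))

theorem gauss92_sol_integrable (hb : Bornology.IsBounded D) {φ u φ' u' : ℝ × ℝ → ℝ} (h : Gauss92Sol D φ u)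
    (h' : Gauss92Sol D φ' u') : IntegrableOn (fun z => φ z * u' z) D :=
  ((h.smooth.continuous.continuousOn.mul h'.uc).integrableOn_compact hb.isCompact_closure).mono_set subset_closure

/-- the (symmetrised) Dirichlet covariance of a family of classical pairs -/
noncomputable def gauss92Cov {m : ℕ} (v : ℝ) (D : Set (ℝ × ℝ)) (φ u : Fin m → ℝ × ℝ → ℝ) : Matrix (Fin m) (Fin m) ℝ :=
  Matrix.of fun i j => v * ((∫ z in D, φ i z * u j z) + ∫ z in D, φ j z * u i z) / 2

theorem gauss92_cov_apply {m : ℕ} (v : ℝ) (D : Set (ℝ × ℝ)) (φ u : Fin m → ℝ × ℝ → ℝ) (i j : Fin m) :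
    gauss92Cov v D φ u i j = v * ((∫ z in D, φ i z * u j z) + ∫ z in D, φ j z * u i z) / 2 := rfl

theorem gauss92_cov_herm {m : ℕ} (v : ℝ) (D : Set (ℝ × ℝ)) (φ u : Fin m → ℝ × ℝ → ℝ) : (gauss92Cov v D φ u).IsHermitian := by
  ext i j
  rw [Matrix.conjTranspose_apply, gauss92_cov_apply, gauss92_cov_apply, star_trivial]
  ring

theorem gauss92_cov_quad (hb : Bornology.IsBounded D) {m : ℕ} (v : ℝ) (φ u : Fin m → ℝ × ℝ → ℝ)
    (hs : ∀ i, Gauss92Sol D (φ i) (u i)) (c : Fin m → ℝ) :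
    c ⬝ᵥ (gauss92Cov v D φ u).mulVec c = v * ∫ z in D, (∑ i, c i * φ i z) * ∑ i, c i * u i z := by
  have h1 : ∫ z in D, (∑ i, c i * φ i z) * ∑ i, c i * u i z = ∑ i, ∑ j, c i * c j * ∫ z in D, φ i z * u j z := by
    have e : ∀ z, (∑ i, c i * φ i z) * ∑ i, c i * u i z = ∑ i, ∑ j, c i * c j * (φ i z * u j z) := by
      intro z
      rw [Finset.sum_mul_sum]
      refine Finset.sum_congr rfl fun i _ => Finset.sum_congr rfl fun j _ => ?_
      ring
    simp only [e]
    rw [integral_finsetSum _ fun i _ => integrable_finsetSum _ fun j _ =>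
      (gauss92_sol_integrable hb (hs i) (hs j)).const_mul _]
    refine Finset.sum_congr rfl fun i _ => ?_
    rw [integral_finsetSum _ fun j _ => (gauss92_sol_integrable hb (hs i) (hs j)).const_mul _]
    refine Finset.sum_congr rfl fun j _ => ?_
    rw [integral_const_mul]
  have h2 : ∑ i, ∑ j, c i * c j * ∫ z in D, φ j z * u i z = ∑ i, ∑ j, c i * c j * ∫ z in D, φ i z * u j z := by
    rw [Finset.sum_comm]
    refine Finset.sum_congr rfl fun i _ => Finset.sum_congr rfl fun j _ => ?_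
    ring
  rw [h1]
  show ∑ i, c i * ∑ j, gauss92Cov v D φ u i j * c j = _
  have h3 : ∑ i, c i * ∑ j, gauss92Cov v D φ u i j * c j
      = v * ((∑ i, ∑ j, c i * c j * ∫ z in D, φ i z * u j z) + ∑ i, ∑ j, c i * c j * ∫ z in D, φ j z * u i z) / 2 := by
    rw [← Finset.sum_add_distrib, Finset.mul_sum, Finset.sum_div]
    refine Finset.sum_congr rfl fun i _ => ?_
    rw [← Finset.sum_add_distrib, Finset.mul_sum, Finset.mul_sum, Finset.sum_div]
    refine Finset.sum_congr rfl fun j _ => ?_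
    rw [gauss92_cov_apply]
    ring
  rw [h3, h2]
  ring

theorem gauss92_at_X_sum (δ : ℝ) {F : Finset (ℤ × ℤ)} {m : ℕ} (c : Fin m → ℝ) (φ : Fin m → ℝ × ℝ → ℝ) (p : at92Cfg F) :
    at92X δ (fun z => ∑ i, c i * φ i z) p = ∑ i, c i * at92X δ (φ i) p := by
  unfold at92X
  simp only [Finset.mul_sum]
  rw [Finset.sum_comm]
  refine Finset.sum_congr rfl fun i _ => Finset.sum_congr rfl fun x _ => ?_
  ring

theorem gauss92_at_expect (t δ : ℝ) (F : Finset (ℤ × ℤ)) (g : ℝ × ℝ → ℝ) (ψ : ℝ → ℝ) :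
    atExpect t δ F g ψ = lmE (at92Adm F) (at92W t) fun p => ψ (at92X δ g p) := by
  rw [at92_expect_eq]
  rfl

/-- **JOINT LAW OF THE SMEARED ASHKIN-TELLER HEIGHTS**, generic filter: one-test Wick moments for all classical pairs of `D` along `l`
⟹ the vector of the smeared heights of a finite family converges in law along `l` to `N(0, gauss92Cov v D φ u)`. -/
theorem gauss92_at_joint {t v : ℝ} (ht : 0 < t) (hDo : IsOpen D) (hDb : Bornology.IsBounded D) {δ : ℕ → ℝ}
    {F : ℕ → Finset (ℤ × ℤ)} {l : Filter ℕ}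
    (h : ∀ φ u : ℝ × ℝ → ℝ, Gauss92Sol D φ u → ∀ k : ℕ, Tendsto (fun n => atExpect t (δ n) (F n) φ fun s => s ^ k) l
      (𝓝 (tmmWick (v * ∫ z in D, φ z * u z) k)))
    {m : ℕ} (φ u : Fin m → ℝ × ℝ → ℝ) (hs : ∀ i, Gauss92Sol D (φ i) (u i))
    (G : BoundedContinuousFunction (EuclideanSpace ℝ (Fin m)) ℝ) :
    Tendsto (fun n => lmE (at92Adm (F n)) (at92W t) fun p => G (WithLp.toLp 2 fun i => at92X (δ n) (φ i) p)) l
      (𝓝 (∫ x, G x ∂multivariateGaussian 0 (gauss92Cov v D φ u))) := by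
  refine gauss92_joint_vec (Ω := fun n => at92Cfg (F n)) (A := fun n => at92Adm (F n)) (w := fun _ => at92W t)
    (fun _ _ _ => (pow_pos ht _).le) (fun n => at92_Z_pos ht (F n)) (fun n i p => at92X (δ n) (φ i) p) l
    (gauss92Cov v D φ u) (gauss92_cov_herm v D φ u) (fun c k => ?_) G
  rw [gauss92_cov_quad hDb v φ u hs c]
  refine (h _ _ (gauss92_sol_sum hDo Finset.univ c φ u fun i _ => hs i) k).congr fun n => ?_
  rw [gauss92_at_expect]
  refine lm_E_congr _ _ fun p _ => ?_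
  rw [gauss92_at_X_sum]

/-- from the top cut `AtFlatGFF` (full limit) -/
theorem gauss92_at_joint_flat {t v : ℝ} (ht : 0 < t) (h : AtFlatGFF t v) (hD : GaussDom D) {δ : ℕ → ℝ}
    {F : ℕ → Finset (ℤ × ℤ)} (hF : IsAdmissibleApprox D δ F) {m : ℕ} (φ u : Fin m → ℝ × ℝ → ℝ)
    (hs : ∀ i, Gauss92Sol D (φ i) (u i)) (G : BoundedContinuousFunction (EuclideanSpace ℝ (Fin m)) ℝ) :
    Tendsto (fun n => lmE (at92Adm (F n)) (at92W t) fun p => G (WithLp.toLp 2 fun i => at92X (δ n) (φ i) p)) atTop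
      (𝓝 (∫ x, G x ∂multivariateGaussian 0 (gauss92Cov v D φ u))) :=
  gauss92_at_joint ht hD.1 hD.2.1
    (fun φ u hp k => h D hD.1 hD.2.1 hD.2.2 δ F hF φ hp.smooth hp.comp hp.sub u hp.u2 hp.uc hp.u0 hp.eq k) φ u hs G

/-- from the fall-back cut `AtFlatU` (along an ultrafilter of meshes) -/
theorem gauss92_at_joint_U {t v : ℝ} (ht : 0 < t) {δ : ℕ → ℝ} {𝒰 : Ultrafilter ℕ} (h : AtFlatU t v δ 𝒰) (hD : GaussDom D)
    {F : ℕ → Finset (ℤ × ℤ)} (hF : IsAdmissibleApprox D δ F) {m : ℕ} (φ u : Fin m → ℝ × ℝ → ℝ)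
    (hs : ∀ i, Gauss92Sol D (φ i) (u i)) (G : BoundedContinuousFunction (EuclideanSpace ℝ (Fin m)) ℝ) :
    Tendsto (fun n => lmE (at92Adm (F n)) (at92W t) fun p => G (WithLp.toLp 2 fun i => at92X (δ n) (φ i) p)) (𝒰 : Filter ℕ)
      (𝓝 (∫ x, G x ∂multivariateGaussian 0 (gauss92Cov v D φ u))) :=
  gauss92_at_joint ht hD.1 hD.2.1
    (fun φ u hp k => h D hD F hF φ hp.smooth hp.comp hp.sub u hp.u2 hp.uc hp.u0 hp.eq k) φ u hs G

end atl

/-! ## 10. Complements: mixed moments in vector form, convergence in `ProbabilityMeasure`, sets with null frontier, `Fin m → ℝ` -/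

section more

/-- reduction of a limit along `l` to sequences along which the moments of the RATIONAL combinations converge -/
theorem gauss92_vec_reduce {ι : Type} {Ω : ι → Type} {A : ∀ n, Finset (Ω n)} {w : ∀ n, Ω n → ℝ} {m : ℕ}
    (Y : ∀ n, Fin m → Ω n → ℝ) (l : Filter ι) (S : Matrix (Fin m) (Fin m) ℝ)
    (hmom : ∀ (c : Fin m → ℝ) (k : ℕ), Tendsto (fun n => lmE (A n) (w n) fun h => (∑ i, c i * Y n i h) ^ k) l
      (𝓝 (tmmWick (c ⬝ᵥ S.mulVec c) k)))
    {β : Type} (Φ : ι → β) (L : Filter β)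
    (hseq : ∀ u : ℕ → ι, (∀ (r : Fin m → ℚ) (k : ℕ),
      Tendsto (fun j => lmE (A (u j)) (w (u j)) fun h => (∑ i, ((r i : ℚ) : ℝ) * Y (u j) i h) ^ k) atTop
        (𝓝 (tmmWick ((fun i => ((r i : ℚ) : ℝ)) ⬝ᵥ S.mulVec fun i => ((r i : ℚ) : ℝ)) k))) → Tendsto (Φ ∘ u) atTop L) :
    Tendsto Φ l L := by
  obtain ⟨l', hl'def⟩ : ∃ l' : Filter ι, l' = ⨅ p : (Fin m → ℚ) × ℕ,
      comap (fun n => lmE (A n) (w n) fun h => (∑ i, ((p.1 i : ℚ) : ℝ) * Y n i h) ^ p.2)
        (𝓝 (tmmWick ((fun i => ((p.1 i : ℚ) : ℝ)) ⬝ᵥ S.mulVec fun i => ((p.1 i : ℚ) : ℝ)) p.2)) := ⟨_, rfl⟩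
  have hcg : l'.IsCountablyGenerated := by rw [hl'def]; infer_instance
  have hll' : l ≤ l' := by
    rw [hl'def]
    exact le_iInf fun p => tendsto_iff_comap.1 (hmom _ p.2)
  have hrat : ∀ (r : Fin m → ℚ) (k : ℕ), Tendsto (fun n => lmE (A n) (w n) fun h => (∑ i, ((r i : ℚ) : ℝ) * Y n i h) ^ k) l'
      (𝓝 (tmmWick ((fun i => ((r i : ℚ) : ℝ)) ⬝ᵥ S.mulVec fun i => ((r i : ℚ) : ℝ)) k)) := by
    intro r k
    rw [hl'def]
    exact tendsto_iff_comap.2 (iInf_le _ ((r, k) : (Fin m → ℚ) × ℕ))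
  refine Tendsto.mono_left ?_ hll'
  exact tendsto_of_seq_tendsto fun u hu => hseq u fun r k => (hrat r k).comp hu

/-- along a sequence, rational combinations give all real combinations -/
theorem gauss92_vec_one {Ω : ℕ → Type} {A : ∀ n, Finset (Ω n)} {w : ∀ n, Ω n → ℝ} (hw : ∀ n, ∀ a ∈ A n, 0 ≤ w n a)
    (hZ : ∀ n, 0 < ∑ a ∈ A n, w n a) {m : ℕ} (Y : ∀ n, Fin m → Ω n → ℝ) (S : Matrix (Fin m) (Fin m) ℝ)
    (hrat : ∀ (r : Fin m → ℚ) (k : ℕ), Tendsto (fun n => lmE (A n) (w n) fun h => (∑ i, ((r i : ℚ) : ℝ) * Y n i h) ^ k) atTop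
      (𝓝 (tmmWick ((fun i => ((r i : ℚ) : ℝ)) ⬝ᵥ S.mulVec fun i => ((r i : ℚ) : ℝ)) k))) :
    LmOk (⊤ : Submodule ℝ (Fin m → ℝ)) A w (fun n c h => ∑ i, c i * Y n i h) ∧
      Gauss92One (⊤ : Submodule ℝ (Fin m → ℝ)) A w (fun n c h => ∑ i, c i * Y n i h) atTop fun c => c ⬝ᵥ S.mulVec c := by
  have H := gauss92_vec_ok hw hZ Y fun i p => ⟨_, (hrat (Pi.single i 1) p).congr fun n => by
    simp only [gauss92_rat_single]⟩
  refine ⟨H, fun c _ k => ?_⟩
  rw [tendsto_iff_ultrafilter]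
  intro 𝒰 hU
  have HT := lm_T_mul 𝒰 H hU
  have hdense : DenseRange fun r : Fin m → ℚ => fun i => ((r i : ℚ) : ℝ) :=
    DenseRange.piMap fun _ => Rat.denseRange_cast
  have hc1 : Continuous fun c : Fin m → ℝ => lmT 𝒰 A w (fun n c h => ∑ i, c i * Y n i h) (Multiset.replicate k c) := by
    have := gauss92_diag_continuous HT k 0
    simpa only [add_zero] using this
  have hc2 : Continuous fun c : Fin m → ℝ => tmmWick (c ⬝ᵥ S.mulVec c) k :=
    (gauss92_wick_continuous k).comp (gauss92_quad_continuous S)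
  have hd := DenseRange.equalizer hdense hc1 hc2 (funext fun r =>
    lm_U_eq 𝒰 (((hrat r k).mono_left hU).congr fun n => (gauss92_M_replicate _ _ _ _ k).symm))
  have h1 := lm_T_tendsto 𝒰 H hU (s := Multiset.replicate k c) (fun _ _ => Submodule.mem_top)
  rw [congrFun hd c] at h1
  exact h1.congr fun n => gauss92_M_replicate _ _ _ _ k

theorem gauss92_real_single {m : ℕ} (i : Fin m) (y : Fin m → ℝ) : ∑ k, (Pi.single i 1 : Fin m → ℝ) k * y k = y i := by
  simp [Pi.single_apply]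

theorem gauss92_quad_single {m : ℕ} {S : Matrix (Fin m) (Fin m) ℝ} (hS : S.IsHermitian) (i j : Fin m) :
    ((Pi.single i 1 + Pi.single j 1 : Fin m → ℝ) ⬝ᵥ S.mulVec (Pi.single i 1 + Pi.single j 1)
      - (Pi.single i 1 : Fin m → ℝ) ⬝ᵥ S.mulVec (Pi.single i 1) - (Pi.single j 1 : Fin m → ℝ) ⬝ᵥ S.mulVec (Pi.single j 1)) / 2
      = S i j := by
  have h := hS.apply i j
  rw [star_trivial] at h
  simp [Matrix.mulVec_add, add_dotProduct, dotProduct_add]
  rw [h]
  ring

/-- **MIXED MOMENTS, vector form**: under the hypotheses of `gauss92_joint_vec` every mixed moment converges along `l` to the pairing sum of `S` -/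
theorem gauss92_vec_mom {ι : Type} {Ω : ι → Type} {A : ∀ n, Finset (Ω n)} {w : ∀ n, Ω n → ℝ}
    (hw : ∀ n, ∀ a ∈ A n, 0 ≤ w n a) (hZ : ∀ n, 0 < ∑ a ∈ A n, w n a) {m : ℕ} (Y : ∀ n, Fin m → Ω n → ℝ) (l : Filter ι)
    (S : Matrix (Fin m) (Fin m) ℝ) (hS : S.IsHermitian)
    (hmom : ∀ (c : Fin m → ℝ) (k : ℕ), Tendsto (fun n => lmE (A n) (w n) fun h => (∑ i, c i * Y n i h) ^ k) l
      (𝓝 (tmmWick (c ⬝ᵥ S.mulVec c) k)))
    {k : ℕ} (a : Fin k → Fin m) :
    Tendsto (fun n => lmE (A n) (w n) fun h => ∏ j, Y n (a j) h) l (𝓝 (sv149_wick fun x y => S (a x) (a y))) := by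
  refine gauss92_vec_reduce Y l S hmom _ _ fun u hrat => ?_
  obtain ⟨H, hq⟩ := gauss92_vec_one (fun j => hw (u j)) (fun j => hZ (u j)) (fun j => Y (u j)) S hrat
  have h := gauss92_tendsto H le_rfl hq (fun j => (Pi.single (a j) 1 : Fin m → ℝ)) fun _ => Submodule.mem_top
  simp only [gauss92_quad_single hS, gauss92_real_single] at h
  exact h

/-- the finite weighted law as a probability measure -/
noncomputable def gauss92PM {α E : Type} [MeasurableSpace E] (s : Finset α) (w : α → ℝ) (Y : α → E) (hw : ∀ a ∈ s, 0 ≤ w a)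
    (hZ : 0 < ∑ b ∈ s, w b) : ProbabilityMeasure E :=
  ⟨gauss92Law s w Y, gauss92_law_prob s w Y hw hZ⟩

theorem gauss92_PM_coe {α E : Type} [MeasurableSpace E] (s : Finset α) (w : α → ℝ) (Y : α → E) (hw : ∀ a ∈ s, 0 ≤ w a)
    (hZ : 0 < ∑ b ∈ s, w b) : (gauss92PM s w Y hw hZ : Measure E) = gauss92Law s w Y := rfl

/-- the centred Gaussian vector as a probability measure -/
noncomputable def gauss92GPM {m : ℕ} (S : Matrix (Fin m) (Fin m) ℝ) : ProbabilityMeasure (EuclideanSpace ℝ (Fin m)) :=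
  ⟨multivariateGaussian 0 S, inferInstance⟩

theorem gauss92_GPM_coe {m : ℕ} (S : Matrix (Fin m) (Fin m) ℝ) :
    (gauss92GPM S : Measure (EuclideanSpace ℝ (Fin m))) = multivariateGaussian 0 S := rfl

/-- **JOINT LAW in the space of probability measures** (then all of Mathlib's portmanteau applies, along `l`) -/
theorem gauss92_vec_law {ι : Type} {Ω : ι → Type} {A : ∀ n, Finset (Ω n)} {w : ∀ n, Ω n → ℝ}
    (hw : ∀ n, ∀ a ∈ A n, 0 ≤ w n a) (hZ : ∀ n, 0 < ∑ a ∈ A n, w n a) {m : ℕ} (Y : ∀ n, Fin m → Ω n → ℝ) (l : Filter ι)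
    (S : Matrix (Fin m) (Fin m) ℝ) (hS : S.IsHermitian)
    (hmom : ∀ (c : Fin m → ℝ) (k : ℕ), Tendsto (fun n => lmE (A n) (w n) fun h => (∑ i, c i * Y n i h) ^ k) l
      (𝓝 (tmmWick (c ⬝ᵥ S.mulVec c) k))) :
    Tendsto (fun n => gauss92PM (A n) (w n) (fun h => (WithLp.toLp 2 fun i => Y n i h : EuclideanSpace ℝ (Fin m))) (hw n) (hZ n))
      l (𝓝 (gauss92GPM S)) := by
  refine ProbabilityMeasure.tendsto_iff_forall_integral_tendsto.2 fun G => ?_
  simp only [gauss92_PM_coe, gauss92_GPM_coe]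
  refine (gauss92_joint_vec hw hZ Y l S hS hmom G).congr fun n => ?_
  exact (gauss92_law_E _ _ _ (hw n) (hZ n) _).symm

theorem gauss92_law_set {α E : Type} [MeasurableSpace E] [MeasurableSingletonClass E] (s : Finset α) (w : α → ℝ) (Y : α → E)
    (hw : ∀ a ∈ s, 0 ≤ w a) (hZ : 0 < ∑ b ∈ s, w b) (B : Set E) :
    (gauss92Law s w Y B).toReal = lmE s w fun a => B.indicator (fun _ => (1 : ℝ)) (Y a) := by
  rw [gauss92_law_def, Measure.finsetSum_apply]
  simp only [Measure.smul_apply, Measure.dirac_apply, smul_eq_mul]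
  rw [ENNReal.toReal_sum]
  · unfold lmE
    rw [Finset.sum_div]
    refine Finset.sum_congr rfl fun a ha => ?_
    rw [ENNReal.toReal_mul, ENNReal.toReal_ofReal (div_nonneg (hw a ha) hZ.le)]
    by_cases hB : Y a ∈ B
    · simp only [Set.indicator_of_mem hB, Pi.one_apply, ENNReal.toReal_one]
      ring
    · simp only [Set.indicator_of_notMem hB, ENNReal.toReal_zero]
      ring
  · intro a _
    refine ENNReal.mul_ne_top ENNReal.ofReal_ne_top ?_
    by_cases hB : Y a ∈ B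
    · simp [Set.indicator_of_mem hB]
    · simp [Set.indicator_of_notMem hB]

/-- **probabilities of sets with null frontier** -/
theorem gauss92_vec_set {ι : Type} {Ω : ι → Type} {A : ∀ n, Finset (Ω n)} {w : ∀ n, Ω n → ℝ}
    (hw : ∀ n, ∀ a ∈ A n, 0 ≤ w n a) (hZ : ∀ n, 0 < ∑ a ∈ A n, w n a) {m : ℕ} (Y : ∀ n, Fin m → Ω n → ℝ) (l : Filter ι)
    (S : Matrix (Fin m) (Fin m) ℝ) (hS : S.IsHermitian)
    (hmom : ∀ (c : Fin m → ℝ) (k : ℕ), Tendsto (fun n => lmE (A n) (w n) fun h => (∑ i, c i * Y n i h) ^ k) l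
      (𝓝 (tmmWick (c ⬝ᵥ S.mulVec c) k)))
    {B : Set (EuclideanSpace ℝ (Fin m))} (hB : multivariateGaussian 0 S (frontier B) = 0) :
    Tendsto (fun n => lmE (A n) (w n) fun h => B.indicator (fun _ => (1 : ℝ)) (WithLp.toLp 2 fun i => Y n i h)) l
      (𝓝 (multivariateGaussian 0 S B).toReal) := by
  have h := ProbabilityMeasure.tendsto_measure_of_null_frontier_of_tendsto' (gauss92_vec_law hw hZ Y l S hS hmom) (E := B) hB
  simp only [gauss92_PM_coe, gauss92_GPM_coe] at h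
  have hfin : multivariateGaussian 0 S B ≠ ⊤ := measure_ne_top _ _
  have h2 := (ENNReal.tendsto_toReal hfin).comp h
  refine h2.congr fun n => ?_
  exact gauss92_law_set _ _ _ (hw n) (hZ n) B

/-- the joint law tested on `Fin m → ℝ` -/
theorem gauss92_joint_vec_pi {ι : Type} {Ω : ι → Type} {A : ∀ n, Finset (Ω n)} {w : ∀ n, Ω n → ℝ}
    (hw : ∀ n, ∀ a ∈ A n, 0 ≤ w n a) (hZ : ∀ n, 0 < ∑ a ∈ A n, w n a) {m : ℕ} (Y : ∀ n, Fin m → Ω n → ℝ) (l : Filter ι)
    (S : Matrix (Fin m) (Fin m) ℝ) (hS : S.IsHermitian)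
    (hmom : ∀ (c : Fin m → ℝ) (k : ℕ), Tendsto (fun n => lmE (A n) (w n) fun h => (∑ i, c i * Y n i h) ^ k) l
      (𝓝 (tmmWick (c ⬝ᵥ S.mulVec c) k)))
    (G : BoundedContinuousFunction (Fin m → ℝ) ℝ) :
    Tendsto (fun n => lmE (A n) (w n) fun h => G fun i => Y n i h) l
      (𝓝 (∫ x, G x.ofLp ∂multivariateGaussian 0 S)) :=
  gauss92_joint_vec hw hZ Y l S hS hmom (G.compContinuous ⟨WithLp.ofLp, PiLp.continuous_ofLp 2 _⟩)

end more

/-! ## 11. The same complements for the frozen Ashkin-Teller law -/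

section atm

open Claims Claims.C0468

variable {D : Set (ℝ × ℝ)}

/-- the hypothesis of the vector theorems for the smeared heights of a family of classical pairs -/
theorem gauss92_at_hmom (hDo : IsOpen D) (hDb : Bornology.IsBounded D) {t v : ℝ} {δ : ℕ → ℝ}
    {F : ℕ → Finset (ℤ × ℤ)} {l : Filter ℕ}
    (h : ∀ φ u : ℝ × ℝ → ℝ, Gauss92Sol D φ u → ∀ k : ℕ, Tendsto (fun n => atExpect t (δ n) (F n) φ fun s => s ^ k) l
      (𝓝 (tmmWick (v * ∫ z in D, φ z * u z) k)))
    {m : ℕ} (φ u : Fin m → ℝ × ℝ → ℝ) (hs : ∀ i, Gauss92Sol D (φ i) (u i)) (c : Fin m → ℝ) (k : ℕ) :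
    Tendsto (fun n => lmE (at92Adm (F n)) (at92W t) fun p => (∑ i, c i * at92X (δ n) (φ i) p) ^ k) l
      (𝓝 (tmmWick (c ⬝ᵥ (gauss92Cov v D φ u).mulVec c) k)) := by
  rw [gauss92_cov_quad hDb v φ u hs c]
  refine (h _ _ (gauss92_sol_sum hDo Finset.univ c φ u fun i _ => hs i) k).congr fun n => ?_
  rw [gauss92_at_expect]
  refine lm_E_congr _ _ fun p _ => ?_
  rw [gauss92_at_X_sum]

/-- **ALL MIXED MOMENTS OF THE SMEARED ASHKIN-TELLER HEIGHTS** converge to the pairing sum of the Dirichlet covariance -/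
theorem gauss92_at_mom {t v : ℝ} (ht : 0 < t) (hDo : IsOpen D) (hDb : Bornology.IsBounded D) {δ : ℕ → ℝ}
    {F : ℕ → Finset (ℤ × ℤ)} {l : Filter ℕ}
    (h : ∀ φ u : ℝ × ℝ → ℝ, Gauss92Sol D φ u → ∀ k : ℕ, Tendsto (fun n => atExpect t (δ n) (F n) φ fun s => s ^ k) l
      (𝓝 (tmmWick (v * ∫ z in D, φ z * u z) k)))
    {m : ℕ} (φ u : Fin m → ℝ × ℝ → ℝ) (hs : ∀ i, Gauss92Sol D (φ i) (u i)) :
    Tendsto (fun n => lmE (at92Adm (F n)) (at92W t) fun p => ∏ i, at92X (δ n) (φ i) p) l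
      (𝓝 (sv149_wick fun x y => gauss92Cov v D φ u x y)) :=
  gauss92_vec_mom (Ω := fun n => at92Cfg (F n)) (A := fun n => at92Adm (F n)) (w := fun _ => at92W t)
    (fun _ _ _ => (pow_pos ht _).le) (fun n => at92_Z_pos ht (F n)) (fun n i p => at92X (δ n) (φ i) p) l
    (gauss92Cov v D φ u) (gauss92_cov_herm v D φ u) (gauss92_at_hmom hDo hDb h φ u hs) id

/-- **probabilities of events with null frontier** for the smeared Ashkin-Teller heights -/
theorem gauss92_at_set {t v : ℝ} (ht : 0 < t) (hDo : IsOpen D) (hDb : Bornology.IsBounded D) {δ : ℕ → ℝ}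
    {F : ℕ → Finset (ℤ × ℤ)} {l : Filter ℕ}
    (h : ∀ φ u : ℝ × ℝ → ℝ, Gauss92Sol D φ u → ∀ k : ℕ, Tendsto (fun n => atExpect t (δ n) (F n) φ fun s => s ^ k) l
      (𝓝 (tmmWick (v * ∫ z in D, φ z * u z) k)))
    {m : ℕ} (φ u : Fin m → ℝ × ℝ → ℝ) (hs : ∀ i, Gauss92Sol D (φ i) (u i))
    {B : Set (EuclideanSpace ℝ (Fin m))} (hB : multivariateGaussian 0 (gauss92Cov v D φ u) (frontier B) = 0) :
    Tendsto (fun n => lmE (at92Adm (F n)) (at92W t) fun p =>
        B.indicator (fun _ => (1 : ℝ)) (WithLp.toLp 2 fun i => at92X (δ n) (φ i) p)) l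
      (𝓝 (multivariateGaussian 0 (gauss92Cov v D φ u) B).toReal) :=
  gauss92_vec_set (Ω := fun n => at92Cfg (F n)) (A := fun n => at92Adm (F n)) (w := fun _ => at92W t)
    (fun _ _ _ => (pow_pos ht _).le) (fun n => at92_Z_pos ht (F n)) (fun n i p => at92X (δ n) (φ i) p) l
    (gauss92Cov v D φ u) (gauss92_cov_herm v D φ u) (gauss92_at_hmom hDo hDb h φ u hs) hB

/-- how to feed the three theorems above from the top cut -/
theorem gauss92_at_of_flat {t v : ℝ} (h : AtFlatGFF t v) (hD : GaussDom D) {δ : ℕ → ℝ} {F : ℕ → Finset (ℤ × ℤ)}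
    (hF : IsAdmissibleApprox D δ F) : ∀ φ u : ℝ × ℝ → ℝ, Gauss92Sol D φ u → ∀ k : ℕ,
      Tendsto (fun n => atExpect t (δ n) (F n) φ fun s => s ^ k) atTop (𝓝 (tmmWick (v * ∫ z in D, φ z * u z) k)) :=
  fun φ u hp k => h D hD.1 hD.2.1 hD.2.2 δ F hF φ hp.smooth hp.comp hp.sub u hp.u2 hp.uc hp.u0 hp.eq k

/-- ... and from the fall-back cut -/
theorem gauss92_at_of_flatU {t v : ℝ} {δ : ℕ → ℝ} {𝒰 : Ultrafilter ℕ} (h : AtFlatU t v δ 𝒰) (hD : GaussDom D)
    {F : ℕ → Finset (ℤ × ℤ)} (hF : IsAdmissibleApprox D δ F) : ∀ φ u : ℝ × ℝ → ℝ, Gauss92Sol D φ u → ∀ k : ℕ,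
      Tendsto (fun n => atExpect t (δ n) (F n) φ fun s => s ^ k) (𝒰 : Filter ℕ) (𝓝 (tmmWick (v * ∫ z in D, φ z * u z) k)) :=
  fun φ u hp k => h D hD F hF φ hp.smooth hp.comp hp.sub u hp.u2 hp.uc hp.u0 hp.eq k

end atm

end Claimed.Agent.R292
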