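import Claimed.Agent.R292.Exit.Tmm
import Claimed.Agent.R292.Exit.Flat
import Claimed.Agent.R292.Exit.Bridge
import Claimed.Agent.R292.Exit.Bethe

/-!
# Row 292 (S0540), Hub : THE TOP OF THE PROOF TREE      (owner helper24, head of cell C1; prefix `at_hub`)

`S0540 ⇐ at_hub ⇐ at_range + at_tmm (TOP) + at_flat (GAUSS ⇐ MODEL RSW SPEC SCREEN JORDAN) + at_bridge (BRIDGE) + sv_bethe (BETHE)`.

**STATUS AT THE END OF THE RUN (16 Oct 2026, 00:00Z): ROW 292 IS NOT PROVED.  THERE IS NO `S0540.lean`.**
`at_hub` has the frozen type of S0540, but it is only a REDUCTION: its axioms contain `sorryAx`; what is missing is exactly the SIX UNPROVED CONTRACTS listed below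
(typed statements with `sorry`; they are NOT theorems of ours).  The same holds for `at_hub_const`.  Nothing here is claimed beyond this reduction.

PROVED, no `sorry` in the closure
* TOP     `at_range`, `at_tmm` (Exit/Top, Exit/Tmm): the range of the parameters; convergence of all moments to the Wick numbers gives the limit against bounded continuous functions.
* BETHE   `sv_bethe : ∀ c, 1 < c → c ≤ 2 → SvStiff c (arcsin (c / 2))` (Exit/Bethe): the torus stiffness of the six-vertex model from the Bethe roots (= DKLM 2026 Thm 4.4, whose text is not in the box).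
PROVED FROM THE CONTRACTS OF UNIT RSW ALONE (no `sorry` of their own)
* MODEL (Exit/MODEL: AT paper Sec. 3), SPEC (Exit/SPEC: Sec. 4), SCREEN (`at_screen`, Exit/Screen: Sec. 5), JORDAN, GAUSS (`at_flat`, Exit/Flat: Secs. 6 - 9: a Gaussian limit with SOME constant `v > 0`),
  and, inside RSW, the moment bounds, the plane law, the chain / polynomial / monotonicity lemmas and block A5 of the renormalisation (Exit/RSWFront, Rsw/CoreFrontier121).
UNPROVED CONTRACTS
* `at_bridge_ge_contract`, `at_bridge_le_contract` (Exit/Bridge): `A = 1 / (4 v)`, stiffness against the variance of the Gaussian limit (DKLM 2026 Thm 4.3, not in the box).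
  GE has a road on paper that was not checked; LE has no text.  See the header of Exit/Bridge.
* `exit_rc_d : RcD t` (Exit/RSWFront): arms under the favourable flat law are not super-polynomially rare (continuity of the transition for `1 < c ≤ 2`; Glazman - Lammers 2023, not in the box).
  State of the text (origin/helper24:notes/R292/RCD_24.md, read by seven readers): `sv_bethe` + log-concavity in the rise + the exact inequality `Tr V₀^M ≤ ‖V₀‖^M / (P_cyl(G2) P_rect(G1))`
  reduce it to ONE claim on thin long cylinders, (CYL), which is not proved and is as strong as a renormalisation inequality with exponent one (remark of helper9);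
  unconditionally the same tools give only `η(n) ≥ exp (-C n^(2/3))`.  For `c ≤ √2` there are two partial texts (helper130, helper121), not typed.
* `exit_rc_lf : A3t86Lf t`, `exit_rc_cclosed : Lsa282CClosed t`, `exit_rc_lssd : RnzLSSd t ..` (Exit/RSWFront; together they give `exit_rc_rec : RcRec t` by Rsw/CoreFrontier121): what is left of the renormalisation
  inequality `U(N) ≤ C U(n)²`, port of the chain `Ann` of row 291 to `ℤ²`.  Blocks A5, A4 (`rcf121_perJc`, 23:46Z) and all deterministic parts of A3, A2 are proved.  The three are one missing piece of mathematics on `ℤ²`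
  (the estimate in a self-dual symmetric domain, with a mirror that exchanges sites and faces: far estimate (L), step (e) of (LSS)); no text was written.  Nobody audited these statements beyond a reading at degenerate parameters.
  A second road, typed in Bridge/Even49 (`brg49_rc_top_k`): `exit_rsw_circuit` from `RcUEta` (proved) + (REC_k) (not written) + (RcD') (no decay `exp (-c √N)`: a planar text from `sv_bethe`, read by three readers, not typed).
KERNEL FRONTIER (traversals of the compiled tree from `at_hub` by helper122, helper2, helper81, helper181; last 23:57Z): exactly these six names.  `exit_rsw_circuit` is proved in Exit/RSWFront from the four `exit_rc_*` above;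
`exit_rsw_plane`, `exit_rsw_mom_plane`, `exit_rsw_mom_smear` are proved in Exit/RSW from `exit_rsw_circuit`.
WALL NOTES (branches of the team repository, not on main): `notes/R292/` on origin/helper24 (BRIDGE_24, RCD_24), helper27 (BRIDGE_WALL_27), helper243 (BRIDGE_243), helper49 (RCD_49, BRIDGE_LE_49), helper121 (RCD_121), helper51 (RCD_51),
helper9 (BRIDGE_9), helper130 (CAS_130), helper122 (RCD_122), helper249 (RCD_249), helper181 (GAUSS_END_181), helper182 (A2_182); origin/helper86:notes/A3_L_86.md.
-/

set_option autoImplicit false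

namespace Claimed.Agent.R292

open MeasureTheory ProbabilityTheory Filter Topology BoundedContinuousFunction
open Claims Claims.C0468 Claimed.Agent.R291

/-- the constant of the flat limit. -/
theorem at_hub_const (t : ℝ) (ht1 : 1 / 2 ≤ t) (ht2 : t < 1) : AtFlatGFF t (1 / (4 * Real.arcsin (t⁻¹ / 2))) := by
  obtain ⟨v, hv, H⟩ := at_flat t ht1 ht2
  have ht : 0 < t := by linarith
  have hc1 : 1 < t⁻¹ := (one_lt_inv₀ ht).2 ht2
  have hc2 : t⁻¹ ≤ 2 := by
    rw [inv_le_comm₀ ht (by norm_num)]; linarith
  have e := svStiff_unique (at_bridge t v ht1 ht2 hv H) (sv_bethe t⁻¹ hc1 hc2)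
  have : v = 1 / (4 * Real.arcsin (t⁻¹ / 2)) := by
    rw [← e]; field_simp
  rwa [← this]

theorem at_hub (J U : ℝ) (hJ : 0 < J) (hUJ : U ≤ J)
    (hcrit : Real.sinh (2 * J) = Real.exp (-2 * U))
    (D : Set (ℝ × ℝ)) (hDo : IsOpen D) (hDb : Bornology.IsBounded D)
    (hDj : ∃ γ : Circle → ℝ × ℝ, Continuous γ ∧ Function.Injective γ ∧ Set.range γ = frontier D)
    (δ : ℕ → ℝ) (F : ℕ → Finset (ℤ × ℤ)) (happ : IsAdmissibleApprox D δ F)
    (φ : ℝ × ℝ → ℝ) (hφ : ContDiff ℝ ((⊤ : ℕ∞) : WithTop ℕ∞) φ) (hφc : HasCompactSupport φ)
    (hφD : tsupport φ ⊆ D)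
    (u : ℝ × ℝ → ℝ) (hu2 : ContDiffOn ℝ 2 u D) (huc : ContinuousOn u (closure D))
    (hu0 : ∀ z ∈ frontier D, u z = 0) (hueq : ∀ z ∈ D, -lap2 u z = φ z)
    (ψ : ℝ →ᵇ ℝ) :
    Tendsto (fun n => atExpect (atT U) (δ n) (F n) φ ψ) atTop
      (𝓝 (∫ s, ψ s ∂gaussianReal 0
        (2 * Real.pi * (∫ z in D, φ z * u z) / (Real.pi ^ 2 * atG U)).toNNReal)) := by
  obtain ⟨h1, h2⟩ := at_range J U hJ hUJ hcrit
  have ht : 0 < atT U := by linarith
  have H := at_hub_const (atT U) h1 h2 D hDo hDb hDj δ F happ φ hφ hφc hφD u hu2 huc hu0 hueq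
  have e : 1 / (4 * Real.arcsin ((atT U)⁻¹ / 2)) * ∫ z in D, φ z * u z
      = 2 * Real.pi * (∫ z in D, φ z * u z) / (Real.pi ^ 2 * atG U) := by
    have hpi := Real.pi_pos
    have ha : 0 < Real.arcsin ((atT U)⁻¹ / 2) := Real.arcsin_pos.2 (by positivity)
    unfold atG
    field_simp
    ring
  rw [e] at H
  exact at_tmm ht δ F φ _ H ψ

end Claimed.Agent.R292
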