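import Mathlib
import Claimed.Prelude.Def_0467
import Claimed.Prelude.Def_0468
import Claimed.Agent.R292.AtConn

/-!
# Row 292 (S0540), unit JORDAN : geometry of `faceRegionSq` and of `IsAdmissibleApprox`      (owner helper199; prefix `jor199_`, defs `jor199*`)      complete, 0 sorry

On top of `AtConn` (helper30).  Metric of `ℝ × ℝ` = SUP metric (as `limDep` of R291).  No Jordan curve theorem: only the CONNECTEDNESS of the frontier is used.
No Green kernel is needed on the R291 road: `wk_main` (R291/Wick/Diag) holds in ANY bounded open `D` with the frozen `u` (`jor199_lap2_eq`: the two frozen `lap2` agree by `rfl`).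

DICTIONARY (any finite `F`, `0 < d`)
* `jor199Pt d v` lattice point; `jor199Inc v f` : `f` is one of the four faces around `v`; `jor199_onPolygon_iff`, `jor199_mem_corners_iff`, `jor199_pt_mem_sq_iff`
* **`jor199_pt_mem_region_iff`** : `jor199Pt d v ∈ faceRegionSq d F ↔ ¬ OnPolygon F v`
* `jor199_osq_subset_region`, `jor199_sq_subset_closure`, `jor199_closure_region_subset`, `jor199_face_mem_of_meets`, `jor199_region_bounded`
* **`jor199_frontier_iff`** : `p ∈ frontier ↔ p` lies in the closed square of a face of `F` and of a face outside `F`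
* `jor199Wall F` = corners of `F` on the polygon (where the frozen law pins `τ = 1`, `Hv = 0`); `jor199_wall_mem_frontier`; **`jor199_frontier_near_wall`** (within `d / 2`)
THE WALL
* `jor199BdH`, `jor199BdV` boundary edges, `jor199WallAdj F v w` = endpoints of a boundary edge (`_symm`, `_wall`, `_dist`); `jor199_adj_of_near`
* **`jor199_wall_conn`** : frontier connected ⟹ the wall is connected along boundary edges (induction principle on sets closed under `jor199WallAdj`)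
* **`jor199_wall_cross`** : discrete intermediate value: a corner at distance in `[r, r + d]` from `z`
ADMISSIBLE APPROXIMATIONS
* `jor199_frontier_close` (Hausdorff), **`jor199_dep_close`** : `|infDist z (frontier region_n) - infDist z (frontier D)| ≤ ε` for ALL `z`, eventually
* `jor199_subset_ball_of_frontier`, **`jor199_region_in_ball`** : the regions lie eventually in one fixed ball
* `jor199_wall_near`, `jor199_wall_far`, **`jor199_annulus`** : `∃ r0 > 0, ∀ ε, ∀ᶠ n, ∀ z r, depth z + ε ≤ r ≤ r0 →` a wall corner at distance in `[r, r + δ n]` from `z`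
* `jor199_ball_subset`, `jor199_deep_compact`, **`jor199_deep`** : eventually, for EVERY `ε`-deep `z ∈ D`: `ball z (depth - ε) ⊆ region_n`, its lattice points are off the polygon, the faces meeting it are in `F n`
-/

set_option autoImplicit false

namespace Claimed.Agent.R292

open Claims Claims.C0468 Set Filter Topology

/-- the frozen Laplacians of rows 291 and 292 are the same function -/
theorem jor199_lap2_eq : Claims.C0468.lap2 = Claims.C0467.lap2 := rfl

/-- the lattice point `v` at mesh `d` -/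
def jor199Pt (d : ℝ) (v : ℤ × ℤ) : ℝ × ℝ := (d * v.1, d * v.2)

/-- `f` is one of the four faces around the corner `v` -/
def jor199Inc (v f : ℤ × ℤ) : Prop :=
  f = v ∨ f = (v.1 - 1, v.2) ∨ f = (v.1, v.2 - 1) ∨ f = (v.1 - 1, v.2 - 1)

theorem jor199_onPolygon_iff (F : Finset (ℤ × ℤ)) (v : ℤ × ℤ) :
    OnPolygon F v ↔ ∃ f, jor199Inc v f ∧ f ∉ F := by
  unfold OnPolygon jor199Inc
  constructor
  · intro h
    by_contra hc
    have hc' : ∀ f, (f = v ∨ f = (v.1 - 1, v.2) ∨ f = (v.1, v.2 - 1) ∨ f = (v.1 - 1, v.2 - 1)) → f ∈ F :=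
      fun f hf => by_contra fun hfF => hc ⟨f, hf, hfF⟩
    exact h ⟨hc' v (Or.inl rfl), hc' _ (Or.inr (Or.inl rfl)), hc' _ (Or.inr (Or.inr (Or.inl rfl))),
      hc' _ (Or.inr (Or.inr (Or.inr rfl)))⟩
  · rintro ⟨f, hf, hfF⟩ ⟨h1, h2, h3, h4⟩
    rcases hf with rfl | rfl | rfl | rfl
    exacts [hfF h1, hfF h2, hfF h3, hfF h4]

theorem jor199_mem_corners_iff (F : Finset (ℤ × ℤ)) (v : ℤ × ℤ) :
    v ∈ cornersOf F ↔ ∃ f, jor199Inc v f ∧ f ∈ F := by
  unfold cornersOf jor199Inc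
  simp only [Finset.mem_biUnion, Finset.mem_insert, Finset.mem_singleton]
  constructor
  · rintro ⟨f, hf, h | h | h | h⟩
    · exact ⟨f, Or.inl h.symm, hf⟩
    · refine ⟨f, Or.inr (Or.inl ?_), hf⟩
      rw [h]; ext <;> simp
    · refine ⟨f, Or.inr (Or.inr (Or.inl ?_)), hf⟩
      rw [h]; ext <;> simp
    · refine ⟨f, Or.inr (Or.inr (Or.inr ?_)), hf⟩
      rw [h]; ext <;> simp
  · rintro ⟨f, h | h | h | h, hf⟩
    · exact ⟨f, hf, Or.inl h.symm⟩
    · refine ⟨f, hf, Or.inr (Or.inl ?_)⟩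
      rw [h]; ext <;> simp
    · refine ⟨f, hf, Or.inr (Or.inr (Or.inl ?_))⟩
      rw [h]; ext <;> simp
    · refine ⟨f, hf, Or.inr (Or.inr (Or.inr ?_))⟩
      rw [h]; ext <;> simp

/-- the lattice point `v` lies in the closed square of `f` iff `f` is one of the four faces around `v` -/
theorem jor199_pt_mem_sq_iff {d : ℝ} (hd : 0 < d) (v f : ℤ × ℤ) :
    jor199Pt d v ∈ at30Sq d f ↔ jor199Inc v f := by
  unfold jor199Pt at30Sq jor199Inc
  simp only [Set.mem_prod, Set.mem_Icc]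
  constructor
  · rintro ⟨⟨h1, h2⟩, h3, h4⟩
    have a1 : (f.1 : ℝ) ≤ v.1 := le_of_mul_le_mul_left h1 hd
    have a2 : (v.1 : ℝ) ≤ f.1 + 1 := le_of_mul_le_mul_left h2 hd
    have a3 : (f.2 : ℝ) ≤ v.2 := le_of_mul_le_mul_left h3 hd
    have a4 : (v.2 : ℝ) ≤ f.2 + 1 := le_of_mul_le_mul_left h4 hd
    have b1 : f.1 ≤ v.1 := by exact_mod_cast a1
    have b2 : v.1 ≤ f.1 + 1 := by exact_mod_cast a2
    have b3 : f.2 ≤ v.2 := by exact_mod_cast a3
    have b4 : v.2 ≤ f.2 + 1 := by exact_mod_cast a4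
    have c1 : f.1 = v.1 ∨ f.1 = v.1 - 1 := by omega
    have c2 : f.2 = v.2 ∨ f.2 = v.2 - 1 := by omega
    rcases c1 with c1 | c1 <;> rcases c2 with c2 | c2
    · exact Or.inl (Prod.ext c1 c2)
    · exact Or.inr (Or.inr (Or.inl (Prod.ext c1 c2)))
    · exact Or.inr (Or.inl (Prod.ext c1 c2))
    · exact Or.inr (Or.inr (Or.inr (Prod.ext c1 c2)))
  · rintro (rfl | rfl | rfl | rfl) <;> push_cast <;> refine ⟨⟨?_, ?_⟩, ?_, ?_⟩ <;> nlinarith

/-- **dictionary**: a lattice point is in the open face region iff it is not on the polygon -/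
theorem jor199_pt_mem_region_iff {d : ℝ} (hd : 0 < d) (F : Finset (ℤ × ℤ)) (v : ℤ × ℤ) :
    jor199Pt d v ∈ faceRegionSq d F ↔ ¬ OnPolygon F v := by
  rw [iff_not_comm, jor199_onPolygon_iff, ← Set.mem_compl_iff, at30_compl_region hd]
  simp only [Set.mem_iUnion, Set.mem_ofPred_eq, exists_prop]
  constructor
  · rintro ⟨f, hf, hfF⟩
    exact ⟨f, hfF, (jor199_pt_mem_sq_iff hd v f).2 hf⟩
  · rintro ⟨f, hfF, hf⟩
    exact ⟨f, (jor199_pt_mem_sq_iff hd v f).1 hf, hfF⟩

theorem jor199_isOpen_osq (d : ℝ) (f : ℤ × ℤ) : IsOpen (at30Osq d f) := isOpen_Ioo.prod isOpen_Ioo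

theorem jor199_osq_subset_sq (d : ℝ) (f : ℤ × ℤ) : at30Osq d f ⊆ at30Sq d f :=
  Set.prod_mono Set.Ioo_subset_Icc_self Set.Ioo_subset_Icc_self

theorem jor199_osq_subset_region (d : ℝ) {F : Finset (ℤ × ℤ)} {f : ℤ × ℤ} (hf : f ∈ F) :
    at30Osq d f ⊆ faceRegionSq d F := by
  rw [at30_region_eq]
  exact interior_maximal ((jor199_osq_subset_sq d f).trans (Set.subset_biUnion_of_mem (u := fun f => at30Sq d f) hf))
    (jor199_isOpen_osq d f)

theorem jor199_sq_subset_closure {d : ℝ} (hd : 0 < d) {F : Finset (ℤ × ℤ)} {f : ℤ × ℤ} (hf : f ∈ F) :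
    at30Sq d f ⊆ closure (faceRegionSq d F) :=
  (at30_sq_subset_closure hd f).trans (closure_mono (jor199_osq_subset_region d hf))

theorem jor199_isOpen_region (d : ℝ) (F : Finset (ℤ × ℤ)) : IsOpen (faceRegionSq d F) := isOpen_interior

theorem jor199_closure_region_subset {d : ℝ} (hd : 0 < d) (F : Finset (ℤ × ℤ)) :
    closure (faceRegionSq d F) ⊆ ⋃ f ∈ (F : Set (ℤ × ℤ)), at30Sq d f := by
  refine closure_minimal ?_ (at30_isClosed_union hd _)
  rw [at30_region_eq]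
  exact interior_subset

/-- a point of the frontier lies in the square of a face of `F` and in the square of a face outside `F` -/
theorem jor199_frontier_iff {d : ℝ} (hd : 0 < d) (F : Finset (ℤ × ℤ)) (p : ℝ × ℝ) :
    p ∈ frontier (faceRegionSq d F) ↔ (∃ f ∈ F, p ∈ at30Sq d f) ∧ ∃ g, g ∉ F ∧ p ∈ at30Sq d g := by
  rw [(jor199_isOpen_region d F).frontier_eq, Set.mem_sdiff, ← Set.mem_compl_iff, at30_compl_region hd]
  simp only [Set.mem_iUnion, Set.mem_ofPred_eq, exists_prop]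
  refine and_congr_left fun _ => ⟨fun h => ?_, ?_⟩
  · have := jor199_closure_region_subset hd F h
    simp only [Set.mem_iUnion, Finset.mem_coe, exists_prop] at this
    exact this
  · rintro ⟨f, hf, hp⟩
    exact jor199_sq_subset_closure hd hf hp

/-- polygon corners of `cornersOf F` lie on the frontier of the face region -/
theorem jor199_corner_mem_frontier {d : ℝ} (hd : 0 < d) {F : Finset (ℤ × ℤ)} {v : ℤ × ℤ} (hv : v ∈ cornersOf F)
    (hp : OnPolygon F v) : jor199Pt d v ∈ frontier (faceRegionSq d F) := by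
  rw [jor199_frontier_iff hd]
  obtain ⟨f, hf, hfF⟩ := (jor199_mem_corners_iff F v).1 hv
  obtain ⟨g, hg, hgF⟩ := (jor199_onPolygon_iff F v).1 hp
  exact ⟨⟨f, hfF, (jor199_pt_mem_sq_iff hd v f).2 hf⟩, g, hgF, (jor199_pt_mem_sq_iff hd v g).2 hg⟩


/-- a face whose closed square meets the open region belongs to `F` -/
theorem jor199_face_mem_of_meets {d : ℝ} (hd : 0 < d) {F : Finset (ℤ × ℤ)} {f : ℤ × ℤ} {p : ℝ × ℝ}
    (hp : p ∈ faceRegionSq d F) (hpf : p ∈ at30Sq d f) : f ∈ F := by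
  by_contra hf
  have : p ∈ (faceRegionSq d F)ᶜ := by
    rw [at30_compl_region hd]
    exact Set.mem_biUnion (show f ∈ {f : ℤ × ℤ | f ∉ F} from hf) hpf
  exact this hp

/-- the set of wall corners: corners of `F` on the polygon -/
def jor199Wall (F : Finset (ℤ × ℤ)) : Set (ℤ × ℤ) := {v | v ∈ cornersOf F ∧ OnPolygon F v}

theorem jor199_wall_iff (F : Finset (ℤ × ℤ)) (v : ℤ × ℤ) :
    v ∈ jor199Wall F ↔ (∃ f, jor199Inc v f ∧ f ∈ F) ∧ ∃ g, jor199Inc v g ∧ g ∉ F := by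
  unfold jor199Wall
  rw [Set.mem_ofPred_eq, jor199_mem_corners_iff, jor199_onPolygon_iff]

theorem jor199_wall_finite (F : Finset (ℤ × ℤ)) : (jor199Wall F).Finite :=
  (cornersOf F).finite_toSet.subset fun _ hv => hv.1

theorem jor199_wall_mem_frontier {d : ℝ} (hd : 0 < d) {F : Finset (ℤ × ℤ)} {v : ℤ × ℤ} (hv : v ∈ jor199Wall F) :
    jor199Pt d v ∈ frontier (faceRegionSq d F) := jor199_corner_mem_frontier hd hv.1 hv.2

/-- one coordinate: a common lattice abscissa of two overlapping unit cells, nearest to the point -/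
theorem jor199_coord {d : ℝ} (hd : 0 < d) {a b : ℤ} {t : ℝ} (h1 : d * a ≤ t) (h2 : t ≤ d * (a + 1))
    (h3 : d * b ≤ t) (h4 : t ≤ d * (b + 1)) :
    ∃ c : ℤ, (a = c ∨ a = c - 1) ∧ (b = c ∨ b = c - 1) ∧ |t - d * c| ≤ d / 2 ∧ (a ≠ b → t = d * c) := by
  have hab : a - b ≤ 1 := at30_coord_le hd h1 h4
  have hba : b - a ≤ 1 := at30_coord_le hd h3 h2
  rcases lt_trichotomy a b with h | h | h
  · have hb : b = a + 1 := by omega
    subst hb
    push_cast at h3 h4
    have ht : t = d * ((a : ℝ) + 1) := le_antisymm h2 h3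
    refine ⟨a + 1, Or.inr (by omega), Or.inl rfl, ?_, fun _ => by push_cast; exact ht⟩
    push_cast
    rw [ht, sub_self, abs_zero]; positivity
  · subst h
    by_cases hm : t ≤ d * a + d / 2
    · refine ⟨a, Or.inl rfl, Or.inl rfl, ?_, fun h => absurd rfl h⟩
      rw [abs_le]; constructor <;> linarith
    · refine ⟨a + 1, Or.inr (by omega), Or.inr (by omega), ?_, fun h => absurd rfl h⟩
      push_cast
      rw [abs_le]; constructor <;> nlinarith
  · have ha : a = b + 1 := by omega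
    subst ha
    push_cast at h1 h2
    have ht : t = d * ((b : ℝ) + 1) := le_antisymm h4 h1
    refine ⟨b + 1, Or.inl rfl, Or.inr (by omega), ?_, fun _ => by push_cast; exact ht⟩
    push_cast
    rw [ht, sub_self, abs_zero]; positivity

theorem jor199_inc_of_coords {v f : ℤ × ℤ} (h1 : f.1 = v.1 ∨ f.1 = v.1 - 1) (h2 : f.2 = v.2 ∨ f.2 = v.2 - 1) :
    jor199Inc v f := by
  rcases h1 with c1 | c1 <;> rcases h2 with c2 | c2
  · exact Or.inl (Prod.ext c1 c2)
  · exact Or.inr (Or.inr (Or.inl (Prod.ext c1 c2)))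
  · exact Or.inr (Or.inl (Prod.ext c1 c2))
  · exact Or.inr (Or.inr (Or.inr (Prod.ext c1 c2)))

theorem jor199_dist_pt (d : ℝ) (p : ℝ × ℝ) (v : ℤ × ℤ) :
    dist p (jor199Pt d v) = max |p.1 - d * v.1| |p.2 - d * v.2| := by
  rw [Prod.dist_eq, Real.dist_eq, Real.dist_eq]; rfl

/-- **every frontier point is within `d / 2` (sup metric) of a wall corner** -/
theorem jor199_frontier_near_wall {d : ℝ} (hd : 0 < d) (F : Finset (ℤ × ℤ)) {p : ℝ × ℝ}
    (hp : p ∈ frontier (faceRegionSq d F)) : ∃ v ∈ jor199Wall F, dist p (jor199Pt d v) ≤ d / 2 := by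
  obtain ⟨⟨f, hfF, hpf⟩, g, hgF, hpg⟩ := (jor199_frontier_iff hd F p).1 hp
  obtain ⟨⟨a1, a2⟩, a3, a4⟩ := hpf
  obtain ⟨⟨b1, b2⟩, b3, b4⟩ := hpg
  obtain ⟨c1, hf1, hg1, hc1, -⟩ := jor199_coord hd a1 a2 b1 b2
  obtain ⟨c2, hf2, hg2, hc2, -⟩ := jor199_coord hd a3 a4 b3 b4
  refine ⟨(c1, c2), (jor199_wall_iff F _).2 ⟨⟨f, jor199_inc_of_coords hf1 hf2, hfF⟩,
    g, jor199_inc_of_coords hg1 hg2, hgF⟩, ?_⟩
  rw [jor199_dist_pt]
  exact max_le hc1 hc2

/-! ### the wall is nearest-neighbour connected along boundary edges -/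

/-- the horizontal edge from `v` to `v + (1,0)` is a boundary edge: exactly one of the faces above / below is in `F` -/
def jor199BdH (F : Finset (ℤ × ℤ)) (v : ℤ × ℤ) : Prop :=
  (v ∈ F ∧ (v.1, v.2 - 1) ∉ F) ∨ (v ∉ F ∧ (v.1, v.2 - 1) ∈ F)

/-- the vertical edge from `v` to `v + (0,1)` is a boundary edge: exactly one of the faces right / left is in `F` -/
def jor199BdV (F : Finset (ℤ × ℤ)) (v : ℤ × ℤ) : Prop :=
  (v ∈ F ∧ (v.1 - 1, v.2) ∉ F) ∨ (v ∉ F ∧ (v.1 - 1, v.2) ∈ F)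

/-- `v` and `w` are the two endpoints of a boundary edge -/
def jor199WallAdj (F : Finset (ℤ × ℤ)) (v w : ℤ × ℤ) : Prop :=
  (w = (v.1 + 1, v.2) ∧ jor199BdH F v) ∨ (w = (v.1, v.2 + 1) ∧ jor199BdV F v) ∨
    (v = (w.1 + 1, w.2) ∧ jor199BdH F w) ∨ (v = (w.1, w.2 + 1) ∧ jor199BdV F w)

theorem jor199_wallAdj_symm {F : Finset (ℤ × ℤ)} {v w : ℤ × ℤ} (h : jor199WallAdj F v w) : jor199WallAdj F w v := by
  rcases h with h | h | h | h
  · exact Or.inr (Or.inr (Or.inl h))
  · exact Or.inr (Or.inr (Or.inr h))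
  · exact Or.inl h
  · exact Or.inr (Or.inl h)

theorem jor199_bdH_wall {F : Finset (ℤ × ℤ)} {v : ℤ × ℤ} (h : jor199BdH F v) :
    v ∈ jor199Wall F ∧ (v.1 + 1, v.2) ∈ jor199Wall F := by
  have i1 : jor199Inc v v := Or.inl rfl
  have i2 : jor199Inc v (v.1, v.2 - 1) := Or.inr (Or.inr (Or.inl rfl))
  have i3 : jor199Inc (v.1 + 1, v.2) v := Or.inr (Or.inl (by ext <;> simp))
  have i4 : jor199Inc (v.1 + 1, v.2) (v.1, v.2 - 1) := Or.inr (Or.inr (Or.inr (by ext <;> simp)))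
  rw [jor199_wall_iff, jor199_wall_iff]
  rcases h with ⟨h1, h2⟩ | ⟨h1, h2⟩
  · exact ⟨⟨⟨_, i1, h1⟩, _, i2, h2⟩, ⟨_, i3, h1⟩, _, i4, h2⟩
  · exact ⟨⟨⟨_, i2, h2⟩, _, i1, h1⟩, ⟨_, i4, h2⟩, _, i3, h1⟩

theorem jor199_bdV_wall {F : Finset (ℤ × ℤ)} {v : ℤ × ℤ} (h : jor199BdV F v) :
    v ∈ jor199Wall F ∧ (v.1, v.2 + 1) ∈ jor199Wall F := by
  have i1 : jor199Inc v v := Or.inl rfl
  have i2 : jor199Inc v (v.1 - 1, v.2) := Or.inr (Or.inl rfl)
  have i3 : jor199Inc (v.1, v.2 + 1) v := Or.inr (Or.inr (Or.inl (by ext <;> simp)))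
  have i4 : jor199Inc (v.1, v.2 + 1) (v.1 - 1, v.2) := Or.inr (Or.inr (Or.inr (by ext <;> simp)))
  rw [jor199_wall_iff, jor199_wall_iff]
  rcases h with ⟨h1, h2⟩ | ⟨h1, h2⟩
  · exact ⟨⟨⟨_, i1, h1⟩, _, i2, h2⟩, ⟨_, i3, h1⟩, _, i4, h2⟩
  · exact ⟨⟨⟨_, i2, h2⟩, _, i1, h1⟩, ⟨_, i4, h2⟩, _, i3, h1⟩

theorem jor199_wallAdj_wall {F : Finset (ℤ × ℤ)} {v w : ℤ × ℤ} (h : jor199WallAdj F v w) :
    v ∈ jor199Wall F ∧ w ∈ jor199Wall F := by
  rcases h with ⟨rfl, h⟩ | ⟨rfl, h⟩ | ⟨rfl, h⟩ | ⟨rfl, h⟩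
  · exact jor199_bdH_wall h
  · exact jor199_bdV_wall h
  · exact (jor199_bdH_wall h).symm
  · exact (jor199_bdV_wall h).symm

/-- endpoints of a boundary edge are at sup distance `d` -/
theorem jor199_wallAdj_dist {d : ℝ} (hd : 0 < d) {F : Finset (ℤ × ℤ)} {v w : ℤ × ℤ} (h : jor199WallAdj F v w) :
    dist (jor199Pt d v) (jor199Pt d w) = d := by
  rw [jor199_dist_pt]
  unfold jor199Pt
  rcases h with ⟨rfl, -⟩ | ⟨rfl, -⟩ | ⟨rfl, -⟩ | ⟨rfl, -⟩ <;> push_cast
  · have e1 : d * (v.1 : ℝ) - d * ((v.1 : ℝ) + 1) = -d := by ring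
    rw [e1, sub_self, abs_zero, abs_neg, abs_of_pos hd]; exact max_eq_left hd.le
  · have e1 : d * (v.2 : ℝ) - d * ((v.2 : ℝ) + 1) = -d := by ring
    rw [e1, sub_self, abs_zero, abs_neg, abs_of_pos hd]; exact max_eq_right hd.le
  · have e1 : d * ((w.1 : ℝ) + 1) - d * (w.1 : ℝ) = d := by ring
    rw [e1, sub_self, abs_zero, abs_of_pos hd]; exact max_eq_left hd.le
  · have e1 : d * ((w.2 : ℝ) + 1) - d * (w.2 : ℝ) = d := by ring
    rw [e1, sub_self, abs_zero, abs_of_pos hd]; exact max_eq_right hd.le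

theorem jor199_mid {d : ℝ} (hd : 0 < d) {a b : ℤ} {t : ℝ} (h1 : |t - d * a| ≤ d / 2) (h2 : |t - d * b| ≤ d / 2)
    (hne : a ≠ b) : (b = a + 1 ∧ t = d * a + d / 2) ∨ (a = b + 1 ∧ t = d * b + d / 2) := by
  rw [abs_le] at h1 h2
  have h3 : d * ((a : ℝ) - b) ≤ d * 1 := by nlinarith
  have h4 : d * ((b : ℝ) - a) ≤ d * 1 := by nlinarith
  have h5 : (a : ℝ) - b ≤ 1 := le_of_mul_le_mul_left h3 hd
  have h6 : (b : ℝ) - a ≤ 1 := le_of_mul_le_mul_left h4 hd
  have h7 : a - b ≤ 1 := by exact_mod_cast h5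
  have h8 : b - a ≤ 1 := by exact_mod_cast h6
  rcases lt_or_gt_of_ne hne with h | h
  · have hb : b = a + 1 := by omega
    refine Or.inl ⟨hb, ?_⟩
    subst hb
    push_cast at h2
    nlinarith
  · have ha : a = b + 1 := by omega
    refine Or.inr ⟨ha, ?_⟩
    subst ha
    push_cast at h1
    nlinarith

theorem jor199_cell_of_mid {d : ℝ} (hd : 0 < d) {a c : ℤ} {t : ℝ} (ht : t = d * a + d / 2) (h1 : d * c ≤ t)
    (h2 : t ≤ d * (c + 1)) : c = a := by
  subst ht
  have h3 : d * (c : ℝ) < d * ((a : ℝ) + 1) := by nlinarith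
  have h4 : d * (a : ℝ) < d * ((c : ℝ) + 1) := by nlinarith
  have h5 : (c : ℝ) < (a : ℝ) + 1 := lt_of_mul_lt_mul_left h3 hd.le
  have h6 : (a : ℝ) < (c : ℝ) + 1 := lt_of_mul_lt_mul_left h4 hd.le
  have h7 : c < a + 1 := by exact_mod_cast h5
  have h8 : a < c + 1 := by exact_mod_cast h6
  omega

theorem jor199_eq_of_lattice {d : ℝ} (hd : 0 < d) {a c : ℤ} {t : ℝ} (ht : t = d * c) (h1 : |t - d * a| ≤ d / 2) :
    c = a := by
  subst ht
  rw [abs_le] at h1
  have h3 : d * (c : ℝ) < d * ((a : ℝ) + 1) := by nlinarith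
  have h4 : d * (a : ℝ) < d * ((c : ℝ) + 1) := by nlinarith
  have h5 : (c : ℝ) < (a : ℝ) + 1 := lt_of_mul_lt_mul_left h3 hd.le
  have h6 : (a : ℝ) < (c : ℝ) + 1 := lt_of_mul_lt_mul_left h4 hd.le
  have h7 : c < a + 1 := by exact_mod_cast h5
  have h8 : a < c + 1 := by exact_mod_cast h6
  omega

/-- vertical case of `jor199_adj_of_near` -/
theorem jor199_bdV_of_near {d : ℝ} (hd : 0 < d) (F : Finset (ℤ × ℤ)) {p : ℝ × ℝ}
    (hp : p ∈ frontier (faceRegionSq d F)) {v : ℤ × ℤ} (h1 : |p.1 - d * v.1| ≤ d / 2) (h2 : p.2 = d * v.2 + d / 2) :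
    jor199BdV F v := by
  obtain ⟨⟨f, hfF, hpf⟩, g, hgF, hpg⟩ := (jor199_frontier_iff hd F p).1 hp
  obtain ⟨⟨a1, a2⟩, a3, a4⟩ := hpf
  obtain ⟨⟨b1, b2⟩, b3, b4⟩ := hpg
  have hf2 : f.2 = v.2 := jor199_cell_of_mid hd h2 a3 a4
  have hg2 : g.2 = v.2 := jor199_cell_of_mid hd h2 b3 b4
  have hne : f.1 ≠ g.1 := fun h => hgF ((Prod.ext h (hf2.trans hg2.symm) : f = g) ▸ hfF)
  obtain ⟨c, hf1, hg1, -, hc⟩ := jor199_coord hd a1 a2 b1 b2
  have hcv : c = v.1 := jor199_eq_of_lattice hd (hc hne) h1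
  subst hcv
  rcases hf1 with hf1 | hf1 <;> rcases hg1 with hg1 | hg1
  · exact absurd (hf1.trans hg1.symm) hne
  · have ef : f = v := Prod.ext hf1 hf2
    have eg : g = (v.1 - 1, v.2) := Prod.ext hg1 hg2
    exact Or.inl ⟨ef ▸ hfF, eg ▸ hgF⟩
  · have ef : f = (v.1 - 1, v.2) := Prod.ext hf1 hf2
    have eg : g = v := Prod.ext hg1 hg2
    exact Or.inr ⟨eg ▸ hgF, ef ▸ hfF⟩
  · exact absurd (hf1.trans hg1.symm) hne

/-- horizontal case of `jor199_adj_of_near` -/
theorem jor199_bdH_of_near {d : ℝ} (hd : 0 < d) (F : Finset (ℤ × ℤ)) {p : ℝ × ℝ}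
    (hp : p ∈ frontier (faceRegionSq d F)) {v : ℤ × ℤ} (h1 : p.1 = d * v.1 + d / 2) (h2 : |p.2 - d * v.2| ≤ d / 2) :
    jor199BdH F v := by
  obtain ⟨⟨f, hfF, hpf⟩, g, hgF, hpg⟩ := (jor199_frontier_iff hd F p).1 hp
  obtain ⟨⟨a1, a2⟩, a3, a4⟩ := hpf
  obtain ⟨⟨b1, b2⟩, b3, b4⟩ := hpg
  have hf1 : f.1 = v.1 := jor199_cell_of_mid hd h1 a1 a2
  have hg1 : g.1 = v.1 := jor199_cell_of_mid hd h1 b1 b2
  have hne : f.2 ≠ g.2 := fun h => hgF ((Prod.ext (hf1.trans hg1.symm) h : f = g) ▸ hfF)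
  obtain ⟨c, hf2, hg2, -, hc⟩ := jor199_coord hd a3 a4 b3 b4
  have hcv : c = v.2 := jor199_eq_of_lattice hd (hc hne) h2
  subst hcv
  rcases hf2 with hf2 | hf2 <;> rcases hg2 with hg2 | hg2
  · exact absurd (hf2.trans hg2.symm) hne
  · have ef : f = v := Prod.ext hf1 hf2
    have eg : g = (v.1, v.2 - 1) := Prod.ext hg1 hg2
    exact Or.inl ⟨ef ▸ hfF, eg ▸ hgF⟩
  · have ef : f = (v.1, v.2 - 1) := Prod.ext hf1 hf2
    have eg : g = v := Prod.ext hg1 hg2
    exact Or.inr ⟨eg ▸ hgF, ef ▸ hfF⟩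
  · exact absurd (hf2.trans hg2.symm) hne

/-- no frontier point at the centre of a face -/
theorem jor199_not_centre {d : ℝ} (hd : 0 < d) (F : Finset (ℤ × ℤ)) {p : ℝ × ℝ}
    (hp : p ∈ frontier (faceRegionSq d F)) {a b : ℤ} (h1 : p.1 = d * a + d / 2) (h2 : p.2 = d * b + d / 2) : False := by
  obtain ⟨⟨f, hfF, hpf⟩, g, hgF, hpg⟩ := (jor199_frontier_iff hd F p).1 hp
  obtain ⟨⟨a1, a2⟩, a3, a4⟩ := hpf
  obtain ⟨⟨b1, b2⟩, b3, b4⟩ := hpg
  have e : f = g := Prod.ext ((jor199_cell_of_mid hd h1 a1 a2).trans (jor199_cell_of_mid hd h1 b1 b2).symm)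
    ((jor199_cell_of_mid hd h2 a3 a4).trans (jor199_cell_of_mid hd h2 b3 b4).symm)
  exact hgF (e ▸ hfF)

/-- two distinct lattice points within `d / 2` of the same frontier point are the endpoints of a boundary edge -/
theorem jor199_adj_of_near {d : ℝ} (hd : 0 < d) (F : Finset (ℤ × ℤ)) {p : ℝ × ℝ}
    (hp : p ∈ frontier (faceRegionSq d F)) {v w : ℤ × ℤ} (hv : dist p (jor199Pt d v) ≤ d / 2)
    (hw : dist p (jor199Pt d w) ≤ d / 2) (hne : v ≠ w) : jor199WallAdj F v w := by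
  rw [jor199_dist_pt, max_le_iff] at hv hw
  obtain ⟨v1, v2⟩ := hv
  obtain ⟨w1, w2⟩ := hw
  by_cases e1 : v.1 = w.1
  · have e2 : v.2 ≠ w.2 := fun h => hne (Prod.ext e1 h)
    rcases jor199_mid hd v2 w2 e2 with ⟨h, ht⟩ | ⟨h, ht⟩
    · exact Or.inr (Or.inl ⟨Prod.ext e1.symm h, jor199_bdV_of_near hd F hp v1 ht⟩)
    · exact Or.inr (Or.inr (Or.inr ⟨Prod.ext e1 h, jor199_bdV_of_near hd F hp w1 ht⟩))
  · by_cases e2 : v.2 = w.2
    · rcases jor199_mid hd v1 w1 e1 with ⟨h, ht⟩ | ⟨h, ht⟩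
      · exact Or.inl ⟨Prod.ext h e2.symm, jor199_bdH_of_near hd F hp ht v2⟩
      · exact Or.inr (Or.inr (Or.inl ⟨Prod.ext h e2, jor199_bdH_of_near hd F hp ht w2⟩))
    · exfalso
      rcases jor199_mid hd v1 w1 e1 with ⟨-, ht⟩ | ⟨-, ht⟩ <;> rcases jor199_mid hd v2 w2 e2 with ⟨-, hs⟩ | ⟨-, hs⟩ <;>
        exact jor199_not_centre hd F hp ht hs

/-- **The wall is connected along boundary edges** as soon as the frontier of the face region is connected. -/
theorem jor199_wall_conn {d : ℝ} (hd : 0 < d) (F : Finset (ℤ × ℤ))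
    (hc : IsPreconnected (frontier (faceRegionSq d F))) (S : Set (ℤ × ℤ)) {v0 : ℤ × ℤ} (h0 : v0 ∈ jor199Wall F)
    (h0S : v0 ∈ S) (hS : ∀ v w, jor199WallAdj F v w → v ∈ S → w ∈ S) : ∀ w ∈ jor199Wall F, w ∈ S := by
  intro w0 hw0
  by_contra hw0S
  set t : Set (ℝ × ℝ) := ⋃ v ∈ jor199Wall F ∩ S, Metric.closedBall (jor199Pt d v) (d / 2) with ht
  set t' : Set (ℝ × ℝ) := ⋃ v ∈ jor199Wall F \ S, Metric.closedBall (jor199Pt d v) (d / 2) with ht'
  have hct : IsClosed t := ((jor199_wall_finite F).subset Set.inter_subset_left).isClosed_biUnion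
    fun _ _ => Metric.isClosed_closedBall
  have hct' : IsClosed t' := ((jor199_wall_finite F).subset Set.sdiff_subset).isClosed_biUnion
    fun _ _ => Metric.isClosed_closedBall
  have hcov : frontier (faceRegionSq d F) ⊆ t ∪ t' := by
    intro p hp
    obtain ⟨v, hv, hpv⟩ := jor199_frontier_near_wall hd F hp
    by_cases hvS : v ∈ S
    · exact Or.inl (Set.mem_biUnion (⟨hv, hvS⟩ : v ∈ jor199Wall F ∩ S) (Metric.mem_closedBall.2 hpv))
    · exact Or.inr (Set.mem_biUnion (⟨hv, hvS⟩ : v ∈ jor199Wall F \ S) (Metric.mem_closedBall.2 hpv))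
  have hd2 : 0 ≤ d / 2 := by positivity
  have n1 : (frontier (faceRegionSq d F) ∩ t).Nonempty :=
    ⟨jor199Pt d v0, jor199_wall_mem_frontier hd h0,
      Set.mem_biUnion (⟨h0, h0S⟩ : v0 ∈ jor199Wall F ∩ S) (Metric.mem_closedBall_self hd2)⟩
  have n2 : (frontier (faceRegionSq d F) ∩ t').Nonempty :=
    ⟨jor199Pt d w0, jor199_wall_mem_frontier hd hw0,
      Set.mem_biUnion (⟨hw0, hw0S⟩ : w0 ∈ jor199Wall F \ S) (Metric.mem_closedBall_self hd2)⟩
  obtain ⟨p, hp, hpt, hpt'⟩ := isPreconnected_closed_iff.1 hc t t' hct hct' hcov n1 n2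
  simp only [ht, ht', Set.mem_iUnion, exists_prop, Metric.mem_closedBall] at hpt hpt'
  obtain ⟨v, ⟨-, hvS⟩, hpv⟩ := hpt
  obtain ⟨w, ⟨-, hwS⟩, hpw⟩ := hpt'
  have hne : v ≠ w := fun h => hwS (h ▸ hvS)
  exact hwS (hS v w (jor199_adj_of_near hd F hp hpv hpw hne) hvS)

/-- **discrete intermediate value along the wall**: a connected wall that has a corner at distance `≤ r` from `z` and a corner at
distance `≥ r` has a corner at distance in `[r, r + d]`: the wall crosses every annulus. -/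
theorem jor199_wall_cross {d : ℝ} (hd : 0 < d) (F : Finset (ℤ × ℤ))
    (hc : IsPreconnected (frontier (faceRegionSq d F))) (z : ℝ × ℝ) (r : ℝ) {v0 v1 : ℤ × ℤ}
    (h0 : v0 ∈ jor199Wall F) (h1 : v1 ∈ jor199Wall F) (hr0 : dist (jor199Pt d v0) z ≤ r)
    (hr1 : r ≤ dist (jor199Pt d v1) z) :
    ∃ v ∈ jor199Wall F, r ≤ dist (jor199Pt d v) z ∧ dist (jor199Pt d v) z ≤ r + d := by
  by_contra hcon
  have hcon' : ∀ v ∈ jor199Wall F, r ≤ dist (jor199Pt d v) z → r + d < dist (jor199Pt d v) z := fun v hv h =>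
    not_le.1 fun h' => hcon ⟨v, hv, h, h'⟩
  have h0' : dist (jor199Pt d v0) z < r := by
    rcases hr0.lt_or_eq with h | h
    · exact h
    · exact absurd (hcon' v0 h0 h.ge) (by rw [h]; linarith)
  have hall := jor199_wall_conn hd F hc {v | dist (jor199Pt d v) z < r} h0 h0' (fun v w hvw hv => by
    by_contra hw
    have hw' : r ≤ dist (jor199Pt d w) z := not_lt.1 hw
    have h2 := hcon' w (jor199_wallAdj_wall hvw).2 hw'
    have h3 : dist (jor199Pt d w) z ≤ dist (jor199Pt d w) (jor199Pt d v) + dist (jor199Pt d v) z := dist_triangle _ _ _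
    rw [jor199_wallAdj_dist hd (jor199_wallAdj_symm hvw)] at h3
    have hv' : dist (jor199Pt d v) z < r := hv
    linarith) v1 h1
  exact absurd hr1 (not_le.2 hall)

/-! ### convergence of the frontiers, depths -/

theorem jor199_dist_lt_of_sq {p q : ℝ × ℝ} {ε : ℝ} (hε : 0 < ε) (h : (p.1 - q.1) ^ 2 + (p.2 - q.2) ^ 2 < ε ^ 2) :
    dist p q < ε := by
  rw [Prod.dist_eq, Real.dist_eq, Real.dist_eq, max_lt_iff]
  exact ⟨abs_lt_of_sq_lt_sq (by nlinarith [sq_nonneg (p.2 - q.2)]) hε.le,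
    abs_lt_of_sq_lt_sq (by nlinarith [sq_nonneg (p.1 - q.1)]) hε.le⟩

/-- two ranges that are uniformly `ε`-close have `ε`-close distance functions -/
theorem jor199_infDist_close {ι : Type*} [Nonempty ι] {a b : ι → ℝ × ℝ} {ε : ℝ} (h : ∀ c, dist (a c) (b c) ≤ ε)
    (z : ℝ × ℝ) : |Metric.infDist z (Set.range a) - Metric.infDist z (Set.range b)| ≤ ε := by
  have key : ∀ a b : ι → ℝ × ℝ, (∀ c, dist (a c) (b c) ≤ ε) →
      Metric.infDist z (Set.range a) - ε ≤ Metric.infDist z (Set.range b) := by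
    intro a b h
    refine (Metric.le_infDist (Set.range_nonempty b)).2 ?_
    rintro _ ⟨c, rfl⟩
    have h1 : Metric.infDist z (Set.range a) ≤ dist z (a c) := Metric.infDist_le_dist_of_mem (Set.mem_range_self c)
    have h2 : dist z (a c) ≤ dist z (b c) + dist (b c) (a c) := dist_triangle _ _ _
    have h3 := h c
    rw [dist_comm] at h3
    linarith
  rw [abs_le]
  constructor
  · have := key b a (fun c => by rw [dist_comm]; exact h c)
    linarith
  · have := key a b h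
    linarith

/-- **the depth functions of the approximating regions converge uniformly to the depth function of `D`** (sup metric, as `limDep`) -/
theorem jor199_dep_close {D : Set (ℝ × ℝ)} {δ : ℕ → ℝ} {F : ℕ → Finset (ℤ × ℤ)} (happ : IsAdmissibleApprox D δ F)
    {ε : ℝ} (hε : 0 < ε) : ∀ᶠ n in atTop, ∀ z : ℝ × ℝ,
      |Metric.infDist z (frontier (faceRegionSq (δ n) (F n))) - Metric.infDist z (frontier D)| ≤ ε := by
  obtain ⟨-, -, -, γ, γs, -, -, hγ, hγs, hclose⟩ := happ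
  filter_upwards [hclose ε hε] with n hn z
  rw [← hγ, ← (hγs n).2.2]
  exact jor199_infDist_close (fun c => (jor199_dist_lt_of_sq hε (hn c)).le) z

/-- Hausdorff closeness of the frontiers, pointwise form -/
theorem jor199_frontier_close {D : Set (ℝ × ℝ)} {δ : ℕ → ℝ} {F : ℕ → Finset (ℤ × ℤ)} (happ : IsAdmissibleApprox D δ F)
    {ε : ℝ} (hε : 0 < ε) : ∀ᶠ n in atTop,
      (∀ p ∈ frontier (faceRegionSq (δ n) (F n)), ∃ q ∈ frontier D, dist p q < ε) ∧
        ∀ q ∈ frontier D, ∃ p ∈ frontier (faceRegionSq (δ n) (F n)), dist p q < ε := by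
  obtain ⟨-, -, -, γ, γs, -, -, hγ, hγs, hclose⟩ := happ
  filter_upwards [hclose ε hε] with n hn
  rw [← hγ, ← (hγs n).2.2]
  constructor
  · rintro _ ⟨c, rfl⟩
    exact ⟨γ c, Set.mem_range_self c, jor199_dist_lt_of_sq hε (hn c)⟩
  · rintro _ ⟨c, rfl⟩
    exact ⟨γs n c, Set.mem_range_self c, jor199_dist_lt_of_sq hε (hn c)⟩

/-- a bounded open set lies in every closed ball that contains its frontier -/
theorem jor199_subset_ball_of_frontier {Ω : Set (ℝ × ℝ)} (ho : IsOpen Ω) (hb : Bornology.IsBounded Ω) {c : ℝ × ℝ}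
    {R : ℝ} (hf : frontier Ω ⊆ Metric.closedBall c R) : Ω ⊆ Metric.closedBall c R := by
  intro x hx
  by_contra hxR
  have hcomp : IsCompact (closure Ω) := hb.isCompact_closure
  obtain ⟨p, hp, hmax⟩ := hcomp.exists_isMaxOn ⟨x, subset_closure hx⟩
    (continuous_id.dist continuous_const : Continuous fun y : ℝ × ℝ => dist y c).continuousOn
  have hpx : dist x c ≤ dist p c := hmax (subset_closure hx)
  have hxR' : R < dist x c := by
    rw [Metric.mem_closedBall] at hxR; exact not_le.1 hxR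
  have hpΩ : p ∈ Ω := by
    by_contra hpn
    have : p ∈ frontier Ω := by rw [ho.frontier_eq]; exact ⟨hp, hpn⟩
    have := Metric.mem_closedBall.1 (hf this)
    linarith
  have hR0 : 0 < dist p c := by
    rcases lt_or_ge R 0 with h | h
    · -- the frontier is empty, impossible for a nonempty bounded open set: use the maximiser directly
      rcases (dist_nonneg : 0 ≤ dist p c).lt_or_eq with h' | h'
      · exact h'
      · exfalso
        obtain ⟨η, hη, hball⟩ := Metric.isOpen_iff.1 ho p hpΩ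
        have hq : p + ((η / 2, 0) : ℝ × ℝ) ∈ Ω := hball (by
          rw [Metric.mem_ball, dist_eq_norm, add_sub_cancel_left, Prod.norm_def]
          simp only [norm_zero, Real.norm_eq_abs]
          rw [abs_of_pos (by positivity : 0 < η / 2), max_eq_left (by positivity)]
          linarith)
        have h1 : dist (p + ((η / 2, 0) : ℝ × ℝ)) c ≤ dist p c := hmax (subset_closure hq)
        have hpc : p = c := dist_eq_zero.1 h'.symm
        rw [← h', hpc, dist_eq_norm, add_sub_cancel_left, Prod.norm_def] at h1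
        simp only [norm_zero, Real.norm_eq_abs] at h1
        rw [abs_of_pos (by positivity : 0 < η / 2), max_eq_left (by positivity)] at h1
        linarith
    · linarith
  obtain ⟨η, hη, hball⟩ := Metric.isOpen_iff.1 ho p hpΩ
  set s : ℝ := η / (2 * dist p c) with hs
  have hs0 : 0 < s := by positivity
  have hq : p + s • (p - c) ∈ Ω := hball (by
    rw [Metric.mem_ball, dist_eq_norm, add_sub_cancel_left, norm_smul, Real.norm_eq_abs, abs_of_pos hs0,
      ← dist_eq_norm, hs]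
    have : η / (2 * dist p c) * dist p c = η / 2 := by field_simp
    rw [this]; linarith)
  have h1 : dist (p + s • (p - c)) c ≤ dist p c := hmax (subset_closure hq)
  have h2 : dist (p + s • (p - c)) c = (1 + s) * dist p c := by
    rw [dist_eq_norm, dist_eq_norm]
    have : p + s • (p - c) - c = (1 + s) • (p - c) := by
      rw [add_smul, one_smul]; abel
    rw [this, norm_smul, Real.norm_eq_abs, abs_of_pos (by linarith)]
  rw [h2] at h1
  nlinarith

theorem jor199_region_bounded (d : ℝ) (F : Finset (ℤ × ℤ)) : Bornology.IsBounded (faceRegionSq d F) := by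
  rw [at30_region_eq]
  refine Bornology.IsBounded.subset ?_ interior_subset
  refine (Bornology.isBounded_biUnion F.finite_toSet).2 fun f _ => ?_
  exact (Metric.isBounded_Icc _ _).prod (Metric.isBounded_Icc _ _)

/-- **the approximating regions lie eventually in one fixed ball** -/
theorem jor199_region_in_ball {D : Set (ℝ × ℝ)} (hDb : Bornology.IsBounded D) {δ : ℕ → ℝ} {F : ℕ → Finset (ℤ × ℤ)}
    (happ : IsAdmissibleApprox D δ F) : ∃ R : ℝ, 0 < R ∧ ∀ᶠ n in atTop,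
      closure (faceRegionSq (δ n) (F n)) ⊆ Metric.closedBall (0 : ℝ × ℝ) R := by
  obtain ⟨R, hR⟩ := (hDb.closure.subset (frontier_subset_closure)).subset_closedBall (0 : ℝ × ℝ)
  refine ⟨|R| + 1, by positivity, ?_⟩
  filter_upwards [jor199_frontier_close happ one_pos] with n hn
  refine closure_minimal ?_ Metric.isClosed_closedBall
  refine jor199_subset_ball_of_frontier (jor199_isOpen_region _ _) (jor199_region_bounded _ _) ?_
  intro p hp
  obtain ⟨q, hq, hpq⟩ := hn.1 p hp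
  have h1 := Metric.mem_closedBall.1 (hR hq)
  rw [Metric.mem_closedBall]
  have h2 : dist p 0 ≤ dist p q + dist q 0 := dist_triangle _ _ _
  have h3 := le_abs_self R
  linarith

/-! ### the wall of an admissible approximation: near every boundary point, macroscopic, crossing every annulus -/

theorem jor199_mesh_small {D : Set (ℝ × ℝ)} {δ : ℕ → ℝ} {F : ℕ → Finset (ℤ × ℤ)} (happ : IsAdmissibleApprox D δ F)
    {ε : ℝ} (hε : 0 < ε) : ∀ᶠ n in atTop, 0 < δ n ∧ δ n < ε := by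
  filter_upwards [happ.2.1.eventually (gt_mem_nhds hε)] with n hn
  exact ⟨happ.1 n, hn⟩

theorem jor199_frontier_nonempty {D : Set (ℝ × ℝ)} {δ : ℕ → ℝ} {F : ℕ → Finset (ℤ × ℤ)}
    (happ : IsAdmissibleApprox D δ F) : (frontier D).Nonempty := by
  obtain ⟨-, -, -, γ, γs, -, -, hγ, -, -⟩ := happ
  rw [← hγ]; exact Set.range_nonempty γ

/-- the wall comes as close to `z` as the frontier of `D`, up to `ε`, uniformly in `z` -/
theorem jor199_wall_near {D : Set (ℝ × ℝ)} {δ : ℕ → ℝ} {F : ℕ → Finset (ℤ × ℤ)} (happ : IsAdmissibleApprox D δ F)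
    {ε : ℝ} (hε : 0 < ε) : ∀ᶠ n in atTop, ∀ z : ℝ × ℝ, ∃ v ∈ jor199Wall (F n),
      dist (jor199Pt (δ n) v) z ≤ Metric.infDist z (frontier D) + ε := by
  have h3 : 0 < ε / 3 := by positivity
  filter_upwards [jor199_frontier_close happ h3, jor199_mesh_small happ h3] with n hn hδ z
  obtain ⟨q, hq, hzq⟩ := (Metric.infDist_lt_iff (jor199_frontier_nonempty happ)).1
    (show Metric.infDist z (frontier D) < Metric.infDist z (frontier D) + ε / 3 by linarith)
  obtain ⟨p, hp, hpq⟩ := hn.2 q hq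
  obtain ⟨v, hv, hpv⟩ := jor199_frontier_near_wall hδ.1 (F n) hp
  refine ⟨v, hv, ?_⟩
  have t1 : dist (jor199Pt (δ n) v) z ≤ dist (jor199Pt (δ n) v) p + dist p z := dist_triangle _ _ _
  have t2 : dist p z ≤ dist p q + dist q z := dist_triangle _ _ _
  rw [dist_comm] at hpv
  rw [dist_comm] at hzq
  linarith [hδ.2]

/-- the wall is macroscopic: it has a corner at distance `≥ r0` from every point -/
theorem jor199_wall_far {D : Set (ℝ × ℝ)} {δ : ℕ → ℝ} {F : ℕ → Finset (ℤ × ℤ)} (happ : IsAdmissibleApprox D δ F) :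
    ∃ r0 : ℝ, 0 < r0 ∧ ∀ᶠ n in atTop, ∀ z : ℝ × ℝ, ∃ v ∈ jor199Wall (F n), r0 ≤ dist (jor199Pt (δ n) v) z := by
  obtain ⟨-, -, -, γ, γs, -, hinj, hγ, -, -⟩ := id happ
  have hne : γ 1 ≠ γ (-1) := fun h => by
    have h1 : (1 : Circle) = -1 := hinj h
    have h2 : ((1 : Circle) : ℂ) = ((-1 : Circle) : ℂ) := congrArg _ h1
    simp only [Circle.coe_one, Circle.coe_neg] at h2
    norm_num at h2
  set r0 : ℝ := dist (γ 1) (γ (-1)) / 4 with hr0
  have hr : 0 < r0 := by have := dist_pos.2 hne; positivity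
  have h2 : 0 < r0 / 2 := by positivity
  refine ⟨r0, hr, ?_⟩
  filter_upwards [jor199_frontier_close happ h2, jor199_mesh_small happ h2] with n hn hδ z
  have hex : ∃ q ∈ frontier D, 2 * r0 ≤ dist q z := by
    by_contra hcon
    have ha : dist (γ 1) z < 2 * r0 := not_le.1 fun h => hcon ⟨γ 1, hγ ▸ Set.mem_range_self _, h⟩
    have hb : dist (γ (-1)) z < 2 * r0 := not_le.1 fun h => hcon ⟨γ (-1), hγ ▸ Set.mem_range_self _, h⟩
    have t : dist (γ 1) (γ (-1)) ≤ dist (γ 1) z + dist z (γ (-1)) := dist_triangle _ _ _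
    rw [dist_comm z] at t
    have : dist (γ 1) (γ (-1)) = 4 * r0 := by rw [hr0]; ring
    linarith
  obtain ⟨q, hq, hqz⟩ := hex
  obtain ⟨p, hp, hpq⟩ := hn.2 q hq
  obtain ⟨v, hv, hpv⟩ := jor199_frontier_near_wall hδ.1 (F n) hp
  refine ⟨v, hv, ?_⟩
  have t1 : dist q z ≤ dist q p + dist p z := dist_triangle _ _ _
  have t2 : dist p z ≤ dist p (jor199Pt (δ n) v) + dist (jor199Pt (δ n) v) z := dist_triangle _ _ _
  rw [dist_comm] at hpq
  linarith [hδ.2]

/-- **THE WALL CROSSES EVERY ANNULUS** between the depth of `z` and a fixed macroscopic radius `r0`, uniformly in `z`: geometric input of the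
boundary decay (attached circuits at every scale between `r` and `R`). -/
theorem jor199_annulus {D : Set (ℝ × ℝ)} {δ : ℕ → ℝ} {F : ℕ → Finset (ℤ × ℤ)} (happ : IsAdmissibleApprox D δ F) :
    ∃ r0 : ℝ, 0 < r0 ∧ ∀ ε : ℝ, 0 < ε → ∀ᶠ n in atTop, ∀ (z : ℝ × ℝ) (r : ℝ),
      Metric.infDist z (frontier D) + ε ≤ r → r ≤ r0 →
        ∃ v ∈ jor199Wall (F n), r ≤ dist (jor199Pt (δ n) v) z ∧ dist (jor199Pt (δ n) v) z ≤ r + δ n := by
  obtain ⟨r0, hr0, hfar⟩ := jor199_wall_far happ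
  refine ⟨r0, hr0, fun ε hε => ?_⟩
  filter_upwards [hfar, jor199_wall_near happ hε] with n h1 h2 z r hr hrr
  obtain ⟨v0, hv0, hd0⟩ := h2 z
  obtain ⟨v1, hv1, hd1⟩ := h1 z
  exact jor199_wall_cross (at30_of_approx happ n).1 (F n) (at30_of_approx happ n).2 z r hv0 hv1 (hd0.trans hr)
    (hrr.trans hd1)

/-! ### deep points -/

/-- a ball around a point of an open set that does not reach the frontier stays in the set -/
theorem jor199_ball_subset {Ω : Set (ℝ × ℝ)} (ho : IsOpen Ω) {z : ℝ × ℝ} (hz : z ∈ Ω) {r : ℝ}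
    (hr : r ≤ Metric.infDist z (frontier Ω)) : Metric.ball z r ⊆ Ω := by
  intro y hy
  by_contra hyΩ
  have hr0 : 0 < r := lt_of_le_of_lt dist_nonneg hy
  have hconn : IsPreconnected (Metric.ball z r) := (convex_ball z r).isPreconnected
  have hoff : ∀ p ∈ Metric.ball z r, p ∉ frontier Ω := fun p hp hpf => by
    have h1 : Metric.infDist z (frontier Ω) ≤ dist z p := Metric.infDist_le_dist_of_mem hpf
    have h2 : dist p z < r := hp
    rw [dist_comm] at h2
    linarith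
  have hcov : Metric.ball z r ⊆ Ω ∪ (closure Ω)ᶜ := fun p hp => by
    by_cases hpΩ : p ∈ Ω
    · exact Or.inl hpΩ
    · refine Or.inr fun hpc => hoff p hp ?_
      rw [ho.frontier_eq]; exact ⟨hpc, hpΩ⟩
  have hy' : y ∈ (closure Ω)ᶜ := (hcov hy).resolve_left hyΩ
  obtain ⟨p, -, hp1, hp2⟩ := hconn Ω (closure Ω)ᶜ ho isClosed_closure.isOpen_compl hcov
    ⟨z, Metric.mem_ball_self hr0, hz⟩ ⟨y, hy, hy'⟩
  exact hp2 (subset_closure hp1)

/-- the `ε`-deep part of a bounded open set is compact -/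
theorem jor199_deep_compact {D : Set (ℝ × ℝ)} (hDo : IsOpen D) (hDb : Bornology.IsBounded D) {ε : ℝ} (hε : 0 < ε) :
    IsCompact {z | z ∈ D ∧ ε ≤ Metric.infDist z (frontier D)} := by
  have e : {z | z ∈ D ∧ ε ≤ Metric.infDist z (frontier D)} =
      closure D ∩ {z | ε ≤ Metric.infDist z (frontier D)} := by
    ext z
    simp only [Set.mem_ofPred_eq, Set.mem_inter_iff]
    refine ⟨fun h => ⟨subset_closure h.1, h.2⟩, fun h => ⟨?_, h.2⟩⟩
    by_contra hz
    have hzf : z ∈ frontier D := by rw [hDo.frontier_eq]; exact ⟨h.1, hz⟩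
    have := Metric.infDist_zero_of_mem hzf
    linarith [h.2]
  rw [e]
  exact hDb.isCompact_closure.inter_right (isClosed_le continuous_const (Metric.continuous_infDist_pt _))

/-- **bulk, uniformly**: eventually every `ε`-deep point `z` of `D` lies in the region together with the ball of radius `depth - ε`; all lattice
points of that ball are off the polygon and all faces meeting it are in `F n`. -/
theorem jor199_deep {D : Set (ℝ × ℝ)} (hDo : IsOpen D) (hDb : Bornology.IsBounded D) {δ : ℕ → ℝ}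
    {F : ℕ → Finset (ℤ × ℤ)} (happ : IsAdmissibleApprox D δ F) {ε : ℝ} (hε : 0 < ε) :
    ∀ᶠ n in atTop, ∀ z ∈ D, ε ≤ Metric.infDist z (frontier D) →
      Metric.ball z (Metric.infDist z (frontier D) - ε) ⊆ faceRegionSq (δ n) (F n) ∧ z ∈ faceRegionSq (δ n) (F n) ∧
      (∀ v : ℤ × ℤ, jor199Pt (δ n) v ∈ Metric.ball z (Metric.infDist z (frontier D) - ε) → ¬ OnPolygon (F n) v) ∧
      ∀ (f : ℤ × ℤ) (p : ℝ × ℝ), p ∈ at30Sq (δ n) f → p ∈ Metric.ball z (Metric.infDist z (frontier D) - ε) →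
        f ∈ F n := by
  filter_upwards [happ.2.2.1 _ (jor199_deep_compact hDo hDb hε) (fun z hz => hz.1), jor199_dep_close happ hε]
    with n hK hdep z hz hzε
  have hzΩ : z ∈ faceRegionSq (δ n) (F n) := hK ⟨hz, hzε⟩
  have hball : Metric.ball z (Metric.infDist z (frontier D) - ε) ⊆ faceRegionSq (δ n) (F n) :=
    jor199_ball_subset (jor199_isOpen_region _ _) hzΩ (by have := abs_le.1 (hdep z); linarith [this.1])
  refine ⟨hball, hzΩ, fun v hv => (jor199_pt_mem_region_iff (happ.1 n) (F n) v).1 (hball hv), fun f p hpf hp => ?_⟩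
  exact jor199_face_mem_of_meets (happ.1 n) (hball hp) hpf

end Claimed.Agent.R292
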